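import Vale.Agent.P195D.Interface

/-!
Tensor products with a bimodule that has a two-term resolution by idempotent right ideals:
they carry a free resolution of `U` to a complex resolving `U'`.
-/

namespace Vale.Agent.P195D

open MulOpposite Matrix

variable {B : Type} [Ring B]

/-- A presentation `0 → ⊕ f s B → ⊕ e r B → G → 0` of a right module. -/
structure RowPres (B : Type) [Ring B] (G : Type) [AddCommGroup G] [Module Bᵐᵒᵖ G] where
  I : Type
  J : Type
  [fI : Fintype I]
  [fJ : Fintype J]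
  q : I → G
  e : I → B
  f : J → B
  M : Matrix I J B
  he : ∀ r, e r * e r = e r
  hf : ∀ s, f s * f s = f s
  heM : ∀ r s, e r * M r s = M r s
  surj : ∀ g : G, ∃ c : I → B, (∀ r, e r * c r = c r) ∧ ∑ r, op (c r) • q r = g
  rel : ∀ c : I → B, (∀ r, e r * c r = c r) →
    ((∑ r, op (c r) • q r = 0) ↔ ∃ h : J → B, (∀ s, f s * h s = h s) ∧ M *ᵥ h = c)
  inj : ∀ h : J → B, (∀ s, f s * h s = h s) → M *ᵥ h = 0 → h = 0

attribute [instance] RowPres.fI RowPres.fJ

/-- What a pairing `G × U → U'` must satisfy to identify `G ⊗ U` with `U'`, degree by degree. -/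
structure RowPairing {G : Type} [AddCommGroup G] [Module B G] [Module Bᵐᵒᵖ G] (R : RowPres B G)
    (U U' : Type) [AddCommGroup U] [Module B U] [AddCommGroup U'] [Module B U'] where
  φ : G →+ U →+ U'
  left : ∀ (x : B) (g : G) (u : U), φ (x • g) u = x • φ g u
  bal : ∀ (x : B) (g : G) (u : U), φ (op x • g) u = φ g (x • u)
  surj : ∀ u' : U', ∃ u : R.I → U, (∀ r, R.e r • u r = u r) ∧ ∑ r, φ (R.q r) (u r) = u'
  ker : ∀ u : R.I → U, (∀ r, R.e r • u r = u r) → ∑ r, φ (R.q r) (u r) = 0 →
    ∃ h : R.J → U, (∀ s, R.f s • h s = h s) ∧ (fun r => ∑ s, R.M r s • h s) = u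
  inj : ∀ h : R.J → U, (∀ s, R.f s • h s = h s) → (fun r => ∑ s, R.M r s • h s) = 0 → h = 0

/-- Row vector to element. -/
def genMap {U : Type} [AddCommGroup U] [Module B U] (P : FreeRes B U) (v : Fin (P.n 0) → B) : U :=
  ∑ j, v j • P.gen j

variable {U : Type} [AddCommGroup U] [Module B U] (P : FreeRes B U)

theorem genMap_smul (x : B) (v : Fin (P.n 0) → B) : genMap P (x • v) = x • genMap P v := by
  simp [genMap, Finset.smul_sum, mul_smul]

theorem genMap_sum {ι : Type} (s : Finset ι) (v : ι → Fin (P.n 0) → B) :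
    genMap P (∑ i ∈ s, v i) = ∑ i ∈ s, genMap P (v i) := by
  simp only [genMap, Finset.sum_apply, Finset.sum_smul]
  exact Finset.sum_comm

variable {G : Type} [AddCommGroup G] [Module B G] [Module Bᵐᵒᵖ G] (R : RowPres B G)

/-- Coefficient vectors to a vector in `G`. -/
def combo {n : ℕ} (c : R.I → Fin n → B) (j : Fin n) : G := ∑ r, op (c r j) • R.q r

theorem rMat_combo {p q : ℕ} (D : Matrix (Fin p) (Fin q) B) (c : R.I → Fin p → B) :
    rMat D (combo R c) = combo R fun r => c r ᵥ* D := by
  funext j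
  simp only [rMat, combo, vecMul, dotProduct, Finset.smul_sum, ← mul_smul, ← op_mul, Finset.op_sum,
    Finset.sum_smul]
  exact Finset.sum_comm

theorem exists_combo {n : ℕ} (v : Fin n → G) :
    ∃ c : R.I → Fin n → B, (∀ r, R.e r • c r = c r) ∧ combo R c = v := by
  choose c h1 h2 using fun j => R.surj (v j)
  exact ⟨fun r j => c j r, fun r => funext fun j => h1 j r, funext h2⟩

theorem combo_eq_zero {n : ℕ} {c : R.I → Fin n → B} (hc : ∀ r, R.e r • c r = c r)
    (h0 : combo R c = 0) : ∃ d : R.J → Fin n → B, (∀ s, R.f s • d s = d s) ∧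
      ∀ r, ∑ s, R.M r s • d s = c r := by
  choose h h1 h2 using fun j => (R.rel (fun r => c r j) fun r => congrFun (hc r) j).1
    (congrFun h0 j)
  refine ⟨fun s j => h j s, fun s => funext fun j => h1 j s, fun r => funext fun j => ?_⟩
  rw [Finset.sum_apply]
  exact congrFun (h2 j) r

theorem combo_sub {n : ℕ} {c : R.I → Fin n → B} (d : R.J → Fin n → B)
    (hd : ∀ s, R.f s • d s = d s) :
    combo R (fun r => c r - ∑ s, R.M r s • d s) = combo R c := by
  funext j
  have h := (R.rel (R.M *ᵥ fun s => d s j) fun r => by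
    simp [mulVec, dotProduct, Finset.mul_sum, ← mul_assoc, R.heM]).2
    ⟨fun s => d s j, fun s => congrFun (hd s) j, rfl⟩
  simp only [mulVec, dotProduct] at h
  simp only [combo, Pi.sub_apply, Finset.sum_apply, Pi.smul_apply, smul_eq_mul, op_sub, sub_smul,
    Finset.sum_sub_distrib, h, sub_zero]

theorem vecMul_eq_zero_of_genMap {v : Fin (P.n 0) → B} (h : genMap P v = 0) :
    ∃ w, w ᵥ* P.D 0 = v := (P.exact_zero v).1 h

theorem genMap_vecMul (w : Fin (P.n 1) → B) : genMap P (w ᵥ* P.D 0) = 0 :=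
  (P.exact_zero _).2 ⟨w, rfl⟩

/-- Idempotent-fixed preimages. -/
theorem exists_fixed_preimage {p q : ℕ} {D : Matrix (Fin p) (Fin q) B} {x : B} (hx : x * x = x)
    {v : Fin q → B} (hv : x • v = v) (h : ∃ w, w ᵥ* D = v) :
    ∃ w, x • w = w ∧ w ᵥ* D = v := by
  obtain ⟨w, hw⟩ := h
  exact ⟨x • w, by rw [smul_smul, hx], by rw [smul_vecMul, hw, hv]⟩

variable {U' : Type} [AddCommGroup U'] [Module B U'] {R} (φ : RowPairing R U U')

/-- The augmentation `G ⊗ P₀ → U'`. -/
def RowPairing.mu : (Fin (P.n 0) → G) →ₗ[B] U' where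
  toFun v := ∑ j, φ.φ (v j) (P.gen j)
  map_add' v w := by simp [Finset.sum_add_distrib]
  map_smul' x v := by simp [φ.left, Finset.smul_sum]

theorem RowPairing.mu_combo (c : R.I → Fin (P.n 0) → B) :
    φ.mu P (combo R c) = ∑ r, φ.φ (R.q r) (genMap P (c r)) := by
  simp only [RowPairing.mu, LinearMap.coe_mk, AddHom.coe_mk, combo, map_sum,
    AddMonoidHom.finsetSum_apply, φ.bal, genMap]
  exact Finset.sum_comm

theorem RowPairing.mu_surjective : Function.Surjective (φ.mu P) := by
  intro u'
  obtain ⟨u, hu, rfl⟩ := φ.surj u'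
  choose c hc using fun r => P.surj (u r)
  refine ⟨combo R fun r => R.e r • c r, ?_⟩
  rw [φ.mu_combo]
  exact Finset.sum_congr rfl fun r _ => by rw [genMap_smul, show genMap P (c r) = u r from hc r, hu]

theorem RowPairing.mu_eq_zero (v : Fin (P.n 0) → G) :
    φ.mu P v = 0 ↔ ∃ w, rMat (P.D 0) w = v := by
  constructor
  · intro hv
    obtain ⟨c, hc, rfl⟩ := exists_combo R v
    rw [φ.mu_combo] at hv
    obtain ⟨h, hh, hu⟩ := φ.ker _ (fun r => by rw [← genMap_smul, hc]) hv
    choose d hd using fun s => P.surj (h s)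
    have hu' : ∀ r, genMap P (c r - ∑ s, R.M r s • (R.f s • d s)) = 0 := by
      intro r
      have e1 : genMap P (∑ s, R.M r s • (R.f s • d s)) = genMap P (c r) := by
        rw [genMap_sum, ← congrFun hu r]
        exact Finset.sum_congr rfl fun s _ => by
          rw [genMap_smul, genMap_smul, show genMap P (d s) = h s from hd s, hh]
      simp only [genMap, Pi.sub_apply, sub_smul, Finset.sum_sub_distrib]
      exact sub_eq_zero.2 e1.symm
    choose w hw1 hw2 using fun r => exists_fixed_preimage (R.he r)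
      (v := c r - ∑ s, R.M r s • (R.f s • d s))
      (by simp only [smul_sub, Finset.smul_sum, hc, smul_smul, ← mul_assoc, R.heM])
      (vecMul_eq_zero_of_genMap P (hu' r))
    refine ⟨combo R w, ?_⟩
    rw [rMat_combo, funext hw2]
    exact combo_sub R (fun s => R.f s • d s) fun s => by rw [smul_smul, R.hf]
  · rintro ⟨w, rfl⟩
    obtain ⟨c, -, rfl⟩ := exists_combo R w
    rw [rMat_combo, φ.mu_combo]
    exact Finset.sum_eq_zero fun r _ => by rw [genMap_vecMul, map_zero]

include φ in
theorem RowPairing.tensorExactAt : ∀ i, TensorExactAt P G i := by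
  intro i v hv
  obtain ⟨c, hc, rfl⟩ := exists_combo R v
  rw [rMat_combo] at hv
  have hcD : ∀ r, R.e r • (c r ᵥ* P.D i) = c r ᵥ* P.D i := fun r => by
    rw [← smul_vecMul, hc]
  obtain ⟨d, hd, hdc⟩ := combo_eq_zero R hcD hv
  -- the correction is a boundary
  have key : ∃ h : R.J → Fin (P.n (i + 1)) → B, (∀ s, R.f s • h s = h s) ∧
      ∀ s, h s ᵥ* P.D i = d s := by
    suffices ∀ s, ∃ w, w ᵥ* P.D i = d s by
      choose h h1 h2 using fun s => exists_fixed_preimage (R.hf s) (hd s) (this s)
      exact ⟨h, h1, h2⟩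
    cases i with
    | zero =>
      have h0 := φ.inj (fun s => genMap P (d s)) (fun s => by rw [← genMap_smul, hd])
        (funext fun r => by
          rw [Pi.zero_apply, ← genMap_vecMul P (c r), ← hdc r, genMap_sum]
          exact Finset.sum_congr rfl fun s _ => (genMap_smul P _ _).symm)
      exact fun s => vecMul_eq_zero_of_genMap P (congrFun h0 s)
    | succ i =>
      have hz : ∀ j, (fun s => (d s ᵥ* P.D i) j) = 0 := fun j => R.inj _
        (fun s => by
          have := congrFun (congrArg (· ᵥ* P.D i) (hd s)) j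
          simpa [smul_vecMul] using this)
        (funext fun r => by
          have h2 : c r ᵥ* P.D (i + 1) ᵥ* P.D i = 0 := (P.exact_succ i _).2 ⟨c r, rfl⟩
          rw [← hdc r] at h2
          simpa [sum_vecMul, smul_vecMul, mulVec, dotProduct] using congrFun h2 j)
      exact fun s => (P.exact_succ i (d s)).1 (funext fun j => congrFun (hz j) s)
  obtain ⟨h, hh, hhd⟩ := key
  have hz : ∀ r, (c r - ∑ s, R.M r s • h s) ᵥ* P.D i = 0 := fun r => by
    rw [sub_vecMul, sum_vecMul]
    simp only [smul_vecMul, hhd, hdc, sub_self]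
  choose w hw1 hw2 using fun r => exists_fixed_preimage (R.he r)
    (v := c r - ∑ s, R.M r s • h s)
    (by simp only [smul_sub, Finset.smul_sum, hc, smul_smul, R.heM])
    ((P.exact_succ i _).1 (hz r))
  refine ⟨combo R w, ?_⟩
  rw [rMat_combo, funext hw2]
  exact combo_sub R h hh

end Vale.Agent.P195D
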