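import Vale.Agent.P195D.BimodX
import Vale.Agent.P195D.RowTensor

/-!
The two-term presentation of the shift bimodule as a right module, and its pairing with `U m`.
-/

namespace Vale.Agent.P195D

open MulOpposite

noncomputable section

variable {k : Type} [Field k]

/-- A layer and a level. -/
abbrev Lb : Type := Fin 2 × Fin 3

/-- The vertex with `a = 0`. -/
def v0 (p : Lb) : Ix := (p.1, 0, p.2)

/-- The vertex with `a = 1`. -/
def v1 (p : Lb) : Ix := (p.1, 1, p.2)

theorem ix_cases (u : Ix) : u = v0 (u.1, u.2.2) ∨ u = v1 (u.1, u.2.2) := by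
  obtain ⟨l, a, b⟩ := u
  fin_cases a
  · exact Or.inl rfl
  · exact Or.inr rfl

theorem v0_ne_v1 (p q : Lb) : v0 p ≠ v1 q := fun h => by
  simp [v0, v1, Prod.ext_iff] at h

theorem ob_v1 (p : Lb) : ob (v1 p) = (ob (v0 p)).sh 1 := by simp [ob, v0, v1, Ob.sh]

/-- The row of a generator: `i < 2` is `x i` at `v0`, `i = 2` the identity at `v1`. -/
def qRow : Lb × Fin 3 → Ix
  | (p, 2) => v1 p
  | (p, _) => v0 p

/-- The morphism of a generator. -/
def qHom (k : Type) [Field k] : (r : Lb × Fin 3) → Hom' k (ob (qRow r)) ((ob (v0 r.1)).sh 1)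
  | (p, 0) => xHom k (ob (v0 p)) 0
  | (p, 1) => xHom k (ob (v0 p)) 1
  | (p, 2) => idm (ob (v1 p)) ((ob (v0 p)).sh 1)

/-- A column with a single entry. -/
def colSingle {c : Ob} (u : Ix) (x : Hom' k (ob u) c) : Col k c :=
  fun u' => Pi.single (M := fun t => Hom' k (ob t) c) u x u'

theorem colSingle_same {c : Ob} (u : Ix) (x : Hom' k (ob u) c) : colSingle u x u = x :=
  Pi.single_eq_same (M := fun t => Hom' k (ob t) c) u x

theorem colSingle_ne {c : Ob} {u u' : Ix} (x : Hom' k (ob u) c) (h : u' ≠ u) :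
    colSingle u x u' = 0 :=
  Pi.single_eq_of_ne (M := fun t => Hom' k (ob t) c) h x

/-- An element of the shift bimodule with a single column. -/
def shSingle (v : Ix) (y : Col k ((ob v).sh 1)) : Shift k :=
  fun v' => Pi.single (M := fun t => Col k ((ob t).sh 1)) v y v'

theorem shSingle_same (v : Ix) (y : Col k ((ob v).sh 1)) : shSingle v y v = y :=
  Pi.single_eq_same (M := fun t => Col k ((ob t).sh 1)) v y

theorem shSingle_ne {v v' : Ix} (y : Col k ((ob v).sh 1)) (h : v' ≠ v) : shSingle v y v' = 0 :=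
  Pi.single_eq_of_ne (M := fun t => Col k ((ob t).sh 1)) h y

/-- A generator of the right module. -/
def qEl (k : Type) [Field k] (r : Lb × Fin 3) : Shift k :=
  shSingle (v0 r.1) (colSingle (qRow r) (qHom k r))

theorem qRow_zero (p : Lb) : qRow (p, 0) = v0 p := rfl
theorem qRow_one (p : Lb) : qRow (p, 1) = v0 p := rfl
theorem qRow_two (p : Lb) : qRow (p, 2) = v1 p := rfl
theorem qHom_zero (p : Lb) : qHom k (p, 0) = xHom k (ob (v0 p)) 0 := rfl
theorem qHom_one (p : Lb) : qHom k (p, 1) = xHom k (ob (v0 p)) 1 := rfl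
theorem qHom_two (p : Lb) : qHom k (p, 2) = idm (ob (v1 p)) ((ob (v0 p)).sh 1) := rfl

/-- Left multiplication by `x i` between vertices. -/
def xIx (k : Type) [Field k] (p : Lb) (i : Fin 2) : Hom' k (ob (v0 p)) (ob (v1 p)) :=
  mkE (by simp [v0, v1]; omega) (xW k i) (by simpa [v0, v1] using xW_mem (k := k) i le_rfl)

theorem xHom_comp_val {u w : Ob} (i : Fin 2) (y : Hom' k u w) :
    (comp u (u.sh 1) (w.sh 1) (xHom k u i) (shHom 1 y)).1 = (xW k i * y.1.1, xW k i * y.1.2) :=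
  mulP_x_left u.lay w.lay i y.1

theorem id1_comp_val (p : Lb) {w : Ob} (y : Hom' k (ob (v0 p)) w) :
    (comp (ob (v1 p)) ((ob (v0 p)).sh 1) (w.sh 1) (idm (ob (v1 p)) ((ob (v0 p)).sh 1))
      (shHom 1 y)).1 = y.1 := by
  show mulP p.1 p.1 w.lay (if ob (v1 p) = (ob (v0 p)).sh 1 then idP k else 0) y.1 = y.1
  rw [if_pos (ob_v1 p), mulP_idP_left]

theorem xIx_comp_val (p : Lb) (i : Fin 2) {w : Ob} (y : Hom' k (ob (v1 p)) w) :
    (comp (ob (v0 p)) (ob (v1 p)) w (xIx k p i) y).1 = (xW k i * y.1.1, xW k i * y.1.2) :=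
  mulP_x_left p.1 w.lay i y.1

theorem xIx_neg_comp_val (p : Lb) (i : Fin 2) {w : Ob} (y : Hom' k (ob (v1 p)) w) :
    (comp (ob (v0 p)) (ob (v1 p)) w (-xIx k p i) y).1 =
      (-(xW k i * y.1.1), -(xW k i * y.1.2)) := by
  show mulP p.1 p.1 w.lay (-((xW k i, 0) : Pr k)) y.1 = _
  rw [Prod.neg_mk, neg_zero, mulP_neg_x_left]

theorem opOf_xHom0 (p : Lb) (i : Fin 2) :
    opOf 0 (xHom k (ob (v0 p)) i) = if p.1 = 0 then xW k i else 0 := by
  show (if p.1 = 0 ∧ p.1 = 0 then xW k i else 0) = _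
  simp only [and_self]

theorem opOf_id1 (p : Lb) :
    opOf 0 (idm (k := k) (ob (v1 p)) ((ob (v0 p)).sh 1)) = if p.1 = 0 then 1 else 0 := by
  show (if p.1 = 0 ∧ p.1 = 0 then
    (if ob (v1 p) = (ob (v0 p)).sh 1 then idP k else 0).1 else 0) = _
  rw [if_pos (ob_v1 p)]
  simp only [and_self, idP]

theorem opOf_xIx (p : Lb) (i : Fin 2) :
    opOf 0 (xIx k p i) = if p.1 = 0 then xW k i else 0 := by
  show (if p.1 = 0 ∧ p.1 = 0 then xW k i else 0) = _
  simp only [and_self]

theorem opOf_xIx_neg (p : Lb) (i : Fin 2) :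
    opOf 0 (-xIx k p i) = if p.1 = 0 then -xW k i else 0 := by
  show (if p.1 = 0 ∧ p.1 = 0 then -xW k i else 0) = _
  simp only [and_self]

/-- The relation matrix: `(x₁, -x₀, 0)`. -/
def relM (k : Type) [Field k] : Matrix (Lb × Fin 3) Lb (Alg k) := fun r p =>
  if r.1 = p then
    (if r.2 = 0 then Alg.single (v0 p) (v1 p) (xIx k p 1)
     else if r.2 = 1 then Alg.single (v0 p) (v1 p) (-xIx k p 0) else 0)
  else 0

theorem e_mul_apply (v : Ix) (c : Alg k) (u w : Ix) :
    ((Alg.e v : Alg k) * c) u w = if u = v then c u w else 0 := by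
  rw [Alg.mul_apply]
  by_cases hu : u = v
  · subst hu
    rw [Finset.sum_eq_single u, if_pos rfl]
    · simp [Alg.e]
    · intro x _ hx
      simp [Alg.e, hx]
    · simp
  · rw [if_neg hu]
    exact Finset.sum_eq_zero fun x _ => by simp [Alg.e, hu]

theorem e_fixed_iff {v : Ix} {c : Alg k} :
    (Alg.e v : Alg k) * c = c ↔ ∀ u w, u ≠ v → c u w = 0 := by
  constructor
  · intro h u w hu
    rw [← h, e_mul_apply, if_neg hu]
  · intro h
    refine Alg.ext fun u w => ?_
    rw [e_mul_apply]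
    split
    · rfl
    · next hu => rw [h u w hu]

theorem e_idem (v : Ix) : Alg.e (k := k) v * Alg.e v = Alg.e v :=
  e_fixed_iff.2 fun _ _ hu => if_neg fun h => hu h.1

theorem single_apply_same (u v : Ix) (x : Hom' k (ob u) (ob v)) :
    Alg.single u v x u v = x := by
  simp only [Alg.single, Pi.single_eq_same]

theorem single_apply_row {u : Ix} (v : Ix) (x : Hom' k (ob u) (ob v)) {u' : Ix} (w : Ix)
    (h : u' ≠ u) : Alg.single u v x u' w = 0 := by
  simp only [Alg.single, Pi.single_eq_of_ne h]; rfl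

theorem single_mul_apply (u v : Ix) (x : Hom' k (ob u) (ob v)) (c : Alg k) (u' w : Ix) :
    (Alg.single u v x * c) u' w =
      Pi.single (M := fun t => Hom' k (ob t) (ob w)) u (comp (ob u) (ob v) (ob w) x (c v w)) u'
          := by
  rw [Alg.mul_apply]
  by_cases hu : u' = u
  · subst hu
    rw [Finset.sum_eq_single v, single_apply_same, Pi.single_eq_same]
    · intro y _ hy
      rw [Alg.single, Pi.single_eq_same, Pi.single_eq_of_ne hy, map_zero, LinearMap.zero_apply]
    · simp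
  · rw [Pi.single_eq_of_ne hu]
    exact Finset.sum_eq_zero fun y _ => by
      rw [single_apply_row v x y hu, map_zero, LinearMap.zero_apply]

theorem op_smul_qEl (c : Alg k) (r : Lb × Fin 3) (w u : Ix) :
    (op c • qEl k r) w u =
      Pi.single (M := fun t => Hom' k (ob t) ((ob w).sh 1)) (qRow r)
        (comp (ob (qRow r)) ((ob (v0 r.1)).sh 1) ((ob w).sh 1) (qHom k r)
          (shHom 1 (c (v0 r.1) w))) u := by
  rw [Shift.op_smul_apply, unop_op, Shift.col_sum_apply, Finset.sum_eq_single (v0 r.1)]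
  · rw [Col.rmul_apply]
    by_cases hu : u = qRow r
    · subst hu
      rw [Pi.single_eq_same, qEl, shSingle_same, colSingle_same]
    · rw [Pi.single_eq_of_ne hu, qEl, shSingle_same, colSingle_ne _ hu, map_zero,
        LinearMap.zero_apply]
  · intro y _ hy
    rw [Col.rmul_apply, qEl, shSingle_ne _ hy, Col.zero_apply]
    exact LinearMap.congr_fun (map_zero _) _
  · simp

theorem shift_sum_apply {ι : Type} (s : Finset ι) (f : ι → Shift k) (w u : Ix) :
    (∑ i ∈ s, f i) w u = ∑ i ∈ s, f i w u :=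
  map_sum (M := Shift k) (⟨⟨fun x => x w u, rfl⟩, fun _ _ => rfl⟩ : Shift k →+ _) f s

/-- The pair of a row `v0`: `x₀ y₀ + x₁ y₁`. -/
theorem combo_v0 (c : Lb × Fin 3 → Alg k) (p : Lb) (w : Ix) :
    ((∑ r, op (c r) • qEl k r) w (v0 p)).1 =
      (xW k 0 * (c (p, 0) (v0 p) w).1.1 + xW k 1 * (c (p, 1) (v0 p) w).1.1,
       xW k 0 * (c (p, 0) (v0 p) w).1.2 + xW k 1 * (c (p, 1) (v0 p) w).1.2) := by
  rw [shift_sum_apply, Fintype.sum_prod_type, Finset.sum_eq_single p]
  · rw [Fin.sum_univ_three, op_smul_qEl, op_smul_qEl, op_smul_qEl]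
    simp only [qRow_zero, qRow_one, qRow_two, qHom_zero, qHom_one, qHom_two, Pi.single_eq_same,
        Pi.single_eq_of_ne (v0_ne_v1 p p), add_zero]
    refine (Submodule.coe_add _ _).trans ?_
    exact congrArg₂ (· + ·) (xHom_comp_val 0 (c (p, 0) (v0 p) w)) (xHom_comp_val 1 (c (p, 1) (v0
        p) w))
  · intro q _ hq
    have h0 : v0 p ≠ v0 q := fun h => hq (by
      simp only [v0, Prod.ext_iff] at h; exact (Prod.ext h.1 h.2.2).symm)
    refine Finset.sum_eq_zero fun i _ => ?_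
    rw [op_smul_qEl]
    fin_cases i <;> simp only [Fin.zero_eta, Fin.mk_one, Fin.reduceFinMk, qRow_zero, qRow_one,
        qRow_two] <;>
      first
        | exact Pi.single_eq_of_ne h0 _
        | exact Pi.single_eq_of_ne (v0_ne_v1 p q) _
  · simp

/-- The pair of a row `v1`. -/
theorem combo_v1 (c : Lb × Fin 3 → Alg k) (p : Lb) (w : Ix) :
    ((∑ r, op (c r) • qEl k r) w (v1 p)).1 = (c (p, 2) (v0 p) w).1 := by
  rw [shift_sum_apply, Fintype.sum_prod_type, Finset.sum_eq_single p]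
  · rw [Fin.sum_univ_three, op_smul_qEl, op_smul_qEl, op_smul_qEl]
    simp only [qRow_zero, qRow_one, qRow_two, qHom_zero, qHom_one, qHom_two, Pi.single_eq_same,
        Pi.single_eq_of_ne (v0_ne_v1 p p).symm, zero_add]
    exact id1_comp_val p _
  · intro q _ hq
    have h0 : v1 p ≠ v1 q := fun h => hq (by
      simp only [v1, Prod.ext_iff] at h; exact (Prod.ext h.1 h.2.2).symm)
    refine Finset.sum_eq_zero fun i _ => ?_
    rw [op_smul_qEl]
    fin_cases i <;> simp only [Fin.zero_eta, Fin.mk_one, Fin.reduceFinMk, qRow_zero, qRow_one,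
        qRow_two] <;>
      first
        | exact Pi.single_eq_of_ne h0 _
        | exact Pi.single_eq_of_ne (v0_ne_v1 q p).symm _
  · simp

/-- The pairs of `M *ᵥ h`. -/
theorem relM_mulVec (h : Lb → Alg k) (p : Lb) (w : Ix) :
    ((Matrix.mulVec (relM k) h (p, 0)) (v0 p) w).1 =
        (xW k 1 * (h p (v1 p) w).1.1, xW k 1 * (h p (v1 p) w).1.2) ∧
      ((Matrix.mulVec (relM k) h (p, 1)) (v0 p) w).1 =
        (-(xW k 0 * (h p (v1 p) w).1.1), -(xW k 0 * (h p (v1 p) w).1.2)) ∧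
      Matrix.mulVec (relM k) h (p, 2) = 0 := by
  have e : ∀ i, Matrix.mulVec (relM k) h (p, i) = relM k (p, i) p * h p := fun i => by
    rw [Matrix.mulVec, dotProduct, Finset.sum_eq_single p]
    · intro q _ hq
      rw [relM, if_neg (Ne.symm hq), zero_mul]
    · simp
  refine ⟨?_, ?_, ?_⟩ <;> rw [e]
  · simp only [relM, if_true, single_mul_apply, Pi.single_eq_same]
    exact xIx_comp_val p 1 _
  · simp only [relM, if_true, show (1 : Fin 3) ≠ 0 by decide, if_false, single_mul_apply,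
      Pi.single_eq_same]
    exact xIx_neg_comp_val p 0 _
  · simp [relM]

theorem row_mem {p : Lb} {w : Ix} (y : Pr k) :
    y ∈ Hm k (ob (v0 p)) (ob w) ↔
      y.1 ∈ TT k True (¬ (p.1 = 0 ∧ w.1 = 1)) ((w.2.1 : ℕ) : ℤ) ((w.2.2 : ℕ) - (p.2 : ℕ) : ℤ) ∧
      y.2 ∈ TT k False (p.1 = 0 ∧ w.1 = 1) ((w.2.1 : ℕ) : ℤ) ((w.2.2 : ℕ) - (p.2 : ℕ) : ℤ) := by
  rw [mem_Hm_TT]
  simp [v0]

/-- A row with one vertex. -/
def rowEl (v : Ix) (f : ∀ w, Hom' k (ob v) (ob w)) : Alg k :=
  Pi.single (M := fun u => ∀ w, Hom' k (ob u) (ob w)) v f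

theorem rowEl_same (v : Ix) (f : ∀ w, Hom' k (ob v) (ob w)) (w : Ix) : rowEl v f v w = f w := by
  simp only [rowEl, Pi.single_eq_same]

theorem rowEl_fixed (v : Ix) (f : ∀ w, Hom' k (ob v) (ob w)) :
    (Alg.e v : Alg k) * rowEl v f = rowEl v f :=
  e_fixed_iff.2 fun u w hu => by simp only [rowEl, Pi.single_eq_of_ne hu]; rfl

theorem row_surj (g : Shift k) :
    ∃ c : Lb × Fin 3 → Alg k, (∀ r, Alg.e (v0 r.1) * c r = c r) ∧
      ∑ r, op (c r) • qEl k r = g := by
  have h0 : ∀ (p : Lb) (w : Ix), ∃ y0 y1 : Hom' k (ob (v0 p)) (ob w),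
      (xW k 0 * y0.1.1 + xW k 1 * y1.1.1, xW k 0 * y0.1.2 + xW k 1 * y1.1.2) =
        (g w (v0 p)).1 := by
    intro p w
    have hm := mem_Hm_TT.1 (g w (v0 p)).2
    simp only [Ob.sh_a, Ob.sh_b, Ob.sh_lay, ob_a, ob_b, ob_lay, v0, Fin.val_zero, Nat.cast_zero,
      sub_zero] at hm
    obtain ⟨a0, a1, ha0, ha1, ea⟩ := TT_split (by positivity) hm.1
    obtain ⟨b0, b1, hb0, hb1, eb⟩ := TT_split (by positivity) hm.2
    exact ⟨⟨(a0, b0), (row_mem _).2 ⟨ha0, hb0⟩⟩, ⟨(a1, b1), (row_mem _).2 ⟨ha1, hb1⟩⟩,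
      Prod.ext ea eb⟩
  choose y0 y1 hy using h0
  have h2 : ∀ (p : Lb) (w : Ix), (g w (v1 p)).1 ∈ Hm k (ob (v0 p)) (ob w) := fun p w => by
    have h := mem_Hm_TT.1 (g w (v1 p)).2
    have e : ((ob w).sh 1).a - (ob (v1 p)).a = (ob w).a - (ob (v0 p)).a := by
      show ((w.2.1 : ℕ) : ℤ) + 1 - ((1 : ℕ) : ℤ) = ((w.2.1 : ℕ) : ℤ) - ((0 : ℕ) : ℤ)
      push_cast; ring
    rw [e] at h
    exact mem_Hm_TT.2 h
  let c : Lb × Fin 3 → Alg k := fun r => rowEl (v0 r.1) fun w =>
    if r.2 = 0 then y0 r.1 w else if r.2 = 1 then y1 r.1 w else ⟨_, h2 r.1 w⟩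
  refine ⟨c, fun r => rowEl_fixed _ _, Shift.ext fun w => Col.ext fun u => Subtype.ext ?_⟩
  rcases ix_cases u with h | h <;> rw [h]
  · rw [combo_v0]
    simp [c, rowEl_same, hy]
  · rw [combo_v1]
    simp [c, rowEl_same]

theorem row_rel (c : Lb × Fin 3 → Alg k) (hc : ∀ r, Alg.e (v0 r.1) * c r = c r) :
    (∑ r, op (c r) • qEl k r = 0) ↔
      ∃ h : Lb → Alg k, (∀ p, Alg.e (v1 p) * h p = h p) ∧ Matrix.mulVec (relM k) h = c := by
  constructor
  · intro h
    have hv : ∀ (w u : Ix), ((∑ r, op (c r) • qEl k r) w u).1 = 0 := fun w u => by rw [h]; rfl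
    have hker : ∀ (p : Lb) (w : Ix), ∃ z : Hom' k (ob (v1 p)) (ob w),
        (xW k 1 * z.1.1, xW k 1 * z.1.2) = (c (p, 0) (v0 p) w).1 ∧
        (-(xW k 0 * z.1.1), -(xW k 0 * z.1.2)) = (c (p, 1) (v0 p) w).1 := by
      intro p w
      have e := hv w (v0 p)
      rw [combo_v0, Prod.ext_iff] at e
      obtain ⟨a0, b0⟩ := (row_mem _).1 (c (p, 0) (v0 p) w).2
      obtain ⟨a1, b1⟩ := (row_mem _).1 (c (p, 1) (v0 p) w).2
      obtain ⟨za, hza, za0, za1⟩ := TT_ker a0 a1 e.1
      obtain ⟨zb, hzb, zb0, zb1⟩ := TT_ker b0 b1 e.2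
      refine ⟨⟨(za, zb), mem_Hm_TT.2 ?_⟩, Prod.ext za0 zb0, Prod.ext za1 zb1⟩
      simpa [v1] using And.intro hza hzb
    choose z hz0 hz1 using hker
    refine ⟨fun p => rowEl (v1 p) (z p), fun p => rowEl_fixed _ _, funext fun r => ?_⟩
    obtain ⟨p, i⟩ := r
    have hfix := e_fixed_iff.1 (hc (p, i))
    refine Alg.ext fun u w => ?_
    by_cases hu : u = v0 p
    · subst hu
      refine Subtype.ext ?_
      obtain ⟨e0, e1, e2⟩ := relM_mulVec (fun q => rowEl (v1 q) (z q)) p w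
      fin_cases i
      · exact e0.trans (by rw [rowEl_same]; exact hz0 p w)
      · exact e1.trans (by rw [rowEl_same]; exact hz1 p w)
      · have e := hv w (v1 p)
        rw [combo_v1] at e
        exact (congrArg (fun x : Alg k => (x (v0 p) w).1) e2).trans e.symm
    · rw [hfix u w hu, Matrix.mulVec, dotProduct, Finset.sum_eq_single p]
      · fin_cases i <;> simp [relM, single_mul_apply, Pi.single_eq_of_ne hu]
      · intro q _ hq
        rw [relM, if_neg (Ne.symm hq), zero_mul]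
      · simp
  · rintro ⟨h, -, rfl⟩
    refine Shift.ext fun w => Col.ext fun u => Subtype.ext ?_
    rcases ix_cases u with e | e <;> rw [e]
    · obtain ⟨e0, e1, -⟩ := relM_mulVec h (u.1, u.2.2) w
      rw [combo_v0, e0, e1]
      simp [wmul_neg, ← mul_assoc, xW_comm]
    · rw [combo_v1, (relM_mulVec h (u.1, u.2.2) w).2.2]
      rfl

theorem row_inj (h : Lb → Alg k) (hh : ∀ p, Alg.e (v1 p) * h p = h p)
    (h0 : Matrix.mulVec (relM k) h = 0) : h = 0 := by
  refine funext fun p => Alg.ext fun u w => ?_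
  by_cases hu : u = v1 p
  · subst hu
    refine Subtype.ext ?_
    have e := (relM_mulVec h p w).1
    rw [h0] at e
    have e' : ((0 : Alg k) (v0 p) w).1 = (0 : Pr k) := rfl
    simp only [Pi.zero_apply, e', Prod.ext_iff] at e
    exact Prod.ext (xW_cancel 1 (e.1.symm.trans (mul_zero _).symm))
      (xW_cancel 1 (e.2.symm.trans (mul_zero _).symm))
  · rw [e_fixed_iff.1 (hh p) u w hu]; rfl

/-- The presentation of the shift bimodule. -/
def shiftPres (k : Type) [Field k] : RowPres (Alg k) (Shift k) where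
  I := Lb × Fin 3
  J := Lb
  q := qEl k
  e r := Alg.e (v0 r.1)
  f p := Alg.e (v1 p)
  M := relM k
  he r := e_idem _
  hf p := e_idem _
  heM r p := by
    refine e_fixed_iff.2 fun u w hu => ?_
    simp only [relM]
    split_ifs with h1 h2 h3
    · subst h1; exact single_apply_row _ _ _ hu
    · subst h1; exact single_apply_row _ _ _ hu
    · rfl
    · rfl
  surj := row_surj
  rel := row_rel
  inj := row_inj

/-! ### The pairing -/

/-- The values of `U m` at a vertex as values of `U (m + 1)` at its translate. -/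
def upVal (m : ℕ) (v : Ob) :
    ↥(sps k 0 .reg (m : ℤ) v) →ₗ[k] ↥(sps k 0 .reg ((m + 1 : ℕ) : ℤ) (v.sh 1)) :=
  Submodule.inclusion (le_of_eq (by simp [sps]))

@[simp] theorem upVal_val (m : ℕ) (v : Ob) (x : ↥(sps k 0 .reg (m : ℤ) v)) :
    (upVal m v x).1 = x.1 := rfl

theorem opOf_shHom {u v : Ob} (n : ℤ) (h : Hom' k u v) (i : Fin 2) :
    opOf i (shHom n h) = opOf i h := rfl

/-- The pairing of `G` and `U m`. -/
def pair0 (m : ℕ) (g : Shift k) (x : Um k m) : Um k (m + 1) := fun u =>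
  ∑ v, actHom 0 .reg ((m + 1 : ℕ) : ℤ) (ob u) ((ob v).sh 1) (g v u) (upVal m (ob v) (x v))

theorem pair0_apply (m : ℕ) (g : Shift k) (x : Um k m) (u : Ix) :
    pair0 m g x u =
      ∑ v, actHom 0 .reg ((m + 1 : ℕ) : ℤ) (ob u) ((ob v).sh 1) (g v u) (upVal m (ob v) (x v)) :=
  rfl

/-- The pairing, additive in both arguments. -/
def pairHom (k : Type) [Field k] (m : ℕ) : Shift k →+ Um k m →+ Um k (m + 1) :=
  AddMonoidHom.mk' (fun g => AddMonoidHom.mk' (fun x => pair0 m g x) fun x y => LMod.ext fun u => by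
      simp [pair0_apply, Finset.sum_add_distrib])
    fun g g' => AddMonoidHom.ext fun x => LMod.ext fun u => by
      simp [pair0_apply, Finset.sum_add_distrib]

theorem pairHom_apply (m : ℕ) (g : Shift k) (x : Um k m) : pairHom k m g x = pair0 m g x := rfl

theorem pair_left (m : ℕ) (b : Alg k) (g : Shift k) (x : Um k m) :
    pairHom k m (b • g) x = b • pairHom k m g x := by
  refine LMod.ext fun u => ?_
  simp only [pairHom_apply, pair0_apply, LMod.act_apply, Shift.bsmul_apply, Col.act_apply, map_sum,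
    LinearMap.sum_apply, actHom_comp]
  exact Finset.sum_comm

theorem pair_bal (m : ℕ) (b : Alg k) (g : Shift k) (x : Um k m) :
    pairHom k m (op b • g) x = pairHom k m g (b • x) := by
  refine LMod.ext fun u => ?_
  simp only [pairHom_apply, pair0_apply, LMod.act_apply, Shift.op_smul_apply, unop_op,
    Shift.col_sum_apply, Col.rmul_apply, map_sum, LinearMap.sum_apply, actHom_comp]
  rw [Finset.sum_comm]
  refine Finset.sum_congr rfl fun v _ => Finset.sum_congr rfl fun w _ => ?_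
  congr 1

/-- The pairing with a generator. -/
theorem pair_qEl (m : ℕ) (r : Lb × Fin 3) (x : Um k m) (u : Ix) :
    (pairHom k m (qEl k r) x u).1 =
      if u = qRow r then act (opOf 0 (qHom k r)) (x (v0 r.1)).1 else 0 := by
  rw [pairHom_apply, pair0_apply, Finset.sum_eq_single (v0 r.1)]
  · by_cases hu : u = qRow r
    · subst hu
      rw [if_pos rfl, qEl, shSingle_same, colSingle_same]
      rfl
    · rw [if_neg hu, qEl, shSingle_same, colSingle_ne _ hu, map_zero,
        LinearMap.zero_apply]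
      rfl
  · intro y _ hy
    rw [qEl, shSingle_ne _ hy, Col.zero_apply]
    exact LinearMap.congr_fun (map_zero _) _
  · simp

theorem um_sum_val {n : ℕ} {ι : Type} (s : Finset ι) (f : ι → Um k n) (u : Ix) :
    ((∑ i ∈ s, f i) u).1 = ∑ i ∈ s, (f i u).1 := by
  classical
  induction s using Finset.induction with
  | empty => rfl
  | insert a s ha ih => rw [Finset.sum_insert ha, Finset.sum_insert ha, ← ih]; rfl

/-- An element of `U n` with a single value. -/
def umSingle {n : ℕ} (v : Ix) (x : ↥(sps k 0 .reg (n : ℤ) (ob v))) : Um k n :=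
  fun u => Pi.single (M := fun t => ↥(sps k 0 .reg (n : ℤ) (ob t))) v x u

theorem umSingle_same {n : ℕ} (v : Ix) (x : ↥(sps k 0 .reg (n : ℤ) (ob v))) :
    umSingle v x v = x :=
  Pi.single_eq_same (M := fun t => ↥(sps k 0 .reg (n : ℤ) (ob t))) v x

theorem umSingle_ne {n : ℕ} {u v : Ix} (x : ↥(sps k 0 .reg (n : ℤ) (ob v))) (h : u ≠ v) :
    umSingle v x u = 0 :=
  Pi.single_eq_of_ne (M := fun t => ↥(sps k 0 .reg (n : ℤ) (ob t))) h x

theorem fixed_U_iff {m : ℕ} {v : Ix} {x : Um k m} :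
    (Alg.e v : Alg k) • x = x ↔ ∀ u, u ≠ v → x u = 0 := by
  have e : ∀ u, ((Alg.e v : Alg k) • x) u = if u = v then x u else 0 := fun u => by
    rw [LMod.act_apply]
    by_cases hu : u = v
    · subst hu
      rw [if_pos rfl, Finset.sum_eq_single u]
      · simp [Alg.e, actHom_idm]
      · intro y _ hy; simp [Alg.e, hy]
      · simp
    · rw [if_neg hu]
      exact Finset.sum_eq_zero fun y _ => by simp [Alg.e, hu]
  constructor
  · intro h u hu
    rw [← h, e, if_neg hu]
  · intro h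
    refine LMod.ext fun u => ?_
    rw [e]
    split
    · rfl
    · next hu => rw [h u hu]

/-- The values of the pairing on a family. -/
theorem pair_sum (m : ℕ) (x : Lb × Fin 3 → Um k m) (p : Lb) :
    ((∑ r, pairHom k m (qEl k r) (x r)) (v0 p)).1 =
        (if p.1 = 0 then act (xW k 0) (x (p, 0) (v0 p)).1 + act (xW k 1) (x (p, 1) (v0 p)).1
         else 0) ∧
      ((∑ r, pairHom k m (qEl k r) (x r)) (v1 p)).1 =
        (if p.1 = 0 then (x (p, 2) (v0 p)).1 else 0) := by
  have hs : ∀ u, ((∑ r, pairHom k m (qEl k r) (x r)) u).1 =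
      ∑ r, if u = qRow r then act (opOf 0 (qHom k r)) (x r (v0 r.1)).1 else 0 := fun u => by
    simp only [← pair_qEl]
    exact um_sum_val _ _ u
  constructor
  · rw [hs, Fintype.sum_prod_type, Finset.sum_eq_single p]
    · simp only [Fin.sum_univ_three, qRow_zero, qRow_one, qRow_two, qHom_zero, qHom_one,
        qHom_two, if_true, eq_false (v0_ne_v1 p p), if_false, add_zero, opOf_xHom0]
      split <;> simp
    · intro q _ hq
      refine Finset.sum_eq_zero fun i _ => if_neg ?_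
      fin_cases i <;> simp only [Fin.zero_eta, Fin.mk_one, Fin.reduceFinMk, qRow_zero, qRow_one,
          qRow_two] <;> intro h
      · exact hq (by simp only [v0, Prod.ext_iff] at h; exact (Prod.ext h.1 h.2.2).symm)
      · exact hq (by simp only [v0, Prod.ext_iff] at h; exact (Prod.ext h.1 h.2.2).symm)
      · exact v0_ne_v1 _ _ h
    · simp
  · rw [hs, Fintype.sum_prod_type, Finset.sum_eq_single p]
    · simp only [Fin.sum_univ_three, qRow_zero, qRow_one, qRow_two, qHom_zero, qHom_one,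
        qHom_two, if_true, eq_false (v0_ne_v1 p p).symm, if_false, zero_add,
        opOf_id1]
      split <;> simp [act_one]
    · intro q _ hq
      refine Finset.sum_eq_zero fun i _ => if_neg ?_
      fin_cases i <;> simp only [Fin.zero_eta, Fin.mk_one, Fin.reduceFinMk, qRow_zero, qRow_one,
          qRow_two] <;> intro h
      · exact v0_ne_v1 _ _ h.symm
      · exact v0_ne_v1 _ _ h.symm
      · exact hq (by simp only [v1, Prod.ext_iff] at h; exact (Prod.ext h.1 h.2.2).symm)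
    · simp

theorem val_v0 (m : ℕ) (p : Lb) :
    sps k 0 .reg (m : ℤ) (ob (v0 p)) = if p.1 = 0 then MS k .reg (m : ℤ) else ⊥ := by
  simp [sps, v0]

theorem val_v1 (m : ℕ) (p : Lb) :
    sps k 0 .reg (m : ℤ) (ob (v1 p)) = if p.1 = 0 then MS k .reg ((m : ℤ) - 1) else ⊥ := by
  simp [sps, v1]

theorem pair_surj (m : ℕ) (y : Um k (m + 1)) :
    ∃ x : Lb × Fin 3 → Um k m, (∀ r, (Alg.e (v0 r.1) : Alg k) • x r = x r) ∧
      ∑ r, pairHom k m (qEl k r) (x r) = y := by
  have h : ∀ p : Lb, ∃ a : Fin 3 → ↥(sps k 0 .reg (m : ℤ) (ob (v0 p))),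
      (if p.1 = 0 then act (xW k 0) (a 0).1 + act (xW k 1) (a 1).1 else 0) = (y (v0 p)).1 ∧
      (if p.1 = 0 then (a 2).1 else 0) = (y (v1 p)).1 := by
    intro p
    have h0 : (y (v0 p)).1 ∈ _ := (le_of_eq (val_v0 (k := k) (m + 1) p)) (y (v0 p)).2
    have h1 : (y (v1 p)).1 ∈ _ := (le_of_eq (val_v1 (k := k) (m + 1) p)) (y (v1 p)).2
    by_cases hp : p.1 = 0
    · rw [if_pos hp] at h0 h1
      push_cast at h0 h1
      rw [add_sub_cancel_right] at h1
      obtain ⟨a0, a1, ha0, ha1, ea⟩ := MS_split (Int.natCast_nonneg m) h0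
      have hm : sps k 0 .reg (m : ℤ) (ob (v0 p)) = MS k .reg (m : ℤ) := by rw [val_v0, if_pos hp]
      refine ⟨![⟨a0, hm ▸ ha0⟩, ⟨a1, hm ▸ ha1⟩, ⟨_, hm ▸ h1⟩], ?_, ?_⟩ <;> simp [if_pos hp, ea]
    · rw [if_neg hp, Submodule.mem_bot] at h0 h1
      exact ⟨0, by rw [if_neg hp, h0], by rw [if_neg hp, h1]⟩
  choose a ha0 ha1 using h
  refine ⟨fun r => umSingle (v0 r.1) (a r.1 r.2),
    fun r => fixed_U_iff.2 fun u hu => umSingle_ne _ hu, LMod.ext fun u => Subtype.ext ?_⟩
  rcases ix_cases u with e | e <;> rw [e]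
  · rw [(pair_sum m _ _).1]
    simpa [umSingle_same] using ha0 (u.1, u.2.2)
  · rw [(pair_sum m _ _).2]
    simpa [umSingle_same] using ha1 (u.1, u.2.2)

theorem relM_smul (m : ℕ) (h : Lb → Um k m) (p : Lb) :
    ((∑ q, relM k (p, 0) q • h q) (v0 p)).1 =
        (if p.1 = 0 then act (xW k 1) (h p (v1 p)).1 else 0) ∧
      ((∑ q, relM k (p, 1) q • h q) (v0 p)).1 =
        (if p.1 = 0 then -act (xW k 0) (h p (v1 p)).1 else 0) ∧
      (∑ q, relM k (p, 2) q • h q) = 0 ∧
      ∀ i u, u ≠ v0 p → (∑ q, relM k (p, i) q • h q) u = 0 := by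
  have e : ∀ i, ∑ q, relM k (p, i) q • h q = relM k (p, i) p • h p := fun i => by
    rw [Finset.sum_eq_single p]
    · intro q _ hq; rw [relM, if_neg (Ne.symm hq), zero_smul]
    · simp
  have es : ∀ (x : Hom' k (ob (v0 p)) (ob (v1 p))) (u : Ix),
      (Alg.single (v0 p) (v1 p) x • h p) u =
        Pi.single (M := fun t => ↥(sps k 0 .reg (m : ℤ) (ob t))) (v0 p)
          (actHom 0 .reg (m : ℤ) (ob (v0 p)) (ob (v1 p)) x (h p (v1 p))) u := by
    intro x u
    rw [LMod.act_apply]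
    by_cases hu : u = v0 p
    · subst hu
      rw [Finset.sum_eq_single (v1 p), single_apply_same, Pi.single_eq_same]
      · intro y _ hy
        rw [Alg.single, Pi.single_eq_same, Pi.single_eq_of_ne hy, map_zero, LinearMap.zero_apply]
      · simp
    · rw [Pi.single_eq_of_ne hu]
      exact Finset.sum_eq_zero fun y _ => by
        rw [single_apply_row _ x y hu, map_zero, LinearMap.zero_apply]
  refine ⟨?_, ?_, ?_, ?_⟩
  · rw [e]
    simp only [relM, if_true, es, Pi.single_eq_same, actHom_val, opOf_xIx]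
    split <;> simp
  · rw [e]
    simp only [relM, if_true, show (1 : Fin 3) ≠ 0 by decide, if_false, es, Pi.single_eq_same,
      actHom_val, opOf_xIx_neg]
    split <;> simp
  · rw [e]; simp [relM]
  · intro i u hu
    rw [e]
    fin_cases i <;> simp [relM, es, Pi.single_eq_of_ne hu]

theorem pair_ker (m : ℕ) (x : Lb × Fin 3 → Um k m) (hx : ∀ r, (Alg.e (v0 r.1) : Alg k) • x r = x r)
    (h0 : ∑ r, pairHom k m (qEl k r) (x r) = 0) :
    ∃ h : Lb → Um k m, (∀ p, (Alg.e (v1 p) : Alg k) • h p = h p) ∧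
      (fun r => ∑ p, relM k r p • h p) = x := by
  have hv : ∀ u, ((∑ r, pairHom k m (qEl k r) (x r)) u).1 = 0 := fun u => by rw [h0]; rfl
  have hz : ∀ p : Lb, ∃ z : ↥(sps k 0 .reg (m : ℤ) (ob (v1 p))),
      (if p.1 = 0 then act (xW k 1) z.1 else 0) = (x (p, 0) (v0 p)).1 ∧
      (if p.1 = 0 then -act (xW k 0) z.1 else 0) = (x (p, 1) (v0 p)).1 ∧
      (x (p, 2) (v0 p)).1 = 0 := by
    intro p
    have a0 : (x (p, 0) (v0 p)).1 ∈ _ := (le_of_eq (val_v0 (k := k) m p)) (x (p, 0) (v0 p)).2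
    have a1 : (x (p, 1) (v0 p)).1 ∈ _ := (le_of_eq (val_v0 (k := k) m p)) (x (p, 1) (v0 p)).2
    have a2 : (x (p, 2) (v0 p)).1 ∈ _ := (le_of_eq (val_v0 (k := k) m p)) (x (p, 2) (v0 p)).2
    by_cases hp : p.1 = 0
    · rw [if_pos hp] at a0 a1 a2
      have e0 := hv (v0 p)
      have e1 := hv (v1 p)
      rw [(pair_sum m x p).1, if_pos hp] at e0
      rw [(pair_sum m x p).2, if_pos hp] at e1
      obtain ⟨z, hz, z0, z1⟩ := MS_ker a0 a1 e0
      refine ⟨⟨z, by rw [val_v1, if_pos hp]; exact hz⟩, ?_, ?_, e1⟩ <;> rw [if_pos hp]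
      · exact z0
      · exact z1
    · rw [if_neg hp, Submodule.mem_bot] at a0 a1 a2
      exact ⟨0, by rw [if_neg hp, a0], by rw [if_neg hp, a1], a2⟩
  choose z z0 z1 z2 using hz
  let h : Lb → Um k m := fun p => umSingle (v1 p) (z p)
  refine ⟨h, fun p => fixed_U_iff.2 fun u hu => umSingle_ne _ hu,
    funext fun r => ?_⟩
  obtain ⟨p, i⟩ := r
  obtain ⟨e0, e1, e2, e3⟩ := relM_smul m h p
  refine LMod.ext fun u => ?_
  by_cases hu : u = v0 p
  · subst hu
    refine Subtype.ext ?_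
    fin_cases i
    · exact e0.trans (by simp only [h, umSingle_same]; exact z0 p)
    · exact e1.trans (by simp only [h, umSingle_same]; exact z1 p)
    · exact (congrArg (fun y : Um k m => (y (v0 p)).1) e2).trans (z2 p).symm
  · exact (e3 i u hu).trans (fixed_U_iff.1 (hx (p, i)) u hu).symm

theorem pair_inj (m : ℕ) (h : Lb → Um k m) (hh : ∀ p, (Alg.e (v1 p) : Alg k) • h p = h p)
    (h0 : (fun r => ∑ p, relM k r p • h p) = 0) : h = 0 := by
  refine funext fun p => LMod.ext fun u => ?_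
  by_cases hu : u = v1 p
  · subst hu
    refine Subtype.ext ?_
    have e := (relM_smul m h p).1
    rw [show ∑ q, relM k (p, 0) q • h q = 0 from congrFun h0 (p, 0)] at e
    have a : (h p (v1 p)).1 ∈ _ := (le_of_eq (val_v1 (k := k) m p)) (h p (v1 p)).2
    by_cases hp : p.1 = 0
    · rw [if_pos hp] at e
      exact act_xW_cancel 1 e.symm
    · rwa [if_neg hp, Submodule.mem_bot] at a
  · exact fixed_U_iff.1 (hh p) u hu

/-- The shift bimodule carries `U m` to `U (m + 1)`. -/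
def shiftPairing (k : Type) [Field k] (m : ℕ) :
    RowPairing (shiftPres k) (Um k m) (Um k (m + 1)) where
  φ := pairHom k m
  left b g x := pair_left m b g x
  bal b g x := pair_bal m b g x
  surj y := pair_surj m y
  ker x hx h0 := pair_ker m x hx h0
  inj h hh h0 := pair_inj m h hh h0

end

end Vale.Agent.P195D
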