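import Vale.Agent.P195D.Interface

/-!
Generic homological lemmas for free resolutions and acyclic resolutions.
-/

namespace Vale.Agent.P195D

open CategoryTheory Abelian MulOpposite Matrix

variable {B : Type} [Ring B]

/-- The rows of a suitable matrix generate a given submodule of row vectors. -/
theorem exists_rows [IsNoetherianRing B] {n : ℕ} (K : Submodule B (Fin n → B)) :
    ∃ p, ∃ D : Matrix (Fin p) (Fin n) B, ∀ v, v ∈ K ↔ ∃ w, w ᵥ* D = v := by
  obtain ⟨p, s, hs⟩ :=
    Submodule.fg_iff_exists_fin_generating_family.mp (IsNoetherian.noetherian K)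
  refine ⟨p, Matrix.of s, fun v => ?_⟩
  rw [← hs, Submodule.mem_span_range_iff_exists_fun]
  have h : ∀ w : Fin p → B, w ᵥ* Matrix.of s = ∑ i, w i • s i := fun w => by
    funext j
    simp [Matrix.vecMul, dotProduct, Finset.sum_apply]
  simp only [h]

/-- Free resolutions exist over finite-dimensional algebras. -/
theorem exists_freeRes (k : Type) [Field k] [Algebra k B] [Module.Finite k B]
    (U : Type) [AddCommGroup U] [Module B U] [Module.Finite B U] : Nonempty (FreeRes B U) := by
  have : IsNoetherianRing B := isNoetherianRing_iff.mpr (isNoetherian_of_tower k inferInstance)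
  obtain ⟨n0, gen, hgen⟩ := Submodule.fg_iff_exists_fin_generating_family.mp
    (Module.Finite.fg_top (R := B) (M := U))
  choose p D hD using fun (s : Σ n, Submodule B (Fin n → B)) => exists_rows s.2
  let next : (Σ n, Submodule B (Fin n → B)) → (Σ n, Submodule B (Fin n → B)) :=
    fun s => ⟨p s, LinearMap.ker (D s).vecMulLinear⟩
  let st : ℕ → (Σ n, Submodule B (Fin n → B)) := fun i =>
    Nat.rec ⟨n0, LinearMap.ker (Fintype.linearCombination B gen)⟩ (fun _ s => next s) i
  refine ⟨⟨fun i => (st i).1, fun i => D (st i), gen, ?_, ?_, ?_⟩⟩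
  · intro u
    exact (Submodule.mem_span_range_iff_exists_fun B).mp (hgen.symm ▸ Submodule.mem_top)
  · intro v
    exact LinearMap.mem_ker.symm.trans (hD (st 0) v)
  · intro i v
    exact LinearMap.mem_ker.symm.trans (hD (st (i + 1)) v)

section
variable {U : Type} [AddCommGroup U] [Module B U]

/-- A linear map killing the kernel of a surjection factors through it. -/
theorem exists_factor {M N X : Type} [AddCommGroup M] [Module B M] [AddCommGroup N] [Module B N]
    [AddCommGroup X] [Module B X] (p : M →ₗ[B] N) (hp : Function.Surjective p) (f : M →ₗ[B] X)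
    (hf : ∀ m, p m = 0 → f m = 0) : ∃ h : N →ₗ[B] X, h ∘ₗ p = f := by
  have hle : LinearMap.ker p ≤ LinearMap.ker f := fun m hm => hf m hm
  refine ⟨(LinearMap.ker p).liftQ f hle ∘ₗ (p.quotKerEquivOfSurjective hp).symm.toLinearMap, ?_⟩
  ext m
  have : (p.quotKerEquivOfSurjective hp).symm (p m) = Submodule.Quotient.mk m := by
    rw [LinearEquiv.symm_apply_eq]
    rfl
  simp [this]

/-- `Ext` vanishes in degree zero iff there are no nonzero linear maps. -/
theorem ez_zero_iff (X : Type) [AddCommGroup X] [Module B X] :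
    EZ B U X 0 ↔ ∀ φ : U →ₗ[B] X, φ = 0 := by
  constructor
  · intro h φ
    have h' : Subsingleton (Ext (ModuleCat.of B U) (ModuleCat.of B X) 0) := h
    have := (Ext.mk₀_bijective (ModuleCat.of B U) (ModuleCat.of B X)).1
      (h'.elim (Ext.mk₀ (ModuleCat.ofHom φ)) (Ext.mk₀ (ModuleCat.ofHom 0)))
    exact congrArg ModuleCat.Hom.hom this
  · intro h
    refine ⟨fun x y => ?_⟩
    obtain ⟨a, rfl⟩ := (Ext.mk₀_bijective _ _).2 x
    obtain ⟨b, rfl⟩ := (Ext.mk₀_bijective _ _).2 y
    congr 1
    exact ModuleCat.hom_ext ((h a.hom).trans (h b.hom).symm)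

/-- Dimension shift along a surjection from a module without higher `Ext`. -/
theorem ez_ker_iff {C : Type} [AddCommGroup C] [Module B C] (ε : C →ₗ[B] U)
    (hε : Function.Surjective ε) (X : Type) [AddCommGroup X] [Module B X]
    (hC : ∀ j, 1 ≤ j → EZ B C X j) (i : ℕ) :
    EZ B U X (i + 2) ↔ EZ B (LinearMap.ker ε) X (i + 1) := by
  have hS := LinearMap.shortExact_shortComplexKer hε
  constructor
  · intro h
    refine subsingleton_of_forall_eq 0 fun x => ?_
    have hx : hS.extClass.comp x (by lia : 1 + (i + 1) = i + 2) = 0 := h.elim _ _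
    obtain ⟨x₂, rfl⟩ := Ext.contravariant_sequence_exact₁ hS _ x _ hx
    rw [(hC (i + 1) (by lia)).elim x₂ 0, Ext.comp_zero]
  · intro h
    refine subsingleton_of_forall_eq 0 fun x => ?_
    obtain ⟨x₁, rfl⟩ := Ext.contravariant_sequence_exact₃ hS _ x ((hC (i + 2) (by lia)).elim _ _)
      (by lia : 1 + (i + 1) = i + 2)
    rw [h.elim x₁ 0, Ext.comp_zero]

/-- The first `Ext` vanishes iff maps extend from the kernel. -/
theorem ez_one_iff {C : Type} [AddCommGroup C] [Module B C] (ε : C →ₗ[B] U)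
    (hε : Function.Surjective ε) (X : Type) [AddCommGroup X] [Module B X]
    (hC : EZ B C X 1) :
    EZ B U X 1 ↔ ∀ h : LinearMap.ker ε →ₗ[B] X, ∃ g : C →ₗ[B] X,
      g ∘ₗ (LinearMap.ker ε).subtype = h := by
  have hS := LinearMap.shortExact_shortComplexKer hε
  constructor
  · intro hU h
    obtain ⟨x₂, hx₂⟩ := Ext.contravariant_sequence_exact₁ hS (ModuleCat.of B X)
      (Ext.mk₀ (ModuleCat.ofHom h)) (rfl : 1 + 0 = 1) (hU.elim _ _)
    obtain ⟨g, rfl⟩ := (Ext.mk₀_bijective _ _).2 x₂
    rw [Ext.mk₀_comp_mk₀] at hx₂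
    exact ⟨g.hom, congrArg ModuleCat.Hom.hom ((Ext.mk₀_bijective _ _).1 hx₂)⟩
  · intro H
    refine subsingleton_of_forall_eq 0 fun x => ?_
    obtain ⟨x₁, rfl⟩ := Ext.contravariant_sequence_exact₃ hS _ x (hC.elim _ _)
      (rfl : 1 + 0 = 1)
    obtain ⟨h, rfl⟩ := (Ext.mk₀_bijective _ _).2 x₁
    obtain ⟨g, hg⟩ := H h.hom
    have : h = ε.shortComplexKer.f ≫ ModuleCat.ofHom g := ModuleCat.hom_ext hg.symm
    rw [this, ← Ext.mk₀_comp_mk₀]
    exact hS.extClass_comp_assoc _

/-- `Ext` in positive degrees from an acyclic resolution. -/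
theorem ez_succ_iff_of_acyclic (X : Type) [AddCommGroup X] [Module B X] :
    ∀ (i : ℕ) (V : Type) [AddCommGroup V] [Module B V] (C : ℕ → ModuleCat.{0} B)
      (d : ∀ i, C (i + 1) →ₗ[B] C i) (ε : C 0 →ₗ[B] V), Function.Surjective ε →
      Function.Exact (d 0) ε → (∀ i, Function.Exact (d (i + 1)) (d i)) →
      (∀ i j, 1 ≤ j → EZ B (C i) X j) →
      (EZ B V X (i + 1) ↔
        ∀ f : C (i + 1) →ₗ[B] X, f ∘ₗ d (i + 1) = 0 → ∃ g : C i →ₗ[B] X, g ∘ₗ d i = f) := by
  intro i
  induction i with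
  | zero =>
    intro V _ _ C d ε hε h0 hd hC
    rw [ez_one_iff ε hε X (hC 0 1 le_rfl)]
    have hmem : ∀ x, d 0 x ∈ LinearMap.ker ε := fun x => h0.apply_apply_eq_zero x
    constructor
    · intro H f hf
      obtain ⟨h, hh⟩ := exists_factor ((d 0).codRestrict _ hmem)
        (fun z => ((h0 z.1).mp z.2).imp fun _ => Subtype.ext) f (fun m hm => by
          obtain ⟨u, rfl⟩ := (hd 0 m).mp (congrArg Subtype.val hm)
          exact LinearMap.congr_fun hf u)
      obtain ⟨g, hg⟩ := H h
      exact ⟨g, by rw [← hh, ← hg]; ext; rfl⟩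
    · intro H h
      obtain ⟨g, hg⟩ := H (h ∘ₗ (d 0).codRestrict _ hmem) (by
        ext x
        have : (d 0).codRestrict _ hmem (d 1 x) = 0 := Subtype.ext ((hd 0).apply_apply_eq_zero x)
        simp [this])
      refine ⟨g, LinearMap.ext fun z => ?_⟩
      obtain ⟨m, hm⟩ := (h0 z.1).mp z.2
      have hz : (d 0).codRestrict _ hmem m = z := Subtype.ext hm
      rw [← hz]
      exact LinearMap.congr_fun hg m
  | succ i ih =>
    intro V _ _ C d ε hε h0 hd hC
    have hmem : ∀ x, d 0 x ∈ LinearMap.ker ε := fun x => h0.apply_apply_eq_zero x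
    rw [ez_ker_iff ε hε X (hC 0) i]
    refine ih (LinearMap.ker ε) (fun j => C (j + 1)) (fun j => d (j + 1))
      ((d 0).codRestrict _ hmem) (fun z => ((h0 z.1).mp z.2).imp fun _ => Subtype.ext)
      (fun m => ?_) (fun j => hd (j + 1)) (fun j => hC (j + 1))
    exact Iff.trans ⟨congrArg Subtype.val, fun h => Subtype.ext h⟩ (hd 0 m)

/-- `Ext` is computed by resolutions by modules without higher `Ext` into `X`. -/
theorem ez_iff_of_acyclic (C : ℕ → ModuleCat.{0} B) (d : ∀ i, C (i + 1) →ₗ[B] C i)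
    (ε : C 0 →ₗ[B] U) (hε : Function.Surjective ε) (h0 : Function.Exact (d 0) ε)
    (hd : ∀ i, Function.Exact (d (i + 1)) (d i))
    (X : Type) [AddCommGroup X] [Module B X] (hC : ∀ i j, 1 ≤ j → EZ B (C i) X j) :
    (EZ B U X 0 ↔ ∀ f : C 0 →ₗ[B] X, f ∘ₗ d 0 = 0 → f = 0) ∧
      ∀ i, EZ B U X (i + 1) ↔
        ∀ f : C (i + 1) →ₗ[B] X, f ∘ₗ d (i + 1) = 0 → ∃ g : C i →ₗ[B] X, g ∘ₗ d i = f := by
  refine ⟨?_, fun i => ez_succ_iff_of_acyclic X i U C d ε hε h0 hd hC⟩
  rw [ez_zero_iff]
  constructor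
  · intro H f hf
    obtain ⟨h, hh⟩ := exists_factor ε hε f (fun m hm => by
      obtain ⟨u, rfl⟩ := (h0 m).mp hm
      exact LinearMap.congr_fun hf u)
    rw [← hh, H h, LinearMap.zero_comp]
  · intro H φ
    have := H (φ ∘ₗ ε) (by ext x; simp [h0.apply_apply_eq_zero x])
    ext u
    obtain ⟨c, rfl⟩ := hε u
    exact LinearMap.congr_fun this c

/-- A module whose identity is a sum of maps through modules without `Ext` has no `Ext`. -/
theorem ez_of_sum {ι : Type} [Fintype ι] {A : ι → Type} [∀ a, AddCommGroup (A a)]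
    [∀ a, Module B (A a)] {M : Type} [AddCommGroup M] [Module B M]
    (π : ∀ a, M →ₗ[B] A a) (e : ∀ a, A a →ₗ[B] M) (h : ∀ m, ∑ a, e a (π a m) = m)
    {X : Type} [AddCommGroup X] [Module B X] {j : ℕ} (hA : ∀ a, EZ B (A a) X j) :
    EZ B M X j := by
  refine subsingleton_of_forall_eq 0 fun x => ?_
  have hid : (𝟙 (ModuleCat.of B M) : _ ⟶ _) =
      ∑ a, ModuleCat.ofHom (π a) ≫ ModuleCat.ofHom (e a) := by
    ext m
    simp [h]
  rw [← Ext.mk₀_id_comp x, hid, Ext.mk₀_sum, Ext.sum_comp]
  refine Finset.sum_eq_zero fun a _ => ?_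
  rw [← Ext.mk₀_comp_mk₀_assoc, (hA a).elim ((Ext.mk₀ (ModuleCat.ofHom (e a))).comp x (zero_add j)) 0,
    Ext.comp_zero]

theorem ez_pi {Y X : Type} [AddCommGroup Y] [Module B Y] [AddCommGroup X] [Module B X] {j : ℕ}
    (n : ℕ) (h : EZ B Y X j) : EZ B (Fin n → Y) X j :=
  ez_of_sum (A := fun _ : Fin n => Y) (fun a => LinearMap.proj a)
    (fun a => LinearMap.single B (fun _ : Fin n => Y) a)
    (fun m => by simpa using Finset.univ_sum_single m) (fun _ => h)

theorem ez_free (n : ℕ) (X : Type) [AddCommGroup X] [Module B X] (j : ℕ) (hj : 1 ≤ j) :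
    EZ B (Fin n → B) X j := by
  obtain ⟨j, rfl⟩ := Nat.exists_eq_add_of_le hj
  have : CategoryTheory.Projective (ModuleCat.of B (Fin n → B)) :=
    ModuleCat.projective_of_free (Pi.basisFun B (Fin n))
  rw [Nat.add_comm]
  exact subsingleton_of_forall_eq 0 Ext.eq_zero_of_projective

theorem ez_prod {A C X : Type} [AddCommGroup A] [Module B A] [AddCommGroup C] [Module B C]
    [AddCommGroup X] [Module B X] {j : ℕ} (hA : EZ B A X j) (hC : EZ B C X j) :
    EZ B (A × C) X j := by
  refine subsingleton_of_forall_eq 0 fun x => ?_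
  have hid : (𝟙 (ModuleCat.of B (A × C)) : _ ⟶ _) =
      ModuleCat.ofHom (LinearMap.fst B A C) ≫ ModuleCat.ofHom (LinearMap.inl B A C) +
      ModuleCat.ofHom (LinearMap.snd B A C) ≫ ModuleCat.ofHom (LinearMap.inr B A C) := by
    ext m <;> simp
  rw [← Ext.mk₀_id_comp x, hid, Ext.mk₀_add, Ext.add_comp, ← Ext.mk₀_comp_mk₀_assoc,
    hA.elim ((Ext.mk₀ _).comp x _) 0, ← Ext.mk₀_comp_mk₀_assoc,
    hC.elim ((Ext.mk₀ _).comp x _) 0, Ext.comp_zero, Ext.comp_zero, add_zero]

theorem vecMul_eq_sum {p q : ℕ} (D : Matrix (Fin p) (Fin q) B) (w : Fin p → B) :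
    w ᵥ* D = ∑ i, w i • D i := by
  funext j
  simp [Matrix.vecMul, dotProduct, Finset.sum_apply]

/-- Linear combinations along a matrix. -/
theorem lc_vecMul {X : Type} [AddCommGroup X] [Module B X] {p q : ℕ}
    (D : Matrix (Fin p) (Fin q) B) (w : Fin p → B) (g : Fin q → X) :
    Fintype.linearCombination B g (w ᵥ* D) = Fintype.linearCombination B (lMat D g) w := by
  simp only [Fintype.linearCombination_apply, Matrix.vecMul, dotProduct, lMat, Finset.sum_smul,
    Finset.smul_sum, mul_smul]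
  exact Finset.sum_comm

theorem lc_single {X : Type} [AddCommGroup X] [Module B X] {p : ℕ} (g : Fin p → X) (s : Fin p) :
    Fintype.linearCombination B g (Pi.single s 1) = g s := by
  simp

theorem lc_eq_zero {X : Type} [AddCommGroup X] [Module B X] {p : ℕ} (g : Fin p → X)
    (h : Fintype.linearCombination B g = 0) : g = 0 := by
  funext s
  have := LinearMap.congr_fun h (Pi.single s 1)
  simpa using this

theorem exists_lc {X : Type} [AddCommGroup X] [Module B X] {p : ℕ}
    (f : (Fin p → B) →ₗ[B] X) : ∃ g : Fin p → X, Fintype.linearCombination B g = f := by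
  refine ⟨fun s => f (Pi.single s 1), ?_⟩
  apply (Pi.basisFun B (Fin p)).ext
  intro s
  simp

/-- `Ext` is computed by free resolutions. -/
theorem ez_iff_homExactAt (P : FreeRes B U) (X : Type) [AddCommGroup X] [Module B X] (n : ℕ) :
    EZ B U X n ↔ HomExactAt P X n := by
  obtain ⟨h0, hs⟩ := ez_iff_of_acyclic (fun i => ModuleCat.of B (Fin (P.n i) → B))
    (fun i => (P.D i).vecMulLinear) (Fintype.linearCombination B P.gen)
    P.surj P.exact_zero P.exact_succ X (fun i j hj => ez_free _ X j hj)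
  have key : ∀ i (g : Fin (P.n i) → X),
      Fintype.linearCombination B g ∘ₗ (P.D i).vecMulLinear =
        Fintype.linearCombination B (lMat (P.D i) g) :=
    fun i g => LinearMap.ext fun w => lc_vecMul _ _ _
  cases n with
  | zero =>
    refine h0.trans ⟨fun H g hg => ?_, fun H f hf => ?_⟩
    · exact lc_eq_zero g (H _ (by rw [key, hg]; ext; simp))
    · obtain ⟨g, rfl⟩ := exists_lc f
      rw [key] at hf
      rw [H g (lc_eq_zero _ hf)]
      ext
      simp
  | succ i =>
    refine (hs i).trans ⟨fun H g hg => ?_, fun H f hf => ?_⟩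
    · obtain ⟨f, hf⟩ := H (Fintype.linearCombination B g) (by rw [key, hg]; ext; simp)
      obtain ⟨g', rfl⟩ := exists_lc f
      rw [key] at hf
      refine ⟨g', funext fun s => ?_⟩
      have := LinearMap.congr_fun hf (Pi.single s 1)
      simpa using this
    · obtain ⟨g, rfl⟩ := exists_lc f
      rw [key] at hf
      obtain ⟨g', hg'⟩ := H g (lc_eq_zero _ hf)
      exact ⟨Fintype.linearCombination B g', by rw [key, hg']⟩

end

section Comparison

variable {U : Type} [AddCommGroup U] [Module B U] {U' : Type} [AddCommGroup U'] [Module B U']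
  {Y : Type} [AddCommGroup Y] [Module B Y] [Module Bᵐᵒᵖ Y]

omit [Module Bᵐᵒᵖ Y] in
theorem cap_eq_lc {p q : ℕ} (C : Matrix (Fin p) (Fin q) Y) (w : Fin p → B) :
    cap C w = Fintype.linearCombination B (fun s => C s) w := by
  funext t
  simp [cap, Fintype.linearCombination_apply, Finset.sum_apply]

omit [Module B Y] in
theorem rMat_rMat {p q r : ℕ} (D' : Matrix (Fin p) (Fin q) B) (D : Matrix (Fin q) (Fin r) B)
    (v : Fin p → Y) : rMat D (rMat D' v) = rMat (D' * D) v := by
  funext j
  simp only [rMat, Finset.smul_sum, ← mul_smul, ← op_mul, Matrix.mul_apply]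
  rw [Finset.sum_comm]
  exact Finset.sum_congr rfl fun i _ => by
    rw [show op (∑ t, D' i t * D t j) = ∑ t, op (D' i t * D t j) from
      (Finset.op_sum Finset.univ _), Finset.sum_smul]

omit [Module B Y] in
theorem rMat_zero {p q : ℕ} (v : Fin p → Y) :
    rMat (0 : Matrix (Fin p) (Fin q) B) v = 0 := by
  funext j
  simp [rMat]

theorem FreeRes.mul_eq_zero (P : FreeRes B U) (i : ℕ) : P.D (i + 1) * P.D i = 0 := by
  ext s j
  have h := (P.exact_succ i (P.D (i + 1) s)).mpr
    ⟨Pi.single s 1, funext fun t => by simp [Matrix.vecMul, dotProduct, Pi.single_apply]⟩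
  have := congrFun h j
  simpa [Matrix.vecMul, dotProduct, Matrix.mul_apply] using this

variable [SMulCommClass B Bᵐᵒᵖ Y]

/-- `rMat` as a linear map of left modules. -/
def rLin {p q : ℕ} (D : Matrix (Fin p) (Fin q) B) : (Fin p → Y) →ₗ[B] (Fin q → Y) where
  toFun := rMat D
  map_add' v w := by
    funext j
    simp [rMat, smul_add, Finset.sum_add_distrib]
  map_smul' b v := by
    funext j
    simp only [rMat, Pi.smul_apply, RingHom.id_apply, Finset.smul_sum]
    exact Finset.sum_congr rfl fun i _ => (smul_comm b (op (D i j)) (v i)).symm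

@[simp] theorem rLin_apply {p q : ℕ} (D : Matrix (Fin p) (Fin q) B) (v : Fin p → Y) :
    rLin D v = rMat D v := rfl

/-- Evaluation on a vector of scalars acting on the right. -/
def tHom {p : ℕ} (f : Fin p → B) : (Fin p → Y) →ₗ[B] Y where
  toFun v := ∑ t, op (f t) • v t
  map_add' v w := by simp [smul_add, Finset.sum_add_distrib]
  map_smul' b v := by
    simp only [Pi.smul_apply, RingHom.id_apply, Finset.smul_sum]
    exact Finset.sum_congr rfl fun t _ => (smul_comm b (op (f t)) (v t)).symm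

theorem tHom_apply {p : ℕ} (f : Fin p → B) (v : Fin p → Y) :
    tHom f v = ∑ t, op (f t) • v t := rfl

theorem tHom_rMat {p q : ℕ} (D : Matrix (Fin p) (Fin q) B) (f : Fin q → B) (v : Fin p → Y) :
    tHom f (rMat D v) = tHom (lMat D f) v := by
  simp only [tHom_apply, rMat, lMat, smul_eq_mul, Finset.smul_sum, ← mul_smul, ← op_mul,
    Finset.op_sum, Finset.sum_smul]
  exact Finset.sum_comm

theorem tHom_injective (hend : ∀ φ : Y →ₗ[B] Y, ∃! b : B, ∀ y, φ y = op b • y) {p : ℕ}
    (f g : Fin p → B) (h : ∀ v : Fin p → Y, tHom f v = tHom g v) : f = g := by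
  funext t
  obtain ⟨b, -, huniq⟩ := hend ((tHom f) ∘ₗ LinearMap.single B (fun _ : Fin p => Y) t)
  have key : ∀ f : Fin p → B, ∀ y : Y, tHom f (Pi.single t y) = op (f t) • y := fun f y => by
    rw [tHom_apply, Finset.sum_eq_single t]
    · simp
    · intro s _ hs
      simp [hs]
    · simp
  rw [huniq (f t) fun y => key f y, huniq (g t) fun y => (h _).trans (key g y)]

theorem exists_tHom (hend : ∀ φ : Y →ₗ[B] Y, ∃! b : B, ∀ y, φ y = op b • y) {p : ℕ}
    (φ : (Fin p → Y) →ₗ[B] Y) : ∃ f : Fin p → B, tHom f = φ := by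
  choose f hf using fun t => (hend (φ ∘ₗ LinearMap.single B (fun _ : Fin p => Y) t)).exists
  refine ⟨f, LinearMap.ext fun v => ?_⟩
  conv_rhs => rw [← Finset.univ_sum_single v, map_sum]
  rw [tHom_apply]
  exact Finset.sum_congr rfl fun t _ => (hf t (v t)).symm

theorem rMat_cap {P : FreeRes B U} {P' : FreeRes B U'}
    {C : ∀ i, Matrix (Fin (P'.n i)) (Fin (P.n i)) Y}
    (hc : ∀ i s, rMat (P.D i) (C (i + 1) s) = cap (C i) (P'.D i s)) (i : ℕ)
    (w : Fin (P'.n (i + 1)) → B) :
    rMat (P.D i) (cap (C (i + 1)) w) = cap (C i) (w ᵥ* P'.D i) := by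
  rw [cap_eq_lc, cap_eq_lc, ← rLin_apply, lc_vecMul, Fintype.linearCombination_apply,
    Fintype.linearCombination_apply, map_sum]
  refine Finset.sum_congr rfl fun s _ => ?_
  rw [map_smul, rLin_apply, hc, cap_eq_lc, Fintype.linearCombination_apply]
  rfl

/-- The maps of a comparison. -/
theorem exists_chain (P : FreeRes B U) (P' : FreeRes B U') (μ : (Fin (P.n 0) → Y) →ₗ[B] U')
    (hμ : Function.Surjective μ) (hker : ∀ v, μ v = 0 ↔ ∃ w, rMat (P.D 0) w = v)
    (hex : ∀ i, TensorExactAt P Y i) :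
    ∃ C : ∀ i, Matrix (Fin (P'.n i)) (Fin (P.n i)) Y,
      (∀ s, μ (C 0 s) = P'.gen s) ∧
      ∀ i s, rMat (P.D i) (C (i + 1) s) = cap (C i) (P'.D i s) := by
  choose C₀ hC₀ using fun s => hμ (P'.gen s)
  have hrow : ∀ i s, Pi.single s 1 ᵥ* P'.D i = P'.D i s := fun i s => by
    funext t
    simp [Matrix.vecMul, dotProduct, Pi.single_apply]
  have h1 : ∀ s, ∃ v, rMat (P.D 0) v = cap (Matrix.of C₀) (P'.D 0 s) := fun s => by
    rw [← hker, cap_eq_lc, Fintype.linearCombination_apply, map_sum]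
    simp only [map_smul]
    show ∑ x, P'.D 0 s x • μ (C₀ x) = 0
    simp only [hC₀]
    exact (P'.exact_zero _).mpr ⟨_, hrow 0 s⟩
  choose C₁ hC₁ using h1
  let St : ℕ → Type := fun i =>
    {p : Matrix (Fin (P'.n i)) (Fin (P.n i)) Y ×
        Matrix (Fin (P'.n (i + 1))) (Fin (P.n (i + 1))) Y //
      ∀ s, rMat (P.D i) (p.2 s) = cap p.1 (P'.D i s)}
  have hnext : ∀ i (a : St i), ∀ s, ∃ v,
      rMat (P.D (i + 1)) v = cap a.1.2 (P'.D (i + 1) s) := fun i a s => by
    apply hex i
    rw [cap_eq_lc, ← rLin_apply, Fintype.linearCombination_apply, map_sum]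
    simp only [map_smul, rLin_apply, a.2]
    have h0 : P'.D (i + 1) s ᵥ* P'.D i = 0 := (P'.exact_succ i _).mpr ⟨_, hrow (i + 1) s⟩
    simp only [cap_eq_lc]
    simp only [← map_smul, ← map_sum, ← vecMul_eq_sum, h0, map_zero]
  choose nxt hnxt using hnext
  let st : ∀ i, St i := fun i =>
    Nat.rec (motive := St) ⟨(Matrix.of C₀, Matrix.of C₁), hC₁⟩
      (fun i a => ⟨(a.1.2, Matrix.of (nxt i a)), hnxt i a⟩) i
  exact ⟨fun i => (st i).1.1, hC₀, fun i s => (st i).2 s⟩

variable (P : FreeRes B U) (P' : FreeRes B U')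

variable (Y) in
/-- Terms of the mapping cone. -/
abbrev coneT : ℕ → Type
  | 0 => Fin (P.n 0) → Y
  | i + 1 => (Fin (P.n (i + 1)) → Y) × (Fin (P'.n i) → B)

instance coneAddCommGroup : ∀ i, AddCommGroup (coneT Y P P' i)
  | 0 => inferInstanceAs (AddCommGroup (Fin (P.n 0) → Y))
  | i + 1 => inferInstanceAs (AddCommGroup ((Fin (P.n (i + 1)) → Y) × (Fin (P'.n i) → B)))

instance coneModule : ∀ i, Module B (coneT Y P P' i)
  | 0 => inferInstanceAs (Module B (Fin (P.n 0) → Y))
  | i + 1 => inferInstanceAs (Module B ((Fin (P.n (i + 1)) → Y) × (Fin (P'.n i) → B)))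

variable {P P'}

/-- Differentials of the mapping cone. -/
def coneD (C : ∀ i, Matrix (Fin (P'.n i)) (Fin (P.n i)) Y) :
    ∀ i, coneT Y P P' (i + 1) →ₗ[B] coneT Y P P' i
  | 0 => (rLin (P.D 0)).coprod (Fintype.linearCombination B (fun s => C 0 s))
  | i + 1 => ((rLin (P.D (i + 1))).coprod (Fintype.linearCombination B (fun s => C (i + 1) s))).prod
      (-((P'.D i).vecMulLinear ∘ₗ LinearMap.snd B _ _))

/-- The consequence of acyclicity for maps from the mapping cone to `Y`. -/
theorem cone_hom_exact {C : ∀ i, Matrix (Fin (P'.n i)) (Fin (P.n i)) Y}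
    (hc : ∀ i s, rMat (P.D i) (C (i + 1) s) = cap (C i) (P'.D i s))
    (hex : ∀ i, TensorExactAt P Y i)
    (hsurj : ∀ v : Fin (P.n 0) → Y, ∃ (w : Fin (P'.n 0) → B) (z : Fin (P.n 1) → Y),
      cap (C 0) w + rMat (P.D 0) z = v)
    (hinj : ∀ (w : Fin (P'.n 0) → B) (z : Fin (P.n 1) → Y),
      cap (C 0) w = rMat (P.D 0) z → ∃ w', w' ᵥ* P'.D 0 = w)
    (hext : ∀ j, 1 ≤ j → EZ B Y Y j) :
    (∀ f : coneT Y P P' 0 →ₗ[B] Y, f ∘ₗ coneD C 0 = 0 → f = 0) ∧
      ∀ i, ∀ f : coneT Y P P' (i + 1) →ₗ[B] Y, f ∘ₗ coneD C (i + 1) = 0 →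
        ∃ g : coneT Y P P' i →ₗ[B] Y, g ∘ₗ coneD C i = f := by
  have hrr : ∀ i (v : Fin (P.n (i + 2)) → Y), rMat (P.D i) (rMat (P.D (i + 1)) v) = 0 :=
    fun i v => by rw [rMat_rMat, P.mul_eq_zero, rMat_zero]
  have hsu : Function.Surjective (coneD C 0) := fun v => by
    obtain ⟨w, z, h⟩ := hsurj v
    refine ⟨(z, w), ?_⟩
    show rMat (P.D 0) z + Fintype.linearCombination B (fun s => C 0 s) w = v
    rw [← cap_eq_lc, add_comm, h]
  have hd : ∀ i, Function.Exact (coneD C (i + 1)) (coneD C i) := by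
    intro i
    -- the common part
    have step : ∀ (v : Fin (P.n (i + 1)) → Y) (w : Fin (P'.n i) → B),
        rMat (P.D i) v + cap (C i) w = 0 → (∃ w', w' ᵥ* P'.D i = w) →
        ∃ x, coneD C (i + 1) x = (v, w) := by
      rintro v _ h ⟨w', rfl⟩
      have h' : rMat (P.D i) (v + cap (C (i + 1)) w') = 0 := by
        rw [← rLin_apply, map_add, rLin_apply, rLin_apply, rMat_cap hc, h]
      obtain ⟨u, hu⟩ := hex i _ h'
      refine ⟨(u, -w'), ?_⟩
      show (rMat (P.D (i + 1)) u + Fintype.linearCombination B (fun s => C (i + 1) s) (-w'),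
        -((-w') ᵥ* P'.D i)) = (v, w' ᵥ* P'.D i)
      rw [hu, map_neg, ← cap_eq_lc, Matrix.neg_vecMul, neg_neg, add_neg_cancel_right]
    have comp : ∀ x, (rMat (P.D i) (coneD C (i + 1) x).1
        + cap (C i) (coneD C (i + 1) x).2) = 0 := by
      rintro ⟨v, w⟩
      show rMat (P.D i) (rMat (P.D (i + 1)) v + Fintype.linearCombination B (fun s => C (i + 1) s) w)
        + cap (C i) (-(w ᵥ* P'.D i)) = 0
      rw [← cap_eq_lc, ← rLin_apply, map_add, rLin_apply, rLin_apply, hrr, rMat_cap hc, zero_add,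
        cap_eq_lc, cap_eq_lc, map_neg, add_neg_cancel]
    cases i with
    | zero =>
      rintro ⟨v, w⟩
      constructor
      · intro h
        have h' : rMat (P.D 0) v + cap (C 0) w = 0 := by
          rw [cap_eq_lc]; exact h
        refine step v w h' (hinj w (-v) ?_)
        rw [← rLin_apply, map_neg, rLin_apply]
        exact eq_neg_of_add_eq_zero_right h'
      · rintro ⟨x, hx⟩
        have := comp x
        rw [hx, cap_eq_lc] at this
        exact this
    | succ i =>
      rintro ⟨v, w⟩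
      constructor
      · intro h
        have h1 : rMat (P.D (i + 1)) v + cap (C (i + 1)) w = 0 := by
          rw [cap_eq_lc]; exact congrArg Prod.fst h
        have h2 : w ᵥ* P'.D i = 0 := neg_eq_zero.mp (congrArg Prod.snd h)
        exact step v w h1 ((P'.exact_succ i w).mp h2)
      · rintro ⟨x, hx⟩
        have h1 := comp x
        have h2 : (coneD C (i + 2) x).2 ᵥ* P'.D i = 0 := by
          show (-(x.2 ᵥ* P'.D (i + 1))) ᵥ* P'.D i = 0
          rw [Matrix.neg_vecMul, (P'.exact_succ i _).mpr ⟨x.2, rfl⟩, neg_zero]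
        rw [hx] at h1 h2
        rw [cap_eq_lc] at h1
        exact Prod.ext h1 (neg_eq_zero.mpr h2)
  have hC : ∀ i j, 1 ≤ j → EZ B (coneT Y P P' i) Y j := by
    intro i j hj
    cases i with
    | zero => exact ez_pi _ (hext j hj)
    | succ i => exact ez_prod (ez_pi _ (hext j hj)) (ez_free _ Y j hj)
  have hEZ : ∀ n, EZ B PUnit.{1} Y n := fun n =>
    ez_of_sum (ι := Fin 0) (A := fun _ => Y) (fun _ => 0) (fun _ => 0)
      (fun _ => Subsingleton.elim _ _) (fun a => a.elim0)
  have key := ez_iff_of_acyclic (U := PUnit.{1}) (fun i => ModuleCat.of B (coneT Y P P' i))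
    (coneD C) 0 (fun u => ⟨0, Subsingleton.elim _ _⟩)
    (fun v => ⟨fun _ => hsu v, fun _ => rfl⟩) hd Y hC
  exact ⟨key.1.mp (hEZ 0), fun i => (key.2 i).mp (hEZ _)⟩

/-- A comparison exists for a bimodule whose tensor complex resolves `U'` and whose left module
endomorphisms are `B` and which has no higher self-extensions. -/
theorem exists_comparison {U' : Type} [AddCommGroup U'] [Module B U']
    (Y : Type) [AddCommGroup Y] [Module B Y] [Module Bᵐᵒᵖ Y] [SMulCommClass B Bᵐᵒᵖ Y]
    (P : FreeRes B U) (P' : FreeRes B U') (μ : (Fin (P.n 0) → Y) →ₗ[B] U')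
    (hμ : Function.Surjective μ) (hker : ∀ v, μ v = 0 ↔ ∃ w, rMat (P.D 0) w = v)
    (hex : ∀ i, TensorExactAt P Y i)
    (hend : ∀ φ : Y →ₗ[B] Y, ∃! b : B, ∀ y, φ y = op b • y)
    (hext : ∀ j, 1 ≤ j → EZ B Y Y j) : Nonempty (Comparison P P' Y) := by
  obtain ⟨C, hC₀, hc⟩ := exists_chain P P' μ hμ hker hex
  have hμcap : ∀ w : Fin (P'.n 0) → B, μ (cap (C 0) w) = ∑ s, w s • P'.gen s := fun w => by
    rw [cap_eq_lc, Fintype.linearCombination_apply, map_sum]
    simp only [map_smul, hC₀]
  have hsurj : ∀ v : Fin (P.n 0) → Y, ∃ (w : Fin (P'.n 0) → B) (z : Fin (P.n 1) → Y),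
      cap (C 0) w + rMat (P.D 0) z = v := fun v => by
    obtain ⟨w, hw⟩ := P'.surj (μ v)
    obtain ⟨z, hz⟩ := (hker (v - cap (C 0) w)).mp (by rw [map_sub, hμcap, hw, sub_self])
    exact ⟨w, z, by rw [hz, add_sub_cancel]⟩
  have hinj : ∀ (w : Fin (P'.n 0) → B) (z : Fin (P.n 1) → Y),
      cap (C 0) w = rMat (P.D 0) z → ∃ w', w' ᵥ* P'.D 0 = w := fun w z h => by
    rw [← P'.exact_zero, ← hμcap, hker]
    exact ⟨z, h.symm⟩
  obtain ⟨cone0, coneS⟩ := cone_hom_exact hc hex hsurj hinj hext
  have halpha : ∀ i (f : Fin (P.n i) → B) (w : Fin (P'.n i) → B),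
      tHom f (Fintype.linearCombination B (fun s => C i s) w) =
        Fintype.linearCombination B (alpha (C i) f) w := fun i f w => by
    rw [Fintype.linearCombination_apply, Fintype.linearCombination_apply, map_sum]
    simp only [map_smul]
    rfl
  refine ⟨⟨C, hc, hex, hsurj, hinj, fun i g hg => ?_, fun i f hf hb => ?_⟩⟩
  · have hz : ((Fintype.linearCombination B g) ∘ₗ LinearMap.snd B _ _) ∘ₗ coneD C (i + 1) = 0 :=
      LinearMap.ext fun x => by
        show Fintype.linearCombination B g (-(x.2 ᵥ* P'.D i)) = 0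
        rw [map_neg, lc_vecMul, show lMat (P'.D i) g = 0 from hg]
        simp [Fintype.linearCombination_apply]
    obtain ⟨φ, hφ⟩ := coneS i _ hz
    have hφ' := fun x => LinearMap.congr_fun hφ x
    cases i with
    | zero =>
      obtain ⟨f, rfl⟩ := exists_tHom hend φ
      refine ⟨f, ?_, ?_⟩
      · apply tHom_injective hend
        intro v
        have h : tHom f (rMat (P.D 0) v + Fintype.linearCombination B (fun s => C 0 s) 0) =
            Fintype.linearCombination B g 0 := hφ' (v, 0)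
        rw [map_zero, map_zero, add_zero, tHom_rMat] at h
        rw [h]
        simp [tHom_apply]
      · show g - alpha (C 0) f = 0
        funext s
        have h : tHom f (rMat (P.D 0) 0 + Fintype.linearCombination B (fun s => C 0 s)
            (Pi.single s 1)) = Fintype.linearCombination B g (Pi.single s 1) :=
          hφ' (0, Pi.single s 1)
        rw [map_add, halpha, tHom_rMat, map_zero, zero_add, lc_single, lc_single] at h
        rw [Pi.sub_apply, h, sub_self]
        rfl
    | succ i =>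
      obtain ⟨f, hf⟩ := exists_tHom hend (φ ∘ₗ LinearMap.inl B _ _)
      obtain ⟨h₁, hh₁⟩ := exists_lc (φ ∘ₗ LinearMap.inr B _ _)
      have hφs : ∀ v w, φ (v, w) = tHom f v + Fintype.linearCombination B h₁ w := fun v w => by
        rw [hf, hh₁, LinearMap.comp_apply, LinearMap.comp_apply, ← map_add]
        simp
      refine ⟨f, ?_, -h₁, ?_⟩
      · apply tHom_injective hend
        intro v
        have h : φ (rMat (P.D (i + 1)) v + Fintype.linearCombination B (fun s => C (i + 1) s) 0,
            -((0 : Fin (P'.n (i + 1)) → B) ᵥ* P'.D i)) =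
            Fintype.linearCombination B g 0 := hφ' (v, 0)
        rw [map_zero, map_zero, add_zero, Matrix.zero_vecMul, neg_zero, hφs, map_zero, add_zero,
          tHom_rMat] at h
        rw [h]
        simp [tHom_apply]
      · funext s
        have h : φ (rMat (P.D (i + 1)) 0 + Fintype.linearCombination B (fun s => C (i + 1) s)
            (Pi.single s 1), -(Pi.single s 1 ᵥ* P'.D i)) =
            Fintype.linearCombination B g (Pi.single s 1) := hφ' (0, Pi.single s 1)
        rw [hφs, map_add, halpha, tHom_rMat, map_zero, zero_add, map_neg, lc_vecMul, lc_single,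
          lc_single, lc_single] at h
        rw [Pi.sub_apply, ← h]
        simp [lMat, sub_eq_add_neg]
  · cases i with
    | zero =>
      have hb' : alpha (C 0) f = 0 := hb
      have h0 := cone0 (tHom f) (LinearMap.ext fun x => by
        show tHom f (rMat (P.D 0) x.1 + Fintype.linearCombination B (fun s => C 0 s) x.2) = 0
        rw [map_add, halpha, tHom_rMat, show lMat (P.D 0) f = 0 from hf, hb']
        simp [tHom_apply, Fintype.linearCombination_apply])
      show f = 0
      apply tHom_injective hend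
      intro v
      rw [h0]
      simp [tHom_apply]
    | succ i =>
      obtain ⟨h₁, hh₁⟩ := hb
      obtain ⟨φ, hφ⟩ := coneS i ((tHom f).coprod (Fintype.linearCombination B h₁))
        (LinearMap.ext fun x => by
          show tHom f (rMat (P.D (i + 1)) x.1
              + Fintype.linearCombination B (fun s => C (i + 1) s) x.2)
            + Fintype.linearCombination B h₁ (-(x.2 ᵥ* P'.D i)) = 0
          rw [map_add, halpha, tHom_rMat, show lMat (P.D (i + 1)) f = 0 from hf, map_neg,
            lc_vecMul, hh₁]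
          simp [tHom_apply])
      cases i with
      | zero =>
        obtain ⟨g, rfl⟩ := exists_tHom hend φ
        refine ⟨g, tHom_injective hend _ _ fun v => ?_⟩
        have h : tHom g (rMat (P.D 0) v + Fintype.linearCombination B (fun s => C 0 s) 0) =
            tHom f v + Fintype.linearCombination B h₁ 0 := LinearMap.congr_fun hφ (v, 0)
        rw [map_zero, map_zero, add_zero, add_zero, tHom_rMat] at h
        exact h
      | succ i =>
        obtain ⟨g, hg⟩ := exists_tHom hend (φ ∘ₗ LinearMap.inl B _ _)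
        refine ⟨g, tHom_injective hend _ _ fun v => ?_⟩
        have h : φ (rMat (P.D (i + 1)) v + Fintype.linearCombination B (fun s => C (i + 1) s) 0,
            -((0 : Fin (P'.n (i + 1)) → B) ᵥ* P'.D i)) =
            tHom f v + Fintype.linearCombination B h₁ 0 := LinearMap.congr_fun hφ (v, 0)
        rw [map_zero, map_zero, add_zero, add_zero, Matrix.zero_vecMul, neg_zero] at h
        rw [← tHom_rMat, hg]
        exact h

end Comparison

end Vale.Agent.P195D
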