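import Mathlib

/-!
Interface for the counterexample to the Auslander-Reiten conjecture (P195).

Matrix conventions, `B` a ring:
* a free resolution acts on ROW vectors, `w ↦ w ᵥ* D`;
* `rMat D v` is the same formula on a right `B`-module (the complex `Y ⊗_B P`);
* `lMat D f` is the dual formula on a left `B`-module (the complex `Hom_B(P, X)`).
-/

namespace Vale.Agent.P195D

open CategoryTheory Abelian MulOpposite Matrix

/-- `Ext^n(M, N)` vanishes. -/
def EZ (B : Type) [Ring B] (M N : Type) [AddCommGroup M] [Module B M] [AddCommGroup N]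
    [Module B N] (n : ℕ) : Prop :=
  Subsingleton (Ext (ModuleCat.of B M) (ModuleCat.of B N) n)

section
variable {B : Type} [Ring B]

/-- The action of a matrix on row vectors with entries in a right module. -/
def rMat {Y : Type} [AddCommGroup Y] [Module Bᵐᵒᵖ Y] {p q : ℕ} (D : Matrix (Fin p) (Fin q) B)
    (v : Fin p → Y) : Fin q → Y := fun j => ∑ i, op (D i j) • v i

/-- The action of a matrix on column vectors with entries in a left module. -/
def lMat {X : Type} [AddCommGroup X] [Module B X] {p q : ℕ} (D : Matrix (Fin p) (Fin q) B)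
    (f : Fin q → X) : Fin p → X := fun i => ∑ j, D i j • f j

/-- Row vector times a matrix with entries in a bimodule. -/
def cap {Y : Type} [AddCommGroup Y] [Module B Y] {p q : ℕ} (C : Matrix (Fin p) (Fin q) Y)
    (w : Fin p → B) : Fin q → Y := fun t => ∑ s, w s • C s t

/-- Matrix with entries in a bimodule times a column vector. -/
def alpha {Y : Type} [AddCommGroup Y] [Module Bᵐᵒᵖ Y] {p q : ℕ} (C : Matrix (Fin p) (Fin q) Y)
    (f : Fin q → B) : Fin p → Y := fun s => ∑ t, op (f t) • C s t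

/-- A resolution by finitely generated free modules. -/
structure FreeRes (B : Type) [Ring B] (U : Type) [AddCommGroup U] [Module B U] where
  n : ℕ → ℕ
  D : ∀ i, Matrix (Fin (n (i + 1))) (Fin (n i)) B
  gen : Fin (n 0) → U
  surj : ∀ u : U, ∃ v : Fin (n 0) → B, ∑ j, v j • gen j = u
  exact_zero : ∀ v : Fin (n 0) → B, (∑ j, v j • gen j = 0) ↔ ∃ w, w ᵥ* D 0 = v
  exact_succ : ∀ (i : ℕ) (v : Fin (n (i + 1)) → B), v ᵥ* D i = 0 ↔ ∃ w, w ᵥ* D (i + 1) = v

variable {U : Type} [AddCommGroup U] [Module B U] (P : FreeRes B U)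

/-- Exactness of `Hom_B(P, X)` in degree `i`. -/
def HomExactAt (X : Type) [AddCommGroup X] [Module B X] : ℕ → Prop
  | 0 => ∀ f : Fin (P.n 0) → X, lMat (P.D 0) f = 0 → f = 0
  | i + 1 => ∀ f : Fin (P.n (i + 1)) → X, lMat (P.D (i + 1)) f = 0 → ∃ g, lMat (P.D i) g = f

/-- Cocycles of `Hom_B(P, X)`. -/
def IsCocycle (X : Type) [AddCommGroup X] [Module B X] (i : ℕ) (f : Fin (P.n i) → X) : Prop :=
  lMat (P.D i) f = 0

/-- Coboundaries of `Hom_B(P, X)`. -/
def IsCobdry (X : Type) [AddCommGroup X] [Module B X] : ∀ i : ℕ, (Fin (P.n i) → X) → Prop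
  | 0, f => f = 0
  | i + 1, f => ∃ g, lMat (P.D i) g = f

/-- Exactness of `Y ⊗_B P` in the positive degree `i + 1`. -/
def TensorExactAt (Y : Type) [AddCommGroup Y] [Module Bᵐᵒᵖ Y] (i : ℕ) : Prop :=
  ∀ v : Fin (P.n (i + 1)) → Y, rMat (P.D i) v = 0 → ∃ w, rMat (P.D (i + 1)) w = v

end

section
variable (k : Type) [Field k]

/-- The `k`-dual of a right `B`-module, a left `B`-module by `(b • ξ) y = ξ (y b)`. -/
def RDual (Y : Type) [AddCommGroup Y] [Module k Y] : Type := Y →ₗ[k] k

variable (Y : Type) [AddCommGroup Y] [Module k Y]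

instance : AddCommGroup (RDual k Y) := inferInstanceAs (AddCommGroup (Y →ₗ[k] k))

/-- Evaluation. -/
def RDual.eval (ξ : RDual k Y) : Y →ₗ[k] k := ξ

variable {k Y}
variable {B : Type} [Ring B] [Module Bᵐᵒᵖ Y] [SMulCommClass Bᵐᵒᵖ k Y]

instance : SMul B (RDual k Y) :=
  ⟨fun b ξ => (RDual.eval k Y ξ).comp (DistribSMul.toLinearMap k Y (op b))⟩

theorem RDual.smul_apply (b : B) (ξ : RDual k Y) (y : Y) :
    RDual.eval k Y (b • ξ) y = RDual.eval k Y ξ (op b • y) := rfl

instance : Module B (RDual k Y) where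
  one_smul ξ := LinearMap.ext fun y => by
    show RDual.eval k Y ξ (op (1 : B) • y) = RDual.eval k Y ξ y
    rw [op_one, one_smul]
  mul_smul a b ξ := LinearMap.ext fun y => by
    show RDual.eval k Y ξ (op (a * b) • y) = RDual.eval k Y ξ (op b • op a • y)
    rw [op_mul, mul_smul]
  smul_zero b := LinearMap.ext fun y => rfl
  smul_add b ξ η := LinearMap.ext fun y => rfl
  add_smul a b ξ := LinearMap.ext fun y => by
    show RDual.eval k Y ξ (op (a + b) • y)
      = RDual.eval k Y ξ (op a • y) + RDual.eval k Y ξ (op b • y)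
    rw [show op (a + b) = op a + op b from rfl, add_smul, map_add]
  zero_smul ξ := LinearMap.ext fun y => by
    show RDual.eval k Y ξ (op (0 : B) • y) = 0
    rw [op_zero, zero_smul, map_zero]

end

/-- A comparison `P' → Y ⊗_B P` which is a quasi-isomorphism and induces a quasi-isomorphism
`Hom(P, B) → Hom(P', Y)`. -/
structure Comparison {B : Type} [Ring B] {U U' : Type} [AddCommGroup U] [Module B U]
    [AddCommGroup U'] [Module B U'] (P : FreeRes B U) (P' : FreeRes B U')
    (Y : Type) [AddCommGroup Y] [Module B Y] [Module Bᵐᵒᵖ Y] where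
  C : ∀ i, Matrix (Fin (P'.n i)) (Fin (P.n i)) Y
  comm : ∀ i s, rMat (P.D i) (C (i + 1) s) = fun j => ∑ t, P'.D i s t • C i t j
  exact : ∀ i, TensorExactAt P Y i
  surj : ∀ v : Fin (P.n 0) → Y, ∃ (w : Fin (P'.n 0) → B) (z : Fin (P.n 1) → Y), cap (C 0) w + rMat (P.D 0) z = v
  inj : ∀ (w : Fin (P'.n 0) → B) (z : Fin (P.n 1) → Y), cap (C 0) w = rMat (P.D 0) z → ∃ w', w' ᵥ* P'.D 0 = w
  hom_surj : ∀ i g, IsCocycle P' Y i g →
    ∃ f, IsCocycle P B i f ∧ IsCobdry P' Y i (g - alpha (C i) f)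
  hom_inj : ∀ i f, IsCocycle P B i f → IsCobdry P' Y i (alpha (C i) f) → IsCobdry P B i f

/-- A counterexample to the Auslander-Reiten conjecture over the field `k`. -/
def ARCounterexample (k : Type) [Field k] : Prop :=
  ∃ (R : Type) (_ : Ring R) (_ : Algebra k R) (_ : Module.Finite k R)
    (M : Type) (_ : AddCommGroup M) (_ : Module R M) (_ : Module.Finite R M),
    ¬ Module.Projective R M ∧ ∀ i : ℕ, 1 ≤ i →
      Subsingleton (Ext (ModuleCat.of R M) (ModuleCat.of R M) i) ∧
      Subsingleton (Ext (ModuleCat.of R M) (ModuleCat.of R R) i)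

end Vale.Agent.P195D
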