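import Vale.Agent.P195D.ColFacts
import Vale.Agent.P195D.Homology

/-!
The shift bimodule has no higher self-extensions and its endomorphisms are `B`.
-/

namespace Vale.Agent.P195D

open CategoryTheory Abelian MulOpposite

/-- If the identity of the second argument is a sum of maps through modules into which there is no
`Ext`, there is no `Ext`. -/
theorem ez_of_sum_right {B : Type} [Ring B] {ι : Type} [Fintype ι] {A : ι → Type}
    [∀ a, AddCommGroup (A a)] [∀ a, Module B (A a)] {M : Type} [AddCommGroup M] [Module B M]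
    (π : ∀ a, M →ₗ[B] A a) (e : ∀ a, A a →ₗ[B] M) (h : ∀ m, ∑ a, e a (π a m) = m)
    {X : Type} [AddCommGroup X] [Module B X] {j : ℕ} (hA : ∀ a, EZ B X (A a) j) :
    EZ B X M j := by
  refine subsingleton_of_forall_eq 0 fun x => ?_
  have hid : (𝟙 (ModuleCat.of B M) : _ ⟶ _) =
      ∑ a, ModuleCat.ofHom (π a) ≫ ModuleCat.ofHom (e a) := by
    ext m
    simp [h]
  rw [← Ext.comp_mk₀_id x, hid, Ext.mk₀_sum, Ext.comp_sum]
  refine Finset.sum_eq_zero fun a _ => ?_
  rw [← Ext.mk₀_comp_mk₀, ← Ext.comp_assoc_of_third_deg_zero,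
    (hA a).elim (x.comp (Ext.mk₀ (ModuleCat.ofHom (π a))) (add_zero j)) 0, Ext.zero_comp]

noncomputable section

variable {k : Type} [Field k]

/-- The projection of the shift bimodule onto a column. -/
def Shift.proj (v : Ix) : Shift k →ₗ[Alg k] Col k ((ob v).sh 1) :=
  LinearMap.proj (R := Alg k) (φ := fun v : Ix => Col k ((ob v).sh 1)) v

/-- The inclusion of a column into the shift bimodule. -/
def Shift.incl (v : Ix) : Col k ((ob v).sh 1) →ₗ[Alg k] Shift k :=
  LinearMap.single (Alg k) (fun v : Ix => Col k ((ob v).sh 1)) v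

theorem Shift.sum_incl_proj (g : Shift k) : ∑ v, Shift.incl v (Shift.proj v g) = g :=
  Finset.univ_sum_single (M := fun v : Ix => Col k ((ob v).sh 1)) g

/-- The vertices satisfy the conditions on translated columns. -/
theorem shift_bounds (v w : Ix) :
    0 ≤ ((ob v).sh 1).a ∧ 0 ≤ ((ob v).sh 1).b ∧ ((ob v).sh 1).b ≤ 2 ∧
      ((ob v).sh 1).a - 1 ≤ ((ob w).sh 1).a := by
  obtain ⟨i, a, b⟩ := v
  obtain ⟨i', a', b'⟩ := w
  have ha := a.2
  have hb := b.2
  simp only [Ob.sh_a, Ob.sh_b, ob_a, ob_b]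
  omega

theorem ez_shift (j : ℕ) (hj : 1 ≤ j) : EZ (Alg k) (Shift k) (Shift k) j :=
  ez_of_sum Shift.proj Shift.incl Shift.sum_incl_proj fun v =>
    ez_of_sum_right Shift.proj Shift.incl Shift.sum_incl_proj fun w =>
      ez_col _ _ (shift_bounds v w).1 (shift_bounds v w).2.1 (shift_bounds v w).2.2.1
        (shift_bounds v w).2.2.2 j hj

theorem shHom_bijective {u v : Ob} (n : ℤ) :
    Function.Bijective (shHom (k := k) (u := u) (v := v) n) :=
  ⟨fun x y h => Subtype.ext (congrArg Subtype.val h :),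
    fun x => ⟨⟨x.1, by simpa [Hm] using x.2⟩, Subtype.ext rfl⟩⟩

theorem Shift.incl_apply (v v' : Ix) (x : Col k ((ob v).sh 1)) :
    Shift.incl v x v' = Pi.single (M := fun v : Ix => Col k ((ob v).sh 1)) v x v' := rfl

theorem proj_op_incl (b : Alg k) (v w : Ix) (x : Col k ((ob v).sh 1)) :
    Shift.proj w (op b • Shift.incl v x) = Col.rmul (shHom 1 (b v w)) x := by
  have h : Shift.proj w (op b • Shift.incl v x) =
      ∑ v', Col.rmul (shHom 1 (b v' w)) (Shift.incl v x v') :=
    Shift.op_smul_apply (op b) (Shift.incl v x) w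
  rw [h, Finset.sum_eq_single v]
  · rw [Shift.incl_apply, Pi.single_eq_same]
  · intro v' _ hne
    rw [Shift.incl_apply, Pi.single_eq_of_ne hne, map_zero]
  · exact fun h => absurd (Finset.mem_univ v) h

theorem end_shift (φ : Shift k →ₗ[Alg k] Shift k) : ∃! b : Alg k, ∀ y, φ y = op b • y := by
  have hbij : ∀ v w : Ix, Function.Bijective fun x : Hom' k (ob v) (ob w) =>
      Col.rmul (shHom 1 x) := fun v w =>
    (rmul_bijective _ _ (shift_bounds v w).1 (shift_bounds v w).2.1 (shift_bounds v w).2.2.1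
      (shift_bounds v w).2.2.2).comp (shHom_bijective 1)
  choose b hb using fun v w => (hbij v w).2 (Shift.proj w ∘ₗ φ ∘ₗ Shift.incl v)
  have hb1 : ∀ (v w : Ix) (x : Col k ((ob v).sh 1)),
      Col.rmul (shHom 1 (b v w)) x = Shift.proj w (φ (Shift.incl v x)) :=
    fun v w x => LinearMap.congr_fun (hb v w) x
  refine ⟨b, fun y => Shift.ext fun w => ?_, fun b' hb' => Alg.ext fun v w => (hbij v w).1 ?_⟩
  · rw [Shift.op_smul_apply]
    have h1 : Shift.proj w (φ y) = ∑ v, Shift.proj w (φ (Shift.incl v (Shift.proj v y))) := by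
      conv_lhs => rw [← Shift.sum_incl_proj y, map_sum, map_sum]
    exact h1.trans (Finset.sum_congr rfl fun v _ => (hb1 v w (Shift.proj v y)).symm)
  · refine LinearMap.ext fun x => ?_
    refine Eq.trans ?_ (hb1 v w x).symm
    rw [hb' (Shift.incl v x)]
    exact (proj_op_incl b' v w x).symm

end

end Vale.Agent.P195D
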