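import Vale.Agent.P195D.Maps
import Vale.Agent.P195D.Interface
import Vale.Agent.P195D.BimodRows
import Vale.Agent.P195D.ShiftFacts
import Vale.Agent.P195D.Homology

/-!
The shift bimodule carries U m to U (m + 1).
-/

namespace Vale.Agent.P195D

open MulOpposite

noncomputable section

variable {k : Type} [Field k]

theorem comparison_shift [CharZero k] (m : ℕ) (P : FreeRes (Alg k) (Um k m))
    (P' : FreeRes (Alg k) (Um k (m + 1))) : Nonempty (Comparison P P' (Shift k)) :=
  exists_comparison (Shift k) P P' ((shiftPairing k m).mu P) ((shiftPairing k m).mu_surjective P)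
    ((shiftPairing k m).mu_eq_zero P) ((shiftPairing k m).tensorExactAt P) end_shift ez_shift

end

end Vale.Agent.P195D
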