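import Vale.Agent.P195D.ResDef

/-!
The Koszul sequences of `∂₁, ∂₂` and of `x₁, x₂` acting on the right of the spaces `Λ`.
-/

namespace Vale.Agent.P195D.Res

set_option linter.unusedSimpArgs false

open MvPolynomial

noncomputable section

variable {k : Type} [Field k] [CharZero k]

omit [CharZero k] in
theorem cf_mul_mon (w : W k) (δ η : Gam) (g : Pl k) :
    cf (w * mon δ g) η = cf w (η - δ) * tau (η - δ) g := by
  induction w using W_induction with
  | hmon γ f =>
    rw [mon_mul_mon, cf_mon, cf_mon]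
    by_cases h : γ = η - δ
    · subst h; simp
    · rw [if_neg h, if_neg (fun e => h (eq_sub_of_add_eq e)), zero_mul]
  | hadd u v hu hv => simp only [add_mul, cf_add, hu, hv]

/-- The linear form `θ_i - η_i`. -/
def lin (k : Type) [Field k] (i : Fin 2) (η : Gam) : Pl k :=
  X i - MvPolynomial.C ((crd η i : ℤ) : k)

omit [CharZero k] in
@[simp] theorem ev_lin (q η : Gam) (i : Fin 2) :
    ev q (lin k i η) = ((crd q i : ℤ) : k) - ((crd η i : ℤ) : k) := by simp [lin, ev]

omit [CharZero k] in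
theorem cf_mul_dd (w : W k) (i : Fin 2) (η : Gam) :
    cf (w * dd i) η = cf w (η + ee i) * lin k i η := by
  rw [dd, cf_mul_mon, sub_neg_eq_add]
  congr 1
  simp [lin]
  ring

omit [CharZero k] in
theorem cf_mul_xx (w : W k) (i : Fin 2) (η : Gam) : cf (w * xx i) η = cf w (η - ee i) := by
  rw [xx, cf_mul_mon, map_one, mul_one]

omit [CharZero k] in
theorem cf_mul_xi (w : W k) (i : Fin 2) (η : Gam) : cf (w * xi i) η = cf w (η + ee i) := by
  rw [xi, cf_mul_mon, map_one, mul_one, sub_neg_eq_add]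

/-! `rw` and `simp` do not see through the instance of negation on `W k`. -/

omit [CharZero k] in
@[simp] theorem w_mul_neg (a b : W k) : a * -b = -(a * b) := mul_neg a b

omit [CharZero k] in
@[simp] theorem w_neg_mul (a b : W k) : -a * b = -(a * b) := neg_mul a b

omit [CharZero k] in
theorem w_mul_sub (a b c : W k) : a * (b - c) = a * b - a * c := mul_sub a b c

omit [CharZero k] in
theorem w_sub_mul (a b c : W k) : (a - b) * c = a * c - b * c := sub_mul a b c

/-! ### Polynomials on the lattice -/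

theorem eq_zero_of_ev {f : Pl k} (h : ∀ q : Gam, ev q f = 0) : f = 0 := by
  refine MvPolynomial.funext_set (fun _ => Set.range fun n : ℤ => (n : k))
    (fun _ => Set.infinite_range_of_injective Int.cast_injective) ?_
  intro x hx
  obtain ⟨a, ha⟩ := hx 0 (Set.mem_univ _)
  obtain ⟨b, hb⟩ := hx 1 (Set.mem_univ _)
  have e : x = fun i => ((crd (a, b) i : ℤ) : k) := by
    funext i; fin_cases i
    · simpa [crd] using ha.symm
    · simpa [crd] using hb.symm
  rw [e, map_zero]
  simpa [ev, aeval_def] using h (a, b)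

theorem lin_ne_zero (i : Fin 2) (η : Gam) : lin k i η ≠ 0 := fun h => by
  have := congrArg (ev (η + ee i)) h
  simp [crd_add] at this

/-- Substitution of an integer for one variable. -/
def sub (i : Fin 2) (c : ℤ) : Pl k →ₐ[k] Pl k :=
  aeval fun j => if j = i then MvPolynomial.C (c : k) else X j

/-- A point moved to a line. -/
def put (i : Fin 2) (c : ℤ) (q : Gam) : Gam := if i = 0 then (c, q.2) else (q.1, c)

theorem crd_put (i j : Fin 2) (c : ℤ) (q : Gam) :
    crd (put i c q) j = if j = i then c else crd q j := by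
  fin_cases i <;> fin_cases j <;> simp [put, crd]

omit [CharZero k] in
theorem ev_sub' (i : Fin 2) (c : ℤ) (q : Gam) (f : Pl k) :
    ev q (sub i c f) = ev (put i c q) f := by
  have : (ev (k := k) q).comp (sub i c) = ev (put i c q) := algHom_ext fun j => by
    by_cases h : j = i <;> simp [sub, ev, crd_put, h]
  exact AlgHom.congr_fun this f

omit [CharZero k] in
theorem totalDegree_sub_le (i : Fin 2) (c : ℤ) (f : Pl k) :
    (sub i c f).totalDegree ≤ f.totalDegree := by
  conv_lhs => rw [f.as_sum, map_sum]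
  refine (totalDegree_finsetSum_le fun d hd => ?_)
  refine le_trans ?_ (le_totalDegree hd)
  rw [sub, aeval_monomial]
  refine (totalDegree_mul _ _).trans ?_
  rw [show (algebraMap k (Pl k)) (coeff d f) = MvPolynomial.C (coeff d f) from rfl, totalDegree_C,
    zero_add, Finsupp.prod]
  refine (totalDegree_finsetProd _ _).trans ?_
  refine Finset.sum_le_sum fun j _ => ?_
  refine (totalDegree_pow _ _).trans ?_
  calc d j * (if j = i then MvPolynomial.C (c : k) else X j : Pl k).totalDegree ≤ d j * 1 := by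
        gcongr
        split
        · exact le_of_eq_of_le (totalDegree_C _) zero_le_one
        · exact (totalDegree_X _).le
    _ = d j := mul_one _

omit [CharZero k] in
theorem exists_sub_eq_mul (i : Fin 2) (c : ℤ) (f : Pl k) :
    ∃ A, f - sub i c f = A * (X i - MvPolynomial.C (c : k)) := by
  induction f using MvPolynomial.induction_on with
  | C a => exact ⟨0, by simp [sub]⟩
  | add p q hp hq =>
    obtain ⟨A, hA⟩ := hp
    obtain ⟨B, hB⟩ := hq
    exact ⟨A + B, by rw [map_add, add_mul, ← hA, ← hB]; ring⟩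
  | mul_X p j hp =>
    obtain ⟨A, hA⟩ := hp
    by_cases h : j = i
    · refine ⟨A * X j + sub i c p, ?_⟩
      rw [map_mul, show sub i c (X j : Pl k) = MvPolynomial.C (c : k) by simp [sub, h]]
      subst h
      linear_combination (X j : Pl k) * hA
    · refine ⟨A * X j, ?_⟩
      rw [map_mul, show sub i c (X j : Pl k) = X j by simp [sub, h]]
      linear_combination (X j : Pl k) * hA

theorem degree_of_mul_lin {A f : Pl k} {i : Fin 2} {η : Gam} (h : f = A * lin k i η)
    (hA : A ≠ 0) : A.totalDegree + 1 ≤ f.totalDegree := by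
  rw [h, totalDegree_mul_of_isDomain hA (lin_ne_zero i η)]
  refine Nat.add_le_add_left ?_ _
  by_contra hc
  have h0 : (lin k i η).totalDegree = 0 := by omega
  obtain ⟨a, ha⟩ : ∃ a, lin k i η = MvPolynomial.C a := ⟨_, totalDegree_eq_zero_iff_eq_C.1 h0⟩
  have h1 := congrArg (ev η) ha
  have h2 := congrArg (ev (η + ee i)) ha
  simp [crd_add, ev, lin] at h1 h2
  rw [← h1] at h2
  simp at h2

/-- A polynomial vanishing on a line is divisible by its equation. -/
theorem exists_of_line {f : Pl k} (i : Fin 2) (η : Gam)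
    (h : ∀ q, crd q i = crd η i → ev q f = 0) : ∃ A, f = A * lin k i η := by
  obtain ⟨A, hA⟩ := exists_sub_eq_mul i (crd η i) f
  have h0 : sub i (crd η i) f = 0 := eq_zero_of_ev fun q => by
    rw [ev_sub']
    exact h _ (by simp [crd_put])
  rw [h0, sub_zero] at hA
  exact ⟨A, hA⟩

/-- Vanishing on a line minus a point is vanishing on the line. -/
theorem line_ext {A : Pl k} {i j : Fin 2} (hij : i ≠ j) (c t : ℤ)
    (h : ∀ q, crd q j = t → crd q i ≠ c → ev q A = 0) {q : Gam} (hq : crd q j = t) :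
    ev q A = 0 := by
  have h0 : sub j t A * lin k i (put i c 0) = 0 := eq_zero_of_ev fun p => by
    rw [map_mul, ev_sub', ev_lin]
    by_cases hp : crd p i = c
    · simp [crd_put, hp]
    · rw [h _ (by simp [crd_put]) (by simpa [crd_put, hij] using hp), zero_mul]
  rcases mul_eq_zero.1 h0 with h1 | h1
  · have := congrArg (ev q) h1
    rw [ev_sub', map_zero] at this
    have e : put j t q = q := by
      fin_cases j <;> simp [put, crd] at hq ⊢ <;> rw [← hq]
    rwa [e] at this
  · exact absurd h1 (lin_ne_zero _ _)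

/-! ### The vanishing conditions -/

/-- The vanishing conditions of the weight `γ` in `Λ`. -/
def Van (γ : Gam) (f : Pl k) : Prop :=
  ∀ (q : Gam) (i : Fin 2), crd q i < 0 → crd γ i ≤ crd q i → ev q f = 0

/-- The conditions on a component of `Λ`. -/
def Good (δ β : ℤ) (γ : Gam) (f : Pl k) : Prop :=
  f = 0 ∨ (γ.1 + γ.2 = δ ∧ (f.totalDegree : ℤ) ≤ β ∧ Van γ f)

theorem Van.neg_le {γ : Gam} {f : Pl k} (i : Fin 2) (hf : f ≠ 0) (h : Van γ f) :
    -(f.totalDegree : ℤ) ≤ crd γ i := by
  suffices H : ∀ (n : ℕ) (g : Pl k) (a : ℤ), g ≠ 0 →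
      (∀ q, a ≤ crd q i → crd q i < a + n → ev q g = 0) → n ≤ g.totalDegree by
    rcases le_or_gt 0 (crd γ i) with h0 | h0
    · omega
    have := H (-crd γ i).toNat f (crd γ i) hf fun q h1 h2 => h q i (by omega) h1
    omega
  intro n
  induction n with
  | zero => intros; omega
  | succ n ih =>
    intro g a hg hgv
    obtain ⟨A, hA⟩ := exists_of_line i (put i (a + n) 0) (f := g) fun q hq => by
      refine hgv q ?_ ?_ <;> simp [crd_put] at hq <;> omega
    have hA0 : A ≠ 0 := fun h0 => hg (by rw [hA, h0, zero_mul])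
    have := degree_of_mul_lin hA hA0
    have := ih A a hA0 fun q h1 h2 => by
      have h3 := hgv q h1 (by omega)
      rw [hA, map_mul, ev_lin] at h3
      rcases mul_eq_zero.1 h3 with h4 | h4
      · exact h4
      · simp [crd_put, sub_eq_zero] at h4
        have h5 : crd q i = a + n := by exact_mod_cast h4
        omega
    omega

theorem mem_Sp0_iff {δ β : ℤ} {w : W k} : w ∈ Sp0 k δ β ↔ ∀ γ, Good δ β γ (cf w γ) := by
  constructor
  · intro h γ
    rcases h.1.1 γ with h0 | ⟨⟨h1, -, -, -⟩, h5⟩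
    · exact Or.inl h0
    · refine Or.inr ⟨h1, h5, fun q i hq hγ => ?_⟩
      fin_cases i <;> simp [crd] at hq hγ
      · exact h.2.2 γ q (by simp [Dom.Mem]; omega) (by simp [Dom.Mem]; omega)
      · exact h.1.2 γ q (by simp [Dom.Mem]; omega) (by simp [Dom.Mem]; omega)
  · intro h
    have hsp : w ∈ Sp k δ β := fun γ => by
      by_cases h0 : cf w γ = 0
      · exact Or.inl h0
      rcases h γ with h1 | ⟨h1, h2, h3⟩
      · exact absurd h1 h0
      · have a := h3.neg_le 0 h0
        have b := h3.neg_le 1 h0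
        simp [crd] at a b
        exact Or.inr ⟨⟨h1, by omega, by omega, by omega⟩, h2⟩
    refine ⟨⟨hsp, fun γ q hq hq' => ?_⟩, ⟨hsp, fun γ q hq hq' => ?_⟩⟩ <;>
      rcases h γ with h0 | ⟨-, -, h3⟩
    · simp [h0]
    · simp [Dom.Mem] at hq hq'
      exact h3 q 1 (by simp [crd]; omega) (by simp [crd]; omega)
    · simp [h0]
    · simp [Dom.Mem] at hq hq'
      exact h3 q 0 (by simp [crd]; omega) (by simp [crd]; omega)

theorem mon_mem_Sp0 {δ β : ℤ} {γ : Gam} {f : Pl k} (h : Good δ β γ f) :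
    mon γ f ∈ Sp0 k δ β :=
  mem_Sp0_iff.2 fun η => by
    rw [cf_mon]
    split
    · next e => subst e; exact h
    · exact Or.inl rfl

theorem sum_ee (η : Gam) (i : Fin 2) : (η + ee i).1 + (η + ee i).2 = η.1 + η.2 + 1 := by
  fin_cases i <;> simp [ee] <;> ring

theorem good_of_mul_lin {δ β : ℤ} {η : Gam} {i : Fin 2} {f A : Pl k} (hf : Good δ β η f)
    (h : f = A * lin k i η) : Good (δ + 1) (β - 1) (η + ee i) A := by
  by_cases hA : A = 0
  · exact Or.inl hA
  rcases hf with h0 | ⟨h1, h2, h3⟩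
  · rw [h0, eq_comm, mul_eq_zero] at h
    exact absurd h (not_or.2 ⟨hA, lin_ne_zero i η⟩)
  have hd := degree_of_mul_lin h hA
  refine Or.inr ⟨by rw [sum_ee, h1], by omega, fun q j hq hj => ?_⟩
  have hne : crd q i ≠ crd η i → crd η j ≤ crd q j → ev q A = 0 := fun hn hj' => by
    have h4 := h3 q j hq hj'
    rw [h, map_mul, ev_lin, mul_eq_zero, sub_eq_zero] at h4
    exact h4.resolve_right fun e => hn (by exact_mod_cast e)
  by_cases hij : i = j
  · subst hij
    simp [crd_add] at hj
    exact hne (by omega) (by omega)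
  · simp [crd_add, hij] at hj
    refine line_ext hij (crd η i) (crd q j) (fun p hp hpi => ?_) rfl
    have h4 := h3 p j (by omega) (by omega)
    rw [h, map_mul, ev_lin, mul_eq_zero, sub_eq_zero] at h4
    exact h4.resolve_right fun e => hpi (by exact_mod_cast e)

/-! ### The four exact sequences -/

omit [CharZero k] in
theorem mem_of_components {S : Submodule k (W k)} {w : W k} (h : ∀ γ, mon γ (cf w γ) ∈ S) :
    w ∈ S := by
  rw [W_eq_sum w]
  exact Submodule.sum_mem _ fun g _ => h _

/-- Pairs in `Λ × Λ` sent to the combination with `u, v` on the right. -/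
def comb (k : Type) [Field k] (δ β : ℤ) (u v : W k) : Submodule k (W k) :=
  ((Sp0 k δ β).prod (Sp0 k δ β)).map
    ((LinearMap.mulRight k u).coprod (LinearMap.mulRight k v))

omit [CharZero k] in
theorem mem_comb {δ β : ℤ} {u v w : W k} :
    w ∈ comb k δ β u v ↔ ∃ a b, a ∈ Sp0 k δ β ∧ b ∈ Sp0 k δ β ∧ a * u + b * v = w := by
  constructor
  · rintro ⟨⟨a, b⟩, ⟨ha, hb⟩, rfl⟩
    exact ⟨a, b, ha, hb, rfl⟩
  · rintro ⟨a, b, ha, hb, rfl⟩
    exact ⟨(a, b), ⟨ha, hb⟩, rfl⟩

/-- The kernel of `λ ↦ λ · 1` is generated by `∂₁` and `∂₂`. -/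
theorem exists_dd {δ β : ℤ} {w : W k} (hw : w ∈ Sp0 k δ β) (h0 : ∀ γ, ev γ (cf w γ) = 0) :
    ∃ a b, a ∈ Sp0 k (δ + 1) (β - 1) ∧ b ∈ Sp0 k (δ + 1) (β - 1) ∧ a * dd 0 + b * dd 1 = w := by
  rw [← mem_comb]
  refine mem_of_components fun η => ?_
  have hf := (mem_Sp0_iff.1 hw) η
  have hfη := h0 η
  generalize cf w η = f at hf hfη
  rcases hf with rfl | hf'
  · rw [mon_zero]; exact Submodule.zero_mem _
  have hmk : ∀ (i : Fin 2) (A : Pl k), mon (η + ee i) A * dd i = mon η (A * lin k i η) :=
    fun i A => W_ext fun γ => by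
      rw [cf_mul_dd, cf_mon, cf_mon]
      by_cases e : η = γ
      · subst e; simp
      · rw [if_neg e, if_neg (fun e' => e (add_right_cancel e')), zero_mul]
  have key : ∃ A B, f = A * lin k 0 η + B * lin k 1 η ∧
      Good (δ + 1) (β - 1) (η + ee 0) A ∧ Good (δ + 1) (β - 1) (η + ee 1) B := by
    by_cases hη : crd η 0 < 0
    · obtain ⟨A, hA⟩ := exists_of_line 0 η (f := f) fun q hq =>
        hf'.2.2 q 0 (by omega) (le_of_eq hq.symm)
      exact ⟨A, 0, by rw [zero_mul, add_zero]; exact hA,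
        good_of_mul_lin (Or.inr hf') hA, Or.inl rfl⟩
    · set g := sub 0 (crd η 0) f with hg
      have hvg : Good δ β η g := by
        refine Or.inr ⟨hf'.1, le_trans (by exact_mod_cast totalDegree_sub_le _ _ f) hf'.2.1,
          fun q i hq hi => ?_⟩
        fin_cases i
        · simp at hq hi; omega
        · rw [hg, ev_sub']
          exact hf'.2.2 _ 1 (by simpa [crd_put] using hq) (by simpa [crd_put] using hi)
      obtain ⟨B, hB⟩ := exists_of_line 1 η (f := g) fun q hq => by
        rw [hg, ev_sub']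
        have e : put 0 (crd η 0) q = η := Prod.ext (by simp [put, crd]) (by simpa [put, crd] using hq)
        rw [e, hfη]
      obtain ⟨A, hA⟩ := exists_sub_eq_mul 0 (crd η 0) f
      have hfg : Good δ β η (f - g) := by
        rcases hvg with e | ⟨-, hd, hv⟩
        · rw [e, sub_zero]; exact Or.inr hf'
        · refine Or.inr ⟨hf'.1, ?_, fun q i hq hi => ?_⟩
          · have := totalDegree_sub f g
            have := hf'.2.1
            omega
          · rw [map_sub, hf'.2.2 q i hq hi, hv q i hq hi, sub_zero]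
      exact ⟨A, B, by rw [← hB, lin, ← hA]; ring, good_of_mul_lin hfg hA, good_of_mul_lin hvg hB⟩
  obtain ⟨A, B, hAB, hA, hB⟩ := key
  rw [mem_comb]
  exact ⟨mon (η + ee 0) A, mon (η + ee 1) B, mon_mem_Sp0 hA, mon_mem_Sp0 hB,
    by rw [hmk, hmk, ← mon_add, ← hAB]⟩

omit [CharZero k] in
theorem xx_mul_xi (i : Fin 2) : (xx i * xi i : W k) = 1 := by
  rw [xx, xi, mon_mul_mon, one_eq_mon]; simp

omit [CharZero k] in
theorem xi_mul_xx (i : Fin 2) : (xi i * xx i : W k) = 1 := by
  rw [xx, xi, mon_mul_mon, one_eq_mon]; simp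

omit [CharZero k] in
theorem xx_comm (i j : Fin 2) : (xx i * xx j : W k) = xx j * xx i := by
  rw [xx, xx, mon_mul_mon, mon_mul_mon, map_one, map_one, add_comm]

omit [CharZero k] in
theorem xx_xi_comm (i j : Fin 2) : (xx i * xi j : W k) = xi j * xx i := by
  rw [xx, xi, mon_mul_mon, mon_mul_mon, map_one, map_one, add_comm]

omit [CharZero k] in
theorem dd_comm (i j : Fin 2) : (dd i * dd j : W k) = dd j * dd i := by
  rw [dd, dd, mon_mul_mon, mon_mul_mon, add_comm (-ee j)]
  congr 1
  fin_cases i <;> fin_cases j <;> simp [ee, crd] <;> ring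

theorem mul_dd_eq_zero {w : W k} {i : Fin 2} (h : w * dd i = 0) : w = 0 := W_ext fun γ => by
  have h' := congrArg (fun z => cf z (γ - ee i)) h
  simp only [cf_mul_dd, cf_zero, sub_add_cancel, mul_eq_zero] at h'
  simpa using h'.resolve_right (lin_ne_zero i _)

omit [CharZero k] in
theorem mul_xx_eq_zero {w : W k} {i : Fin 2} (h : w * xx i = 0) : w = 0 := by
  have := congrArg (fun z => z * xi i) h
  simpa [mul_assoc, xx_mul_xi] using this

/-- Exactness in the middle of the Koszul sequence of `∂₁, ∂₂`. -/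
theorem exists_dd_mid {δ β : ℤ} {a b : W k} (ha : a ∈ Sp0 k δ β)
    (h : a * dd 0 + b * dd 1 = 0) :
    ∃ c ∈ Sp0 k (δ + 1) (β - 1), c * dd 1 = a ∧ -(c * dd 0) = b := by
  suffices H : a ∈ (Sp0 k (δ + 1) (β - 1)).map (LinearMap.mulRight k (dd 1)) by
    obtain ⟨c, hc, hca⟩ := H
    simp only [LinearMap.mulRight_apply] at hca
    refine ⟨c, hc, hca, ?_⟩
    have h' : (c * dd 0 + b) * dd 1 = 0 := by
      rw [add_mul, mul_assoc, dd_comm, ← mul_assoc, hca, h]
    exact neg_eq_of_add_eq_zero_right (mul_dd_eq_zero h')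
  refine mem_of_components fun γ => ?_
  have hA := (mem_Sp0_iff.1 ha) γ
  set η := γ - ee 0 with hη
  have heq := congrArg (fun z => cf z η) h
  simp only [cf_add, cf_mul_dd, cf_zero, hη, sub_add_cancel] at heq
  obtain ⟨C', hC⟩ := exists_of_line 1 η (f := cf a γ) fun q hq => by
    refine line_ext (i := 0) (j := 1) (by decide) (crd η 0) (crd η 1) (fun p hp hp0 => ?_) hq
    have := congrArg (ev p) heq
    simp only [map_add, map_mul, ev_lin, map_zero] at this
    rw [show crd (γ - ee 0) 1 = crd η 1 from rfl, hp, sub_self, mul_zero, add_zero,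
      mul_eq_zero, sub_eq_zero] at this
    exact this.resolve_right fun e => hp0 (by exact_mod_cast e)
  have hl : lin k 1 η = lin k 1 γ := by simp [lin, hη]
  rw [hl] at hC
  refine ⟨mon (γ + ee 1) C', mon_mem_Sp0 (good_of_mul_lin hA hC), ?_⟩
  refine W_ext fun μ => ?_
  rw [LinearMap.mulRight_apply, cf_mul_dd, cf_mon, cf_mon]
  by_cases e : γ = μ
  · subst e; simp [hC]
  · rw [if_neg e, if_neg (fun e' => e (add_right_cancel e')), zero_mul]

/-- Surjectivity of `(x₁, x₂)` in positive degree. -/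
theorem exists_xx {δ β : ℤ} {w : W k} (hδ : 1 ≤ δ) (hw : w ∈ Sp0 k δ β) :
    ∃ a b, a ∈ Sp0 k (δ - 1) β ∧ b ∈ Sp0 k (δ - 1) β ∧ a * xx 0 + b * xx 1 = w := by
  rw [← mem_comb]
  refine mem_of_components fun γ => ?_
  rcases (mem_Sp0_iff.1 hw) γ with h0 | ⟨h1, h2, h3⟩
  · rw [h0, mon_zero]; exact Submodule.zero_mem _
  have hmk : ∀ i, mon (γ - ee i) (cf w γ) * xx i = mon γ (cf w γ) := fun i => by
    rw [xx, mon_mul_mon, map_one, mul_one, sub_add_cancel]
  obtain ⟨i, hi⟩ : ∃ i, 1 ≤ crd γ i := by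
    rcases le_or_gt 1 γ.1 with h | h
    · exact ⟨0, by simpa [crd] using h⟩
    · exact ⟨1, by simp [crd]; omega⟩
  have hg : mon (γ - ee i) (cf w γ) ∈ Sp0 k (δ - 1) β := by
    refine mon_mem_Sp0 (Or.inr ⟨?_, h2, fun q j hq hj => ?_⟩)
    · have := sum_ee (γ - ee i) i
      simp only [sub_add_cancel] at this
      omega
    · simp [crd_sub] at hj
      by_cases e : i = j
      · subst e; simp at hj; omega
      · simp [e] at hj
        exact h3 q j hq hj
  rw [mem_comb]
  fin_cases i
  · exact ⟨_, 0, hg, Submodule.zero_mem _, by simpa using hmk 0⟩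
  · exact ⟨0, _, Submodule.zero_mem _, hg, by simpa using hmk 1⟩

/-- Exactness in the middle of the Koszul sequence of `x₁, x₂`. -/
theorem exists_xx_mid {δ β : ℤ} {a b : W k} (ha : a ∈ Sp0 k δ β) (hb : b ∈ Sp0 k δ β)
    (h : a * xx 0 + b * xx 1 = 0) :
    ∃ c ∈ Sp0 k (δ - 1) β, c * xx 1 = a ∧ -(c * xx 0) = b := by
  refine ⟨a * xi 1, mem_Sp0_iff.2 fun η => ?_, by rw [mul_assoc, xi_mul_xx, mul_one], ?_⟩
  · rw [cf_mul_xi]
    rcases (mem_Sp0_iff.1 ha) (η + ee 1) with h0 | ⟨h1, h2, h3⟩
    · exact Or.inl h0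
    have hb' : cf b (η + ee 0) = -cf a (η + ee 1) := by
      have := congrArg (fun z => cf z (η + ee 0 + ee 1)) h
      simp only [cf_add, cf_mul_xx, cf_zero, add_sub_cancel_right] at this
      rw [show η + ee 0 + ee 1 - ee 0 = η + ee 1 by abel] at this
      exact eq_neg_of_add_eq_zero_right this
    refine Or.inr ⟨by have := sum_ee η 1; omega, h2, fun q i hq hi => ?_⟩
    fin_cases i
    · exact h3 q 0 hq (by simpa [crd_add] using hi)
    · rcases (mem_Sp0_iff.1 hb) (η + ee 0) with e | ⟨-, -, h3'⟩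
      · rw [hb', neg_eq_zero] at e
        simp [e]
      · have := h3' q 1 hq (by simpa [crd_add] using hi)
        rwa [hb', map_neg, neg_eq_zero] at this
  · have h' := congrArg (fun z => z * xi 1) h
    simp only [add_mul, mul_assoc, xx_mul_xi, mul_one, zero_mul, xx_xi_comm 0 1] at h'
    rw [mul_assoc]
    exact neg_eq_of_add_eq_zero_right h'

end

end Vale.Agent.P195D.Res
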