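import Vale.Agent.P195D.Maps
import Vale.Agent.P195D.ResKoszul

/-!
The sequences `0 → Col c → Col (c + 1) ^ 2 → Col (c + 2) → 0` on both layers.
-/

namespace Vale.Agent.P195D.ColK

set_option linter.unusedSimpArgs false

noncomputable section

variable {k : Type} [Field k]

/-- The middle of the sequence of `x₁, x₂` on all bounded operators. -/
theorem midSp {δ β : ℤ} {a b : W k} (ha : a ∈ Sp k δ β) (hb : b ∈ Sp k δ β)
    (h : a * Res.xx 0 + b * Res.xx 1 = 0) :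
    ∃ c ∈ Sp k (δ - 1) β, c * Res.xx 1 = a ∧ -(c * Res.xx 0) = b := by
  refine ⟨a * Res.xi 1, fun η => ?_, by rw [mul_assoc, Res.xi_mul_xx, mul_one], ?_⟩
  · rw [Res.cf_mul_xi]
    have hb' : cf b (η + Res.ee 0) = -cf a (η + Res.ee 1) := by
      have := congrArg (fun z => cf z (η + Res.ee 0 + Res.ee 1)) h
      simp only [cf_add, Res.cf_mul_xx, cf_zero, add_sub_cancel_right] at this
      rw [show η + Res.ee 0 + Res.ee 1 - Res.ee 0 = η + Res.ee 1 by abel] at this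
      exact eq_neg_of_add_eq_zero_right this
    rcases ha (η + Res.ee 1) with h0 | ⟨⟨h1, h2, -, h4⟩, h5⟩
    · exact Or.inl h0
    rcases hb (η + Res.ee 0) with h0 | ⟨⟨-, -, h3, -⟩, -⟩
    · rw [hb', neg_eq_zero] at h0
      exact Or.inl h0
    refine Or.inr ⟨⟨?_, ?_, ?_, h4⟩, h5⟩ <;> simp [Res.ee] at h1 h2 h3 ⊢ <;> omega
  · have h' := congrArg (fun z => z * Res.xi 1) h
    simp only [add_mul, mul_assoc, Res.xx_mul_xi, mul_one, zero_mul, Res.xx_xi_comm 0 1] at h'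
    rw [mul_assoc]
    exact neg_eq_of_add_eq_zero_right h'

theorem xW_eq (i : Fin 2) : xW k i = Res.xx i := by fin_cases i <;> rfl

/-- Into the first middle term. -/
def colIn (k : Type) [Field k] (d : Ob) :
    Col k d →ₗ[Alg k] Col k (d.sh 1) × Col k (d.sh 1) :=
  (Col.rmul (xHom k d 1)).prod (-Col.rmul (xHom k d 0))

/-- Onto the last term. -/
def colOut (k : Type) [Field k] (d : Ob) :
    Col k (d.sh 1) × Col k (d.sh 1) →ₗ[Alg k] Col k ((d.sh 1).sh 1) :=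
  (Col.rmul (xHom k (d.sh 1) 0)).coprod (Col.rmul (xHom k (d.sh 1) 1))

/-- The middle of the sequence of `x₁, x₂` on `P₁`. -/
theorem mid1 {δ β : ℤ} {a b : W k} (ha : a ∈ Sp1 k δ β) (hb : b ∈ Sp1 k δ β)
    (h : a * Res.xx 0 + b * Res.xx 1 = 0) :
    ∃ c ∈ Sp1 k (δ - 1) β, c * Res.xx 1 = a ∧ -(c * Res.xx 0) = b := by
  obtain ⟨c, hc, hc1, hc2⟩ := midSp ha.1 hb.1 h
  refine ⟨c, ⟨hc, fun η q hq hq' => ?_⟩, hc1, hc2⟩
  have e : cf b (η + Res.ee 0) = -cf c η := by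
    have h1 : b = c * (-Res.xx 0) := by rw [← hc2]; exact (mul_neg c (Res.xx 0)).symm
    have h2 : (-Res.xx 0 : W k) = mon (Res.ee 0) (-1) := W_ext fun γ => by
      have hneg : cf (-Res.xx 0 : W k) γ = -cf (Res.xx 0 : W k) γ := by
        have hh : cf ((-Res.xx 0 : W k) + Res.xx 0) γ = 0 := by
          rw [show (-Res.xx 0 : W k) + Res.xx 0 = 0 from neg_add_cancel _, cf_zero]
        rw [cf_add] at hh
        exact eq_neg_of_add_eq_zero_left hh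
      rw [hneg, Res.xx, cf_mon, cf_mon]
      split <;> simp
    rw [h1, h2, Res.cf_mul_mon, add_sub_cancel_right, map_neg, map_one, mul_neg, mul_one]
  have := hb.2 (η + Res.ee 0) q hq (by simp [Dom.Mem, Res.ee] at hq hq' ⊢; omega)
  rw [e, map_neg, neg_eq_zero] at this
  exact this

/-- The middle of the sequence of `x₁, x₂` on `P₂`. -/
theorem mid2 {δ β : ℤ} {a b : W k} (ha : a ∈ Sp2 k δ β) (hb : b ∈ Sp2 k δ β)
    (h : a * Res.xx 0 + b * Res.xx 1 = 0) :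
    ∃ c ∈ Sp2 k (δ - 1) β, c * Res.xx 1 = a ∧ -(c * Res.xx 0) = b := by
  obtain ⟨c, hc, hc1, hc2⟩ := midSp ha.1 hb.1 h
  refine ⟨c, ⟨hc, fun η q hq hq' => ?_⟩, hc1, hc2⟩
  have := ha.2 (η + Res.ee 1) q hq (by simp [Dom.Mem, Res.ee] at hq hq' ⊢; omega)
  rwa [← hc1, Res.cf_mul_xx, add_sub_cancel_right] at this

/-- The middle of the sequence of `x₁, x₂` on `Λ`. -/
theorem mid0 {δ β : ℤ} {a b : W k} (ha : a ∈ Sp0 k δ β) (hb : b ∈ Sp0 k δ β)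
    (h : a * Res.xx 0 + b * Res.xx 1 = 0) :
    ∃ c ∈ Sp0 k (δ - 1) β, c * Res.xx 1 = a ∧ -(c * Res.xx 0) = b := by
  obtain ⟨c, hc, hc1, hc2⟩ := mid1 ha.1 hb.1 h
  obtain ⟨c', hc', hc1', -⟩ := mid2 ha.2 hb.2 h
  have e : c' = c := by
    have := congrArg (fun z => z * Res.xi 1) (hc1'.trans hc1.symm)
    simpa [mul_assoc, Res.xx_mul_xi] using this
  exact ⟨c, ⟨hc, e ▸ hc'⟩, hc1, hc2⟩

/-- Coefficient conditions stable under division by a variable of positive exponent. -/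
def Stable (k : Type) [Field k] (Q : Submodule k (W k)) : Prop :=
  ∀ w ∈ Q, ∀ γ : Gam,
    (1 ≤ γ.1 → mon (γ - Res.ee 0) (cf w γ) ∈ Q) ∧ (1 ≤ γ.2 → mon (γ - Res.ee 1) (cf w γ) ∈ Q)

theorem stable_pres (S : Dom) (hS : S = .fst ∨ S = .snd) : Stable k (Pres k S) := fun w hw γ =>
  ⟨fun h => mon_mem_Pres fun q hq hq' => hw γ q hq (by
      rcases hS with rfl | rfl <;> simp [Dom.Mem, Res.ee] at hq hq' ⊢ <;> omega),
    fun h => mon_mem_Pres fun q hq hq' => hw γ q hq (by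
      rcases hS with rfl | rfl <;> simp [Dom.Mem, Res.ee] at hq hq' ⊢ <;> omega)⟩

theorem stable_inf {P Q : Submodule k (W k)} (hP : Stable k P) (hQ : Stable k Q) :
    Stable k (P ⊓ Q) := fun w hw γ =>
  ⟨fun h => ⟨(hP w hw.1 γ).1 h, (hQ w hw.2 γ).1 h⟩,
    fun h => ⟨(hP w hw.1 γ).2 h, (hQ w hw.2 γ).2 h⟩⟩

/-- Surjectivity of `x₁, x₂` in positive degree. -/
theorem surj {δ β : ℤ} {Q : Submodule k (W k)} (hQ : Stable k Q) (hδ : 1 ≤ δ) {w : W k}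
    (hw : w ∈ Sp k δ β ⊓ Q) :
    ∃ a b, a ∈ Sp k (δ - 1) β ⊓ Q ∧ b ∈ Sp k (δ - 1) β ⊓ Q ∧
      a * Res.xx 0 + b * Res.xx 1 = w := by
  suffices H : w ∈ ((Sp k (δ - 1) β ⊓ Q).prod (Sp k (δ - 1) β ⊓ Q)).map
      ((LinearMap.mulRight k (Res.xx 0)).coprod (LinearMap.mulRight k (Res.xx 1))) by
    obtain ⟨⟨a, b⟩, ⟨ha, hb⟩, hab⟩ := H
    exact ⟨a, b, ha, hb, hab⟩
  refine Res.mem_of_components fun γ => ?_
  rcases hw.1 γ with h0 | ⟨⟨h1, h2, h3, h4⟩, h5⟩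
  · rw [h0, mon_zero]; exact Submodule.zero_mem _
  have hmk : ∀ i, mon (γ - Res.ee i) (cf w γ) * Res.xx i = mon γ (cf w γ) := fun i => by
    rw [Res.xx, mon_mul_mon, map_one, mul_one, sub_add_cancel]
  rcases le_or_gt 1 γ.1 with h | h
  · refine ⟨(mon (γ - Res.ee 0) (cf w γ), 0),
      ⟨⟨?_, (hQ w hw.2 γ).1 h⟩, Submodule.zero_mem _⟩, ?_⟩
    · refine mon_mem_Sp (Or.inr ⟨⟨?_, ?_, ?_, h4⟩, h5⟩) <;> simp [Res.ee] <;> omega
    · simpa using hmk 0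
  · refine ⟨(0, mon (γ - Res.ee 1) (cf w γ)),
      ⟨Submodule.zero_mem _, ?_, (hQ w hw.2 γ).2 (by omega)⟩, ?_⟩
    · refine mon_mem_Sp (Or.inr ⟨⟨?_, ?_, ?_, h4⟩, h5⟩) <;> simp [Res.ee] <;> omega
    · simpa using hmk 1

/-- Surjectivity on all bounded operators. -/
theorem surjSp {δ β : ℤ} (hδ : 1 ≤ δ) {w : W k} (hw : w ∈ Sp k δ β) :
    ∃ a b, a ∈ Sp k (δ - 1) β ∧ b ∈ Sp k (δ - 1) β ∧ a * Res.xx 0 + b * Res.xx 1 = w := by
  obtain ⟨a, b, ha, hb, hab⟩ := surj (Q := ⊤) (fun _ _ _ => ⟨fun _ => trivial, fun _ => trivial⟩) hδ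
    (β := β) ⟨hw, trivial⟩
  exact ⟨a, b, ha.1, hb.1, hab⟩

/-- Surjectivity on `Λ`. -/
theorem surj0 {δ β : ℤ} (hδ : 1 ≤ δ) {w : W k} (hw : w ∈ Sp0 k δ β) :
    ∃ a b, a ∈ Sp0 k (δ - 1) β ∧ b ∈ Sp0 k (δ - 1) β ∧ a * Res.xx 0 + b * Res.xx 1 = w := by
  obtain ⟨a, b, ha, hb, hab⟩ := surj (stable_inf (stable_pres .fst (Or.inl rfl))
    (stable_pres .snd (Or.inr rfl))) hδ (β := β) ⟨hw.1.1, hw.1.2, hw.2.2⟩
  exact ⟨a, b, ⟨⟨ha.1, ha.2.1⟩, ⟨ha.1, ha.2.2⟩⟩, ⟨⟨hb.1, hb.2.1⟩, ⟨hb.1, hb.2.2⟩⟩, hab⟩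

variable {d : Ob}

/-- Multiplication by `x_i` on components, in both layers. -/
theorem rmul_x_val (i : Fin 2) (x : Col k d) (u : Ix) :
    (Col.rmul (xHom k d i) x u).1 = ((x u).1.1 * Res.xx i, (x u).1.2 * Res.xx i) := by
  rw [Col.rmul_apply, comp_val]
  show mulP _ _ _ _ (xW k i, 0) = _
  rw [Ob.sh_lay]
  generalize (x u).1 = q
  generalize (ob u).lay = a
  generalize d.lay = b
  fin_cases a <;> fin_cases b <;> simp [mulP, xW_eq, Res.xx]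

theorem colIn_injective : Function.Injective (colIn k d) := by
  refine (injective_iff_map_eq_zero _).2 fun x hx => Col.ext fun u => Subtype.ext ?_
  have h : (Col.rmul (xHom k d 1) x u).1 = 0 := by
    have := congrArg Prod.fst hx
    simp [colIn] at this
    rw [this]
    rfl
  rw [rmul_x_val, Prod.ext_iff] at h
  exact Prod.ext (Res.mul_xx_eq_zero h.1) (Res.mul_xx_eq_zero h.2)

theorem col_exact : Function.Exact (colIn k d) (colOut k d) := by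
  intro y
  constructor
  · intro hy
    have H : ∀ u, ∃ z : Hom' k (ob u) d,
        z.1.1 * Res.xx 1 = (y.1 u).1.1 ∧ -(z.1.1 * Res.xx 0) = (y.2 u).1.1 ∧
        z.1.2 * Res.xx 1 = (y.1 u).1.2 ∧ -(z.1.2 * Res.xx 0) = (y.2 u).1.2 := fun u => by
      have h : (Col.rmul (xHom k (d.sh 1) 0) y.1 u).1 +
          (Col.rmul (xHom k (d.sh 1) 1) y.2 u).1 = 0 := by
        have := congrArg (fun z : Col k ((d.sh 1).sh 1) => (z u).1) hy
        simpa [colOut] using this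
      rw [rmul_x_val, rmul_x_val, Prod.mk_add_mk, Prod.mk_eq_zero] at h
      have e : d.a + 1 - (ob u).a - 1 = d.a - (ob u).a := by ring
      by_cases hL : (ob u).lay = 0 ∧ d.lay = 1
      · have hL1 : (ob u).lay = 0 ∧ (d.sh 1).lay = 1 := hL
        obtain ⟨a1, a2⟩ := (mem_Hm_L hL1).1 (y.1 u).2
        obtain ⟨b1, b2⟩ := (mem_Hm_L hL1).1 (y.2 u).2
        obtain ⟨c, hc, hc1, hc2⟩ := mid1 a1 b1 h.1
        obtain ⟨q, hq, hq1, hq2⟩ := mid2 a2 b2 h.2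
        simp only [Ob.sh_a, Ob.sh_b, e] at hc hq
        exact ⟨⟨(c, q), (mem_Hm_L hL).2 ⟨hc, hq⟩⟩, hc1, hc2, hq1, hq2⟩
      · have hL1 : ¬ ((ob u).lay = 0 ∧ (d.sh 1).lay = 1) := hL
        obtain ⟨a1, a2⟩ := (mem_Hm_E hL1).1 (y.1 u).2
        obtain ⟨b1, b2⟩ := (mem_Hm_E hL1).1 (y.2 u).2
        obtain ⟨c, hc, hc1, hc2⟩ := mid0 a1 b1 h.1
        obtain ⟨q, hq, hq1, hq2⟩ := midSp a2 b2 h.2
        simp only [Ob.sh_a, Ob.sh_b, e] at hc hq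
        exact ⟨⟨(c, q), (mem_Hm_E hL).2 ⟨hc, hq⟩⟩, hc1, hc2, hq1, hq2⟩
    choose z hz1 hz2 hz3 hz4 using H
    let x : Col k d := z
    refine ⟨x, Prod.ext (Col.ext fun u => Subtype.ext ?_) (Col.ext fun u => Subtype.ext ?_)⟩
    · show (Col.rmul (xHom k d 1) x u).1 = _
      rw [rmul_x_val]
      exact Prod.ext (hz1 u) (hz3 u)
    · show -(Col.rmul (xHom k d 0) x u).1 = _
      rw [rmul_x_val]
      exact Prod.ext (hz2 u) (hz4 u)
  · rintro ⟨x, rfl⟩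
    have e : colOut k d (colIn k d x) = Col.rmul (xHom k (d.sh 1) 0) (Col.rmul (xHom k d 1) x)
        - Col.rmul (xHom k (d.sh 1) 1) (Col.rmul (xHom k d 0) x) := by
      simp [colOut, colIn, sub_eq_add_neg]
    rw [e]
    refine Col.ext fun u => Subtype.ext ?_
    show (Col.rmul _ (Col.rmul _ x) u).1 - (Col.rmul _ (Col.rmul _ x) u).1 = (0 : Pr k)
    rw [rmul_x_val, rmul_x_val, rmul_x_val, rmul_x_val]
    refine sub_eq_zero.2 ?_
    simp [mul_assoc, Res.xx_comm 0 1]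

theorem colOut_surjective (hd : 0 ≤ d.a) :
    Function.Surjective (colOut k d) := fun y => by
  have H : ∀ u, ∃ z : Hom' k (ob u) (d.sh 1) × Hom' k (ob u) (d.sh 1),
      z.1.1.1 * Res.xx 0 + z.2.1.1 * Res.xx 1 = (y u).1.1 ∧
      z.1.1.2 * Res.xx 0 + z.2.1.2 * Res.xx 1 = (y u).1.2 := fun u => by
    have hδ : 1 ≤ ((d.sh 1).sh 1).a - (ob u).a := by
      have := u.2.1.isLt
      simp
      omega
    have e : d.a + 1 + 1 - (ob u).a - 1 = d.a + 1 - (ob u).a := by ring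
    by_cases hL : (ob u).lay = 0 ∧ d.lay = 1
    · have hL1 : (ob u).lay = 0 ∧ (d.sh 1).lay = 1 := hL
      have hL2 : (ob u).lay = 0 ∧ ((d.sh 1).sh 1).lay = 1 := hL
      obtain ⟨h1, h2⟩ := (mem_Hm_L hL2).1 (y u).2
      obtain ⟨a, b, ha, hb, hab⟩ := surj (stable_pres .fst (Or.inl rfl)) hδ h1
      obtain ⟨s, t, hs, ht, hst⟩ := surj (stable_pres .snd (Or.inr rfl)) hδ h2
      simp only [Ob.sh_a, Ob.sh_b, e] at ha hb hs ht
      exact ⟨(⟨(a, s), (mem_Hm_L hL1).2 ⟨ha, hs⟩⟩, ⟨(b, t), (mem_Hm_L hL1).2 ⟨hb, ht⟩⟩),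
        hab, hst⟩
    · have hL1 : ¬ ((ob u).lay = 0 ∧ (d.sh 1).lay = 1) := hL
      have hL2 : ¬ ((ob u).lay = 0 ∧ ((d.sh 1).sh 1).lay = 1) := hL
      obtain ⟨h1, h2⟩ := (mem_Hm_E hL2).1 (y u).2
      obtain ⟨a, b, ha, hb, hab⟩ := surj0 hδ h1
      obtain ⟨s, t, hs, ht, hst⟩ := surjSp hδ h2
      simp only [Ob.sh_a, Ob.sh_b, e] at ha hb hs ht
      exact ⟨(⟨(a, s), (mem_Hm_E hL1).2 ⟨ha, hs⟩⟩, ⟨(b, t), (mem_Hm_E hL1).2 ⟨hb, ht⟩⟩),
        hab, hst⟩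
  choose z hz1 hz2 using H
  let a : Col k (d.sh 1) := fun u => (z u).1
  let b : Col k (d.sh 1) := fun u => (z u).2
  refine ⟨(a, b), Col.ext fun u => Subtype.ext ?_⟩
  show (Col.rmul (xHom k (d.sh 1) 0) a u).1 + (Col.rmul (xHom k (d.sh 1) 1) b u).1 = _
  rw [rmul_x_val, rmul_x_val]
  exact Prod.ext (hz1 u) (hz2 u)

end

end Vale.Agent.P195D.ColK
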