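import Vale.Agent.P195D.Cat

/-!
The periodic resolution of the modules `U(m)` by columns: definition.

A slot is `(r, q)`, a layer `r` and one of the six generators `q` of the complex
`Q : (0,0) → (1,0)² → (1,1)² → (0,2)` (`q = 5; 3, 4; 1, 2; 0`).  It occurs in degree `n` when
`lev q + r ≤ n` with equal parity.  The differential is `±` the differential of `Q`, the identity
from layer `1` to layer `0`, `(1, -1)` and a lift from layer `0` to layer `1`, and the periodicity
map `∓ n / 2` from `q = 5` to `q = 0` in target degree `n`.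
-/

namespace Vale.Agent.P195D.Res

set_option linter.unusedSimpArgs false

open MvPolynomial

noncomputable section

variable {k : Type} [Field k]

/-- The unit vectors. -/
def ee (i : Fin 2) : Gam := if i = 0 then (1, 0) else (0, 1)

@[simp] theorem crd_ee (i j : Fin 2) : crd (ee i) j = if i = j then 1 else 0 := by
  fin_cases i <;> fin_cases j <;> rfl

@[simp] theorem crd_neg' (γ : Gam) (i : Fin 2) : crd (-γ) i = -crd γ i := by
  unfold crd; split <;> simp

/-- The operator `x_i`. -/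
def xx (i : Fin 2) : W k := mon (ee i) 1

/-- The operator `x_i⁻¹`. -/
def xi (i : Fin 2) : W k := mon (-ee i) 1

/-- The operator `∂/∂x_i`. -/
def dd (i : Fin 2) : W k := mon (-ee i) (X i + 1)

/-- The level of a generator. -/
def lev (q : Fin 6) : ℕ := ![0, 1, 1, 2, 2, 3] q

/-- The vertex of a generator, first coordinate. -/
def qa (q : Fin 6) : ℤ := ![0, 1, 1, 1, 1, 0] q

/-- The vertex of a generator, second coordinate. -/
def qb (q : Fin 6) : ℤ := ![2, 1, 1, 0, 0, 0] q

/-- Slots. -/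
abbrev Slot : Type := Fin 2 × Fin 6

/-- Presence of a slot in a degree. -/
def Pres' (n : ℕ) (t : Slot) : Prop :=
  lev t.2 + t.1.val ≤ n ∧ (lev t.2 + t.1.val) % 2 = n % 2

instance (n : ℕ) (t : Slot) : Decidable (Pres' n t) := inferInstanceAs (Decidable (_ ∧ _))

/-- The object of a slot, translated by `m`. -/
def qob (m : ℕ) (t : Slot) : Ob := ⟨t.1, (m : ℤ) + qa t.2, qb t.2⟩

/-- The differential of `Q` with its periodicity term, in target degree `n`. -/
def Dq (k : Type) [Field k] (n : ℕ) : Fin 6 → Fin 6 → W k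
  | 1, 0 => dd 0
  | 2, 0 => dd 1
  | 3, 1 => xx 0 * dd 1
  | 3, 2 => -(xx 0 * dd 0)
  | 4, 1 => xx 1 * dd 1
  | 4, 2 => -(xx 1 * dd 0)
  | 5, 3 => xx 1
  | 5, 4 => -xx 0
  | 5, 0 => (-((n / 2 : ℕ) : k)) • 1
  | _, _ => 0

/-- The maps from layer `0` to layer `1`. -/
def Lq (k : Type) [Field k] : Fin 6 → Fin 6 → Pr k
  | 3, 0 => (0, -xi 1)
  | 4, 0 => (-xi 0, 0)
  | q, q' => if q = q' then (1, -1) else 0

/-- The entries of the differential, in target degree `n`. -/
def entP (k : Type) [Field k] (n : ℕ) (t t' : Slot) : Pr k :=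
  if t.1 = t'.1 then (if t.1 = 0 then (Dq k n t.2 t'.2, 0) else (-Dq k n t.2 t'.2, 0))
  else if t.1 = 0 then Lq k t.2 t'.2
  else if t.2 = t'.2 then (1, 0) else 0

section membership

theorem xx_mem (i : Fin 2) : (xx i : W k) ∈ Sp0 k 1 0 := by
  have h : Bd 1 0 (ee i) (1 : Pl k) := Or.inr ⟨by fin_cases i <;> simp [ee, Inside], by simp⟩
  refine ⟨⟨mon_mem_Sp h, mon_mem_Pres fun q hq hq' => ?_⟩,
    ⟨mon_mem_Sp h, mon_mem_Pres fun q hq hq' => ?_⟩⟩ <;>
    fin_cases i <;>
    · simp [Dom.Mem, ee] at hq hq'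
      omega

theorem ev_X_one (q : Gam) (i : Fin 2) : ev q (X i + 1 : Pl k) = ((crd q i : ℤ) : k) + 1 := by
  simp [ev]

theorem dd_mem (i : Fin 2) : (dd i : W k) ∈ Sp0 k (-1) 1 := by
  have h : Bd (-1) 1 (-ee i) (X i + 1 : Pl k) := Or.inr
    ⟨by fin_cases i <;> simp [ee, Inside], by
      have := totalDegree_add (X i : Pl k) 1
      rw [totalDegree_X, totalDegree_one] at this
      simpa using this⟩
  refine ⟨⟨mon_mem_Sp h, mon_mem_Pres fun q hq hq' => ?_⟩,
    ⟨mon_mem_Sp h, mon_mem_Pres fun q hq hq' => ?_⟩⟩ <;>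
    rw [ev_X_one] <;> fin_cases i <;> simp [Dom.Mem, ee, crd] at hq hq' ⊢ <;>
    first
      | omega
      | (have e1 : q.1 = -1 := by omega
         simp [e1])
      | (have e2 : q.2 = -1 := by omega
         simp [e2])

theorem one_mem_Sp0' {β : ℤ} (hβ : 0 ≤ β) : (1 : W k) ∈ Sp0 k 0 β := by
  have h : Bd 0 β 0 (1 : Pl k) := Or.inr ⟨by simp [Inside, hβ], by simpa using hβ⟩
  rw [one_eq_mon]
  refine ⟨⟨mon_mem_Sp h, mon_mem_Pres fun q hq hq' => ?_⟩,
    ⟨mon_mem_Sp h, mon_mem_Pres fun q hq hq' => ?_⟩⟩ <;>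
    exact absurd (by simpa using hq') hq

theorem xi_mem_one : (xi 1 : W k) ∈ Sp2 k (-1) 2 := by
  refine ⟨mon_mem_Sp (Or.inr ⟨by simp [ee, Inside], by simp⟩), mon_mem_Pres fun q hq hq' => ?_⟩
  simp [Dom.Mem, ee] at hq hq'
  omega

theorem xi_mem_zero : (xi 0 : W k) ∈ Sp1 k (-1) 2 := by
  refine ⟨mon_mem_Sp (Or.inr ⟨by simp [ee, Inside], by simp⟩), mon_mem_Pres fun q hq hq' => ?_⟩
  simp [Dom.Mem, ee] at hq hq'
  omega

theorem xd_mem (i j : Fin 2) : (xx i * dd j : W k) ∈ Sp0 k 0 1 := by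
  simpa using mul_mem_Sp0 (xx_mem (k := k) i) (dd_mem j)

theorem Dq_mem (n : ℕ) (q q' : Fin 6) : Dq k n q q' ∈ Sp0 k (qa q' - qa q) (qb q' - qb q) := by
  fin_cases q <;> fin_cases q' <;> simp [Dq, qa, qb] <;>
    first
      | with_reducible exact dd_mem _
      | with_reducible exact xd_mem _ _
      | with_reducible exact xx_mem _
      | exact Submodule.smul_mem _ _ (one_mem_Sp0' (by decide))

theorem Lq_mem (q q' : Fin 6) : (Lq k q q').1 ∈ Sp1 k (qa q' - qa q) (qb q' - qb q) ∧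
    (Lq k q q').2 ∈ Sp2 k (qa q' - qa q) (qb q' - qb q) := by
  fin_cases q <;> fin_cases q' <;> simp [Lq, qa, qb] <;>
    first
      | with_reducible exact xi_mem_one
      | with_reducible exact xi_mem_zero
      | exact ⟨Sp0_le_Sp1 _ _ (one_mem_Sp0' le_rfl), Sp0_le_Sp2 _ _ (one_mem_Sp0' le_rfl)⟩

theorem entP_mem (m n : ℕ) (t t' : Slot) : entP k n t t' ∈ Hm k (qob m t) (qob m t') := by
  obtain ⟨r, q⟩ := t
  obtain ⟨r', q'⟩ := t'
  have ea : (m : ℤ) + qa q' - ((m : ℤ) + qa q) = qa q' - qa q := by ring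
  by_cases hL : r = 0 ∧ r' = 1
  · obtain ⟨rfl, rfl⟩ := hL
    rw [mem_Hm_L ⟨rfl, rfl⟩]
    simpa [entP, qob, ea] using Lq_mem (k := k) q q'
  · rw [mem_Hm_E (by simpa [qob] using hL)]
    simp only [qob, ea]
    unfold entP
    dsimp only
    by_cases h : r = r'
    · rw [if_pos h]
      split
      · exact ⟨Dq_mem n q q', Submodule.zero_mem _⟩
      · exact ⟨Submodule.neg_mem _ (Dq_mem n q q'), Submodule.zero_mem _⟩
    · rw [if_neg h]
      have hr : r ≠ 0 := fun h0 => hL ⟨h0, by omega⟩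
      rw [if_neg hr]
      split
      · next hq =>
        subst hq
        refine ⟨?_, Submodule.zero_mem _⟩
        rw [sub_self, sub_self]
        exact one_mem_Sp0
      · exact ⟨Submodule.zero_mem _, Submodule.zero_mem _⟩

end membership

/-- The entries of the differential as morphisms. -/
def ent (m n : ℕ) (t t' : Slot) : Hom' k (qob m t) (qob m t') :=
  ⟨entP k n t t', entP_mem m n t t'⟩

@[simp] theorem ent_val (m n : ℕ) (t t' : Slot) : (ent (k := k) m n t t').1 = entP k n t t' := rfl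

/-- The slots of a degree. -/
abbrev T (n : ℕ) : Type := {t : Slot // Pres' n t}

/-- The terms of the resolution of `U(m)`. -/
abbrev Cpx (k : Type) [Field k] (m n : ℕ) : Type := ∀ t : T n, Col k (qob m t.1)

/-- The differential. -/
def d (m n : ℕ) : Cpx k m (n + 1) →ₗ[Alg k] Cpx k m n where
  toFun x t' := ∑ t : T (n + 1), Col.rmul (ent m n t.1 t'.1) (x t)
  map_add' x y := by
    funext t'
    simp [Finset.sum_add_distrib]
  map_smul' b x := by
    funext t'
    simp [Finset.smul_sum]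

theorem d_apply (m n : ℕ) (x : Cpx k m (n + 1)) (t' : T n) :
    d m n x t' = ∑ t : T (n + 1), Col.rmul (ent m n t.1 t'.1) (x t) := rfl

/-- The slot of degree `0`. -/
def t0 : T 0 := ⟨(0, 0), ⟨le_refl _, rfl⟩⟩

theorem T_zero_eq (t : T 0) : t = t0 := by
  obtain ⟨⟨r, q⟩, h⟩ := t
  revert h
  fin_cases r <;> fin_cases q <;> intro h <;>
    first
      | rfl
      | exact absurd h.1 (by decide)

end

end Vale.Agent.P195D.Res
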