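import Vale.Agent.P195D.Rep
import Vale.Agent.P195D.ResDef

/-!
The Euler homotopy on Laurent monomials of nonzero degree.
-/

namespace Vale.Agent.P195D.Orth

set_option linter.unusedSimpArgs false

noncomputable section

variable {k : Type} [Field k]

open Res

theorem act_mon_apply (γ p : Gam) (f : Pl k) (x : Lau k) :
    act (mon γ f) x p = ev p f * x (p - γ) := by
  induction x using Finsupp.induction_linear with
  | zero => simp
  | add x y hx hy => simp [hx, hy, mul_add]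
  | single q c =>
    rw [act_mon_single]
    by_cases h : q + γ = p
    · subst h; simp
    · rw [Finsupp.single_apply, if_neg h, Finsupp.single_apply,
        if_neg fun e => h (by rw [e, sub_add_cancel]), mul_zero]

/-- `∂/∂x_i` on Laurent polynomials. -/
abbrev D (i : Fin 2) : Lau k →ₗ[k] Lau k := act (dd i : W k)

/-- `x_i` on Laurent polynomials. -/
abbrev X (i : Fin 2) : Lau k →ₗ[k] Lau k := act (xx i : W k)

theorem D0_apply (x : Lau k) (a b : ℤ) : D 0 x (a, b) = ((a + 1 : ℤ) : k) * x (a + 1, b) := by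
  simp [D, dd, act_mon_apply, ev_X_one, crd, ee]

theorem D1_apply (x : Lau k) (a b : ℤ) : D 1 x (a, b) = ((b + 1 : ℤ) : k) * x (a, b + 1) := by
  simp [D, dd, act_mon_apply, ev_X_one, crd, ee]

theorem X0_apply (x : Lau k) (a b : ℤ) : X 0 x (a, b) = x (a - 1, b) := by
  simp [X, xx, act_mon_apply, ee]

theorem X1_apply (x : Lau k) (a b : ℤ) : X 1 x (a, b) = x (a, b - 1) := by
  simp [X, xx, act_mon_apply, ee]

theorem xi0_apply (x : Lau k) (a b : ℤ) : act (xi 0 : W k) x (a, b) = x (a + 1, b) := by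
  simp [xi, act_mon_apply, ee]

theorem xi1_apply (x : Lau k) (a b : ℤ) : act (xi 1 : W k) x (a, b) = x (a, b + 1) := by
  simp [xi, act_mon_apply, ee]

theorem X_injective (i : Fin 2) : Function.Injective (X (k := k) i) := fun x y h => by
  ext ⟨a, b⟩
  fin_cases i
  · have := DFunLike.congr_fun h (a + 1, b)
    simpa [X0_apply] using this
  · have := DFunLike.congr_fun h (a, b + 1)
    simpa [X1_apply] using this

theorem deg_of_ne {S : Dom} {d : ℤ} {x : Lau k} (hx : x ∈ MS k S d) {a b : ℤ} (h : x (a, b) ≠ 0) :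
    S.Mem (a, b) ∧ a + b = d :=
  (Finsupp.mem_supported k x).1 hx (Finsupp.mem_support_iff.2 h)

theorem mem_MS_of {S : Dom} {d : ℤ} {x : Lau k}
    (h : ∀ a b, x (a, b) ≠ 0 → S.Mem (a, b) ∧ a + b = d) : x ∈ MS k S d :=
  (Finsupp.mem_supported k x).2 fun p hp => h p.1 p.2 (Finsupp.mem_support_iff.1 hp)

theorem euler {S : Dom} {d : ℤ} {x : Lau k} (hx : x ∈ MS k S d) (a b : ℤ) :
    (a : k) * x (a, b) + (b : k) * x (a, b) = (d : k) * x (a, b) := by
  by_cases h : x (a, b) = 0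
  · simp [h]
  · rw [← add_mul, ← Int.cast_add, (deg_of_ne hx h).2]

theorem X_mem {S : Dom} {d : ℤ} (i : Fin 2) {x : Lau k} (hx : x ∈ MS k S d) :
    X i x ∈ MS k S (d + 1) := by
  have := act_mem_MS (Sp0_le_Sp _ _ (xx_mem i)) (Sp0_le_Pres S (xx_mem i)) hx
  rwa [add_comm] at this

/-- No constants among the Laurent polynomials of nonzero degree. -/
theorem eq_zero_of_D [CharZero k] {S : Dom} {d : ℤ} (hd : d ≠ 0) {x : Lau k} (hx : x ∈ MS k S d)
    (h0 : D 0 x = 0) (h1 : D 1 x = 0) : x = 0 := by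
  ext ⟨a, b⟩
  have e0 := DFunLike.congr_fun h0 (a - 1, b)
  have e1 := DFunLike.congr_fun h1 (a, b - 1)
  rw [D0_apply] at e0
  rw [D1_apply] at e1
  simp only [sub_add_cancel, Finsupp.coe_zero, Pi.zero_apply] at e0 e1 ⊢
  have h2 := euler hx a b
  rw [e0, e1, add_zero] at h2
  exact (mul_eq_zero.1 h2.symm).resolve_left (Int.cast_ne_zero.2 hd)

/-- Closed one-forms are exact. -/
theorem exists_primitive [CharZero k] {S : Dom} {d : ℤ} (hd : d ≠ 0) {u v : Lau k}
    (hu : u ∈ MS k S (d - 1)) (hv : v ∈ MS k S (d - 1)) (h : D 1 u = D 0 v) :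
    ∃ g ∈ MS k S d, D 0 g = u ∧ D 1 g = v := by
  have hd' : (d : k) ≠ 0 := Int.cast_ne_zero.2 hd
  refine ⟨(d : k)⁻¹ • (X 0 u + X 1 v), Submodule.smul_mem _ _ (Submodule.add_mem _ ?_ ?_), ?_, ?_⟩
  · simpa using X_mem 0 hu
  · simpa using X_mem 1 hv
  · ext ⟨a, b⟩
    have e := DFunLike.congr_fun h (a, b - 1)
    rw [D1_apply, D0_apply] at e
    have h2 := euler hu a b
    simp only [map_smul, map_add, Finsupp.smul_apply, Finsupp.add_apply, D0_apply, X0_apply,
      X1_apply, smul_eq_mul, add_sub_cancel_right, sub_add_cancel] at e ⊢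
    push_cast at e h2 ⊢
    field_simp
    linear_combination h2 - e
  · ext ⟨a, b⟩
    have e := DFunLike.congr_fun h (a - 1, b)
    rw [D1_apply, D0_apply] at e
    have h2 := euler hv a b
    simp only [map_smul, map_add, Finsupp.smul_apply, Finsupp.add_apply, D1_apply, X0_apply,
      X1_apply, smul_eq_mul, add_sub_cancel_right, sub_add_cancel] at e ⊢
    push_cast at e h2 ⊢
    field_simp
    linear_combination h2 + e

/-- Exactness at the middle of the homogeneous de Rham and Koszul sequences. -/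
theorem exists_curl [CharZero k] {S : Dom} (hS : S ≠ .reg) {d : ℤ} (hd : d ≠ 0) {u v : Lau k}
    (hu : u ∈ MS k S (d - 1)) (hv : v ∈ MS k S (d - 1)) (h : X 1 u = X 0 v) :
    ∃ g ∈ MS k S (d - 1), ∃ g' ∈ MS k S (d - 1),
      X 0 (D 1 g - D 0 g') = u ∧ X 1 (D 1 g - D 0 g') = v := by
  have hd' : (d : k) ≠ 0 := Int.cast_ne_zero.2 hd
  set c := act (xi 0 : W k) u with hc
  have e : ∀ a b : ℤ, u (a + 1, b) = v (a, b + 1) := fun a b => by
    have := DFunLike.congr_fun h (a + 1, b + 1)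
    rwa [X1_apply, X0_apply, add_sub_cancel_right, add_sub_cancel_right] at this
  have hc' : ∀ a b : ℤ, c (a, b) = u (a + 1, b) := fun a b => xi0_apply u a b
  have hcm : c ∈ MS k S (d - 2) := mem_MS_of fun a b hab => by
    rw [hc'] at hab
    obtain ⟨m1, n1⟩ := deg_of_ne hu hab
    rw [e] at hab
    obtain ⟨m2, -⟩ := deg_of_ne hv hab
    refine ⟨?_, by omega⟩
    cases S <;> simp [Dom.Mem] at m1 m2 hS ⊢ <;> omega
  have hk : D 1 ((d : k)⁻¹ • X 1 c) - D 0 ((d : k)⁻¹ • -(X 0 c)) = c := by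
    ext ⟨a, b⟩
    have h2 := euler hcm a b
    simp only [map_smul, map_neg, Finsupp.sub_apply, Finsupp.smul_apply, Finsupp.neg_apply,
      D0_apply, D1_apply, X0_apply, X1_apply, smul_eq_mul, add_sub_cancel_right]
    push_cast at h2 ⊢
    field_simp
    linear_combination h2
  refine ⟨(d : k)⁻¹ • X 1 c, Submodule.smul_mem _ _ ?_, (d : k)⁻¹ • -(X 0 c),
    Submodule.smul_mem _ _ (Submodule.neg_mem _ ?_), ?_, ?_⟩
  · simpa [show d - 2 + 1 = d - 1 by ring] using X_mem 1 hcm
  · simpa [show d - 2 + 1 = d - 1 by ring] using X_mem 0 hcm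
  · rw [hk]
    ext ⟨a, b⟩
    rw [X0_apply, hc', sub_add_cancel]
  · rw [hk]
    ext ⟨a, b⟩
    rw [X1_apply, hc', e, sub_add_cancel]

/-- The last map of the Koszul sequence is onto outside the quadrant. -/
theorem exists_koszul {S : Dom} (hS : S ≠ .reg) {d : ℤ} {y : Lau k} (hy : y ∈ MS k S d) :
    ∃ g ∈ MS k S (d - 1), ∃ g' ∈ MS k S (d - 1), X 1 g - X 0 g' = y := by
  by_cases hf : S = .snd
  · subst hf
    refine ⟨act (xi 1 : W k) y, mem_MS_of fun a b hab => ?_, 0, Submodule.zero_mem _, ?_⟩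
    · rw [xi1_apply] at hab
      obtain ⟨m, n⟩ := deg_of_ne hy hab
      simp [Dom.Mem] at m ⊢
      omega
    · ext ⟨a, b⟩
      simp [X1_apply, xi1_apply]
  · refine ⟨0, Submodule.zero_mem _, -act (xi 0 : W k) y, Submodule.neg_mem _
      (mem_MS_of fun a b hab => ?_), ?_⟩
    · rw [xi0_apply] at hab
      obtain ⟨m, n⟩ := deg_of_ne hy hab
      cases S <;> simp [Dom.Mem] at m hS hf ⊢ <;> omega
    · ext ⟨a, b⟩
      simp [X0_apply, xi0_apply]

end

end Vale.Agent.P195D.Orth
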