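import Vale.Agent.P195D.Homology
import Vale.Agent.P195D.ColKoszul
import Vale.Agent.P195D.OrthLau

/-!
Maps and extensions from columns into the Laurent modules.
-/

namespace Vale.Agent.P195D

set_option linter.unusedSimpArgs false

open CategoryTheory Abelian

noncomputable section

variable {k : Type} [Field k]

namespace ColLm

open ColK (colIn colOut)

variable {i : Fin 2} {S : Dom} {n : ℤ}

/-- An element of a projective column as an element of the algebra. -/
def emb (v : Ix) : Col k (ob v) →ₗ[Alg k] Alg k where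
  toFun x := fun u w => if h : w = v then h.symm ▸ x u else 0
  map_add' x y := Alg.ext fun u w => by
    show dite _ _ _ = (dite _ _ _ : Hom' k (ob u) (ob w)) + dite _ _ _
    by_cases h : w = v
    · subst h; simp
    · simp [h]
  map_smul' b x := Alg.ext fun u w => by
    show dite _ _ _ = ∑ z, comp (ob u) (ob z) (ob w) (b u z) (dite _ _ _)
    by_cases h : w = v
    · subst h; simp [Col.act_apply]
    · simp [h]

theorem emb_self (v u : Ix) (x : Col k (ob v)) : emb v x u v = x u := by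
  show dite _ _ _ = _
  simp

theorem emb_of_ne {v w : Ix} (u : Ix) (x : Col k (ob v)) (h : w ≠ v) : emb v x u w = 0 := by
  show dite _ _ _ = _
  simp [h]

theorem emb_smul_gen (v : Ix) (x : Col k (ob v)) : emb v x • Col.gen v = x := by
  refine Col.ext fun u => ?_
  rw [Col.act_apply, Finset.sum_eq_single v]
  · show comp _ _ _ _ (idm _ _) = _
    rw [comp_idm, emb_self]
  · intro w _ hw
    rw [emb_of_ne u x hw, map_zero, LinearMap.zero_apply]
  · simp

theorem evalL_bijective_ob (v : Ix) :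
    Function.Bijective (evalL (k := k) (i := i) (S := S) (n := n) (c := ob v)) := by
  constructor
  · intro y y' h
    have := congrArg (fun f : Col k (ob v) →ₗ[Alg k] LMod k i S n => f (Col.gen v) v) h
    simp only [evalL_apply, Col.gen, actHom_idm] at this
    exact this
  · intro f
    refine ⟨f (Col.gen v) v, LinearMap.ext fun x => LMod.ext fun u => ?_⟩
    conv_rhs => rw [← emb_smul_gen v x, map_smul, LMod.act_apply]
    rw [evalL_apply, Finset.sum_eq_single v]
    · rw [emb_self]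
    · intro w _ hw
      rw [emb_of_ne u x hw, map_zero, LinearMap.zero_apply]
    · simp

theorem ez_col_ob (v : Ix) (X : Type) [AddCommGroup X] [Module (Alg k) X] (j : ℕ) (hj : 1 ≤ j) :
    EZ (Alg k) (Col k (ob v)) X j := by
  let out : (Fin 1 → Alg k) →ₗ[Alg k] Col k (ob v) :=
    { toFun := fun b u => b 0 u v
      map_add' := fun b b' => rfl
      map_smul' := fun b x => Col.ext fun u => by
        show (b * x 0) u v = ∑ w, comp (ob u) (ob w) (ob v) (b u w) (x 0 w v)
        rw [Alg.mul_apply] }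
  refine ez_of_sum (ι := Unit) (A := fun _ => Fin 1 → Alg k)
    (fun _ => LinearMap.pi fun _ => emb v) (fun _ => out) (fun m => Col.ext fun u => ?_)
    fun _ => ez_free 1 X j hj
  simp only [Finset.univ_unique, Finset.sum_singleton]
  show emb v m u v = m u
  exact emb_self v u m

/-- Multiplication by `x_i` on values. -/
def xv {c : Ob} (r : Fin 2) (y : ↥(sps k i S n (c.sh 1))) : ↥(sps k i S n c) :=
  actHom i S n c (c.sh 1) (xHom k c r) y

theorem evalL_rmul {c : Ob} (r : Fin 2) (y : ↥(sps k i S n (c.sh 1))) (x : Col k c) :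
    evalL y (Col.rmul (xHom k c r) x) = evalL (xv r y) x := LMod.ext fun u => by
  rw [evalL_apply, evalL_apply, Col.rmul_apply, actHom_comp]
  rfl

theorem evalL_map_sub {c : Ob} (y y' : ↥(sps k i S n c)) (x : Col k c) :
    evalL (y - y') x = evalL y x - evalL y' x := LMod.ext fun u => by
  exact map_sub (actHom i S n (ob u) c (x u)) y y'

theorem xv_val_of_lay {c : Ob} (hc : c.lay = i) (r : Fin 2) (y : ↥(sps k i S n (c.sh 1))) :
    (xv r y).1 = Orth.X r y.1 := by
  rw [xv, actHom_val, opOf, if_pos ⟨hc, hc⟩]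
  show act (xW k r) y.1 = _
  rw [ColK.xW_eq]

theorem val_eq_zero {c : Ob} (hc : ¬ c.lay = i) (y : ↥(sps k i S n c)) : y = 0 := by
  obtain ⟨y, hy⟩ := y
  rw [sps, if_neg hc, Submodule.mem_bot] at hy
  exact Subtype.ext hy

theorem val_mem {c : Ob} (hc : c.lay = i) (y : ↥(sps k i S n c)) :
    y.1 ∈ MS k S (n - c.a) := by
  obtain ⟨y, hy⟩ := y
  rwa [sps, if_pos hc] at hy

theorem xv_injective {c : Ob} (r : Fin 2) (y y' : ↥(sps k i S n (c.sh 1)))
    (h : xv r y = xv r y') : y = y' := by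
  by_cases hc : c.lay = i
  · refine Subtype.ext (Orth.X_injective r ?_)
    rw [← xv_val_of_lay hc, ← xv_val_of_lay hc, h]
  · rw [val_eq_zero (c := c.sh 1) hc y, val_eq_zero (c := c.sh 1) hc y']

theorem exists_xv (hS : S ≠ .reg) {c : Ob} (u v : ↥(sps k i S n (c.sh 1)))
    (h : xv 1 u = xv 0 v) :
    ∃ y : ↥(sps k i S n ((c.sh 1).sh 1)), xv 0 y = u ∧ xv 1 y = v := by
  by_cases hc : c.lay = i
  · have h' : Orth.X 1 u.1 = Orth.X 0 v.1 := by
      rw [← xv_val_of_lay hc, ← xv_val_of_lay hc, h]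
    have e : ∀ a b : ℤ, u.1 (a + 1, b) = v.1 (a, b + 1) := fun a b => by
      have := DFunLike.congr_fun h' (a + 1, b + 1)
      rwa [Orth.X1_apply, Orth.X0_apply, add_sub_cancel_right, add_sub_cancel_right] at this
    have hy : act (Res.xi 0 : W k) u.1 ∈ sps k i S n ((c.sh 1).sh 1) := by
      rw [sps, if_pos (show ((c.sh 1).sh 1).lay = i from hc)]
      refine Orth.mem_MS_of fun a b hab => ?_
      rw [Orth.xi0_apply] at hab
      obtain ⟨m1, n1⟩ := Orth.deg_of_ne (val_mem (c := c.sh 1) hc u) hab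
      rw [e] at hab
      obtain ⟨m2, -⟩ := Orth.deg_of_ne (val_mem (c := c.sh 1) hc v) hab
      simp only [Ob.sh_a] at n1 ⊢
      refine ⟨?_, by omega⟩
      cases S <;> simp [Dom.Mem] at m1 m2 hS ⊢ <;> omega
    refine ⟨⟨_, hy⟩, Subtype.ext ?_, Subtype.ext ?_⟩ <;>
      rw [xv_val_of_lay (c := c.sh 1) hc]
    · ext ⟨a, b⟩; rw [Orth.X0_apply, Orth.xi0_apply, sub_add_cancel]
    · ext ⟨a, b⟩; rw [Orth.X1_apply, Orth.xi0_apply, e, sub_add_cancel]
  · exact ⟨0, (val_eq_zero (c := c.sh 1) hc _).trans (val_eq_zero (c := c.sh 1) hc u).symm,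
      (val_eq_zero (c := c.sh 1) hc _).trans (val_eq_zero (c := c.sh 1) hc v).symm⟩

theorem exists_xv_sub (hS : S ≠ .reg) {c : Ob} (w : ↥(sps k i S n c)) :
    ∃ u v : ↥(sps k i S n (c.sh 1)), xv 1 u - xv 0 v = w := by
  by_cases hc : c.lay = i
  · obtain ⟨u, hu, v, hv, huv⟩ := Orth.exists_koszul hS (val_mem hc w)
    have hm : ∀ g : Lau k, g ∈ MS k S (n - c.a - 1) → g ∈ sps k i S n (c.sh 1) := fun g hg => by
      rw [sps, if_pos (show (c.sh 1).lay = i from hc)]
      simpa [show n - (c.a + 1) = n - c.a - 1 by ring] using hg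
    refine ⟨⟨u, hm u hu⟩, ⟨v, hm v hv⟩, Subtype.ext ?_⟩
    rw [Submodule.coe_sub, xv_val_of_lay hc, xv_val_of_lay hc, huv]
  · exact ⟨0, 0, (val_eq_zero hc _).trans (val_eq_zero hc w).symm⟩

/-- The map out of the middle term given by two values. -/
def pairL {c : Ob} (u v : ↥(sps k i S n (c.sh 1))) :
    Col k (c.sh 1) × Col k (c.sh 1) →ₗ[Alg k] LMod k i S n :=
  (evalL u).coprod (evalL v)

theorem pairL_colIn {c : Ob} (u v : ↥(sps k i S n (c.sh 1))) (x : Col k c) :
    pairL u v (colIn k c x) = evalL (xv 1 u - xv 0 v) x := by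
  rw [pairL, evalL_map_sub]
  simp [ColK.colIn, evalL_rmul, sub_eq_add_neg]

theorem evalL_bijective_step (hS : S ≠ .reg) {d : Ob} (hd : 0 ≤ d.a)
    (h1 : Function.Bijective (evalL (k := k) (i := i) (S := S) (n := n) (c := d.sh 1)))
    (h0 : Function.Bijective (evalL (k := k) (i := i) (S := S) (n := n) (c := d))) :
    Function.Bijective (evalL (k := k) (i := i) (S := S) (n := n) (c := (d.sh 1).sh 1)) := by
  constructor
  · intro y y' h
    refine xv_injective (c := d.sh 1) 0 y y' (h1.1 (LinearMap.ext fun x => ?_))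
    rw [← evalL_rmul, ← evalL_rmul, h]
  · intro f
    obtain ⟨u, hu⟩ := h1.2 (f.comp (Col.rmul (xHom k (d.sh 1) 0)))
    obtain ⟨v, hv⟩ := h1.2 (f.comp (Col.rmul (xHom k (d.sh 1) 1)))
    have hf : ∀ z, pairL u v z = f (colOut k d z) := fun z => by
      simp [pairL, hu, hv, ColK.colOut]
    have huv : xv 1 u = xv 0 v := by
      refine sub_eq_zero.1 (h0.1 (LinearMap.ext fun x => ?_))
      rw [← pairL_colIn, hf, ((ColK.col_exact _).2 ⟨x, rfl⟩ :), map_zero]
      refine LMod.ext fun w => ?_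
      simp
    obtain ⟨y, hy0, hy1⟩ := exists_xv hS u v huv
    refine ⟨y, LinearMap.ext fun x => ?_⟩
    obtain ⟨z, rfl⟩ := ColK.colOut_surjective hd x
    rw [← hf]
    simp [pairL, ColK.colOut, evalL_rmul, hy0, hy1]

theorem ez_col_step (hS : S ≠ .reg) {d : Ob} (hd : 0 ≤ d.a)
    (h1 : ∀ j, 1 ≤ j → EZ (Alg k) (Col k (d.sh 1)) (LMod k i S n) j)
    (h0 : ∀ j, 1 ≤ j → EZ (Alg k) (Col k d) (LMod k i S n) j)
    (hb : Function.Bijective (evalL (k := k) (i := i) (S := S) (n := n) (c := d)))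
    (j : ℕ) (hj : 1 ≤ j) : EZ (Alg k) (Col k ((d.sh 1).sh 1)) (LMod k i S n) j := by
  have hmem : ∀ x, colIn k d x ∈ LinearMap.ker (colOut k d) := fun x =>
    (ColK.col_exact _).2 ⟨x, rfl⟩
  let E : Col k d ≃ₗ[Alg k] LinearMap.ker (colOut k d) :=
    LinearEquiv.ofBijective ((colIn k d).codRestrict _ hmem)
      ⟨fun a b h => ColK.colIn_injective (congrArg Subtype.val h), fun z => by
        obtain ⟨x, hx⟩ := (ColK.col_exact z.1).1 z.2
        exact ⟨x, Subtype.ext hx⟩⟩
  obtain ⟨j, rfl⟩ := Nat.exists_eq_add_of_le hj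
  rcases j with _ | j
  · rw [ez_one_iff (colOut k d) (ColK.colOut_surjective hd) _
      (ez_prod (h1 1 le_rfl) (h1 1 le_rfl))]
    intro h
    obtain ⟨w, hw⟩ := hb.2 (h ∘ₗ E.toLinearMap)
    obtain ⟨u, v, huv⟩ := exists_xv_sub hS w
    refine ⟨pairL u v, LinearMap.ext fun z => ?_⟩
    obtain ⟨x, rfl⟩ := E.surjective z
    show pairL u v (colIn k d x) = h (E x)
    rw [pairL_colIn, huv, hw]
    rfl
  · rw [show 1 + (j + 1) = j + 2 by ring, ez_ker_iff (colOut k d) (ColK.colOut_surjective hd) _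
      fun j' hj' => ez_prod (h1 j' hj') (h1 j' hj')]
    exact ez_of_sum (ι := Unit) (A := fun _ => Col k d) (fun _ => E.symm.toLinearMap)
      (fun _ => E.toLinearMap) (fun z => by simp) fun _ => h0 (j + 1) (by omega)

theorem main (hS : S ≠ .reg) (a : ℕ) :
    ∀ c : Ob, c.a = a → 0 ≤ c.b → c.b ≤ 2 →
      Function.Bijective (evalL (k := k) (i := i) (S := S) (n := n) (c := c)) ∧
        ∀ j, 1 ≤ j → EZ (Alg k) (Col k c) (LMod k i S n) j := by
  induction a using Nat.strong_induction_on with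
  | _ a ih =>
    intro c hca hb0 hb2
    by_cases ha : a ≤ 1
    · obtain ⟨v, rfl⟩ : ∃ v : Ix, ob v = c := ⟨(c.lay, ⟨a, by omega⟩, ⟨c.b.toNat, by omega⟩), by
        obtain ⟨l, a', b⟩ := c
        simp only at hca hb0 hb2
        subst hca
        simp only [ob, Ob.mk.injEq, true_and]
        omega⟩
      exact ⟨evalL_bijective_ob v, fun j hj => ez_col_ob v _ j hj⟩
    · obtain ⟨d, hd, rfl⟩ : ∃ d : Ob, 0 ≤ d.a ∧ (d.sh 1).sh 1 = c :=
        ⟨c.sh (-2), by simp; omega, by rw [Ob.sh_sh, Ob.sh_sh]; simp⟩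
      simp only [Ob.sh_a, Ob.sh_b] at hca hb0 hb2
      obtain ⟨b1, e1⟩ := ih (a - 1) (by omega) (d.sh 1) (by simp; omega) hb0 hb2
      obtain ⟨b0, e0⟩ := ih (a - 2) (by omega) d (by omega) hb0 hb2
      exact ⟨evalL_bijective_step hS hd b1 b0, ez_col_step hS hd e1 e0 b0⟩

end ColLm

/-- Higher `Ext` from columns into the Laurent modules vanishes. -/
theorem ez_col_lmod (c : Ob) (hc : 0 ≤ c.a) (hb0 : 0 ≤ c.b) (hb2 : c.b ≤ 2)
    (i : Fin 2) (S : Dom) (hS : S ≠ .reg) (n : ℤ) (j : ℕ) (hj : 1 ≤ j) :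
    EZ (Alg k) (Col k c) (LMod k i S n) j :=
  (ColLm.main hS c.a.toNat c (Int.toNat_of_nonneg hc).symm hb0 hb2).2 j hj

/-- Homomorphisms from columns into the Laurent modules are evaluations. -/
theorem evalL_bijective (c : Ob) (hc : 0 ≤ c.a) (hb0 : 0 ≤ c.b) (hb2 : c.b ≤ 2)
    (i : Fin 2) (S : Dom) (hS : S ≠ .reg) (n : ℤ) :
    Function.Bijective (evalL (k := k) (i := i) (S := S) (n := n) (c := c)) :=
  (ColLm.main hS c.a.toNat c (Int.toNat_of_nonneg hc).symm hb0 hb2).1

end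

end Vale.Agent.P195D
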