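import Vale.Agent.P195D.Koszul
import Vale.Agent.P195D.ColLmod

/-!
Homomorphisms and higher extensions between columns: the sequence of `x₁, x₂` on morphism spaces.
-/

namespace Vale.Agent.P195D

set_option linter.unusedSimpArgs false

open CategoryTheory Abelian

noncomputable section

variable {k : Type} [Field k]

namespace ColC

open ColK (colIn colOut)
open Res (xx xi ee)

/-! ### Operators multiplied on the left -/

theorem cf_xi_mul (i : Fin 2) (w : W k) (γ : Gam) :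
    cf (xi i * w) γ = tau (-ee i) (cf w (γ + ee i)) := by
  rw [xi, Koszul.cf_mon_mul, one_mul, sub_neg_eq_add]

theorem cancel_xx (i : Fin 2) (w : W k) : xx i * (xi i * w) = w := by
  rw [← mul_assoc, Res.xx_mul_xi, one_mul]

theorem cancel_xi (i : Fin 2) (w : W k) : xi i * (xx i * w) = w := by
  rw [← mul_assoc, Res.xi_mul_xx, one_mul]

theorem xx_left_injective (i : Fin 2) {a b : W k} (h : xx i * a = xx i * b) : a = b := by
  rw [← cancel_xi i a, h, cancel_xi]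

theorem xi_swap {a b : W k} (h : xx 1 * a = xx 0 * b) : xi 0 * a = xi 1 * b := by
  calc xi 0 * a = xi 0 * (xi 1 * (xx 1 * a)) := by rw [cancel_xi]
    _ = xi 0 * (xi 1 * (xx 0 * b)) := by rw [h]
    _ = xi 0 * (xx 0 * (xi 1 * b)) :=
      congrArg (fun z => xi 0 * z)
        (by rw [← mul_assoc, ← mul_assoc, Res.xx_xi_comm 0 1] :
          xi 1 * (xx 0 * b) = xx 0 * (xi 1 * b))
    _ = xi 1 * b := cancel_xi 0 _

theorem xi0_fst {a : W k} (ha : a ∈ Pres k .fst) : xi 0 * a ∈ Pres k .fst := fun γ q hq hq' => by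
  rw [cf_xi_mul, ev_tau]
  exact ha _ _ (by simp [Dom.Mem, ee] at hq ⊢; omega) (by simp [Dom.Mem, ee] at hq' ⊢; omega)

theorem xi1_snd {a : W k} (ha : a ∈ Pres k .snd) : xi 1 * a ∈ Pres k .snd := fun γ q hq hq' => by
  rw [cf_xi_mul, ev_tau]
  exact ha _ _ (by simp [Dom.Mem, ee] at hq ⊢; omega) (by simp [Dom.Mem, ee] at hq' ⊢; omega)

theorem lmidSp {δ β : ℤ} {a b : W k} (ha : a ∈ Sp k δ β) (hb : b ∈ Sp k δ β)
    (h : xx 1 * a = xx 0 * b) : xi 0 * a ∈ Sp k (δ - 1) β := fun γ => by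
  rcases hb (γ + ee 1) with h0 | ⟨⟨h1, h2, h3, h4⟩, -⟩
  · exact Or.inl (by rw [xi_swap h, cf_xi_mul, h0, map_zero])
  rw [cf_xi_mul]
  rcases ha (γ + ee 0) with h0 | ⟨⟨m1, m2, m3, -⟩, hd⟩
  · exact Or.inl (by rw [h0, map_zero])
  refine Or.inr ⟨⟨?_, ?_, ?_, h4⟩, ?_⟩
  · simp [ee] at h1 h2 h3 m1 m2 m3 ⊢; omega
  · simp [ee] at h1 h2 h3 m1 m2 m3 ⊢; omega
  · simp [ee] at h1 h2 h3 m1 m2 m3 ⊢; omega
  · exact le_trans (by exact_mod_cast totalDegree_tau_le _ _) hd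

/-- Coefficient conditions stable under left division by a variable of positive exponent. -/
def LStable (k : Type) [Field k] (Q : Submodule k (W k)) : Prop :=
  ∀ w ∈ Q, ∀ γ : Gam,
    (1 ≤ γ.1 → xi 0 * mon γ (cf w γ) ∈ Q) ∧ (1 ≤ γ.2 → xi 1 * mon γ (cf w γ) ∈ Q)

theorem lstable_fst : LStable k (Pres k .fst) := fun w hw γ => by
  refine ⟨fun _ => xi0_fst (Pres_component hw γ), fun h => ?_⟩
  rw [xi, mon_mul_mon]
  exact mon_mem_Pres fun q hq hq' => by simp [Dom.Mem, ee] at hq hq'; omega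

theorem lstable_snd : LStable k (Pres k .snd) := fun w hw γ => by
  refine ⟨fun h => ?_, fun _ => xi1_snd (Pres_component hw γ)⟩
  rw [xi, mon_mul_mon]
  exact mon_mem_Pres fun q hq hq' => by simp [Dom.Mem, ee] at hq hq'; omega

theorem lstable_top : LStable k ⊤ := fun _ _ _ => ⟨fun _ => trivial, fun _ => trivial⟩

theorem lstable_inf {P Q : Submodule k (W k)} (hP : LStable k P) (hQ : LStable k Q) :
    LStable k (P ⊓ Q) := fun w hw γ =>
  ⟨fun h => ⟨(hP w hw.1 γ).1 h, (hQ w hw.2 γ).1 h⟩,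
    fun h => ⟨(hP w hw.1 γ).2 h, (hQ w hw.2 γ).2 h⟩⟩

theorem lsurj {δ β : ℤ} {Q : Submodule k (W k)} (hQ : LStable k Q) (hδ : 1 ≤ δ) {w : W k}
    (hw : w ∈ Sp k δ β ⊓ Q) :
    ∃ a b, a ∈ Sp k (δ - 1) β ⊓ Q ∧ b ∈ Sp k (δ - 1) β ⊓ Q ∧ xx 1 * a + xx 0 * b = w := by
  suffices H : w ∈ ((Sp k (δ - 1) β ⊓ Q).prod (Sp k (δ - 1) β ⊓ Q)).map
      ((LinearMap.mulLeft k (xx 1)).coprod (LinearMap.mulLeft k (xx 0))) by
    obtain ⟨⟨a, b⟩, ⟨ha, hb⟩, hab⟩ := H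
    exact ⟨a, b, ha, hb, hab⟩
  refine Res.mem_of_components fun γ => ?_
  rcases hw.1 γ with h0 | ⟨⟨h1, h2, h3, h4⟩, h5⟩
  · rw [h0, mon_zero]; exact Submodule.zero_mem _
  have hsp : ∀ i, -β ≤ (γ - ee i).1 → -β ≤ (γ - ee i).2 →
      xi i * mon γ (cf w γ) ∈ Sp k (δ - 1) β := fun i g1 g2 => by
    rw [xi, mon_mul_mon, one_mul, neg_add_eq_sub]
    refine mon_mem_Sp (Or.inr ⟨⟨?_, g1, g2, h4⟩, ?_⟩)
    · fin_cases i <;> simp [ee] <;> omega
    · exact le_trans (by exact_mod_cast totalDegree_tau_le _ _) h5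
  rcases le_or_gt 1 γ.1 with h | h
  · refine ⟨(0, xi 0 * mon γ (cf w γ)),
      ⟨Submodule.zero_mem _, hsp 0 ?_ ?_, (hQ w hw.2 γ).1 h⟩, ?_⟩
    · simp [ee]; omega
    · simp [ee]; omega
    · simp [cancel_xx]
  · refine ⟨(xi 1 * mon γ (cf w γ), 0),
      ⟨⟨hsp 1 ?_ ?_, (hQ w hw.2 γ).2 (by omega)⟩, Submodule.zero_mem _⟩, ?_⟩
    · simp [ee]; omega
    · simp [ee]; omega
    · simp [cancel_xx]

/-! ### Morphism spaces -/

variable {c d : Ob}

/-- Left multiplication by `x_i` on morphisms. -/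
def xl (r : Fin 2) (y : Hom' k (c.sh 1) d) : Hom' k c d := comp c (c.sh 1) d (xHom k c r) y

theorem rmul_xHom (r : Fin 2) (y : Hom' k (c.sh 1) d) (x : Col k c) :
    Col.rmul y (Col.rmul (xHom k c r) x) = Col.rmul (xl r y) x := Col.rmul_comp _ _ _

theorem rmul_sub (y y' : Hom' k c d) (x : Col k c) :
    Col.rmul (y - y') x = Col.rmul y x - Col.rmul y' x :=
  Col.ext fun u => map_sub (comp (ob u) c d (x u)) y y'

theorem xl_val (r : Fin 2) (y : Hom' k (c.sh 1) d) :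
    (xl r y).1 = (xx r * y.1.1, xx r * y.1.2) := by
  rw [xl, comp_val]
  show mulP _ _ _ (xW k r, 0) _ = _
  rw [Ob.sh_lay]
  generalize y.1 = q
  generalize c.lay = a
  generalize d.lay = b
  fin_cases a <;> fin_cases b <;> simp [mulP, ColK.xW_eq, xx]

theorem xl_injective (r : Fin 2) (y y' : Hom' k (c.sh 1) d) (h : xl r y = xl r y') : y = y' := by
  have h' := congrArg Subtype.val h
  rw [xl_val, xl_val, Prod.ext_iff] at h'
  exact Subtype.ext (Prod.ext (xx_left_injective r h'.1) (xx_left_injective r h'.2))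

theorem exists_xl (u v : Hom' k (c.sh 1) d) (h : xl 1 u = xl 0 v) :
    ∃ y : Hom' k ((c.sh 1).sh 1) d, xl 0 y = u ∧ xl 1 y = v := by
  have h' := congrArg Subtype.val h
  rw [xl_val, xl_val, Prod.ext_iff] at h'
  obtain ⟨e1, e2⟩ := h'
  have hm : (xi 0 * u.1.1, xi 0 * u.1.2) ∈ Hm k ((c.sh 1).sh 1) d := by
    have ea : d.a - ((c.sh 1).sh 1).a = d.a - (c.sh 1).a - 1 := by simp; ring
    have eb : d.b - ((c.sh 1).sh 1).b = d.b - (c.sh 1).b := by simp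
    by_cases hL : c.lay = 0 ∧ d.lay = 1
    · have hL1 : (c.sh 1).lay = 0 ∧ d.lay = 1 := hL
      obtain ⟨u1, u2⟩ := (mem_Hm_L hL1).1 u.2
      obtain ⟨v1, v2⟩ := (mem_Hm_L hL1).1 v.2
      rw [mem_Hm_L (show ((c.sh 1).sh 1).lay = 0 ∧ d.lay = 1 from hL), ea, eb]
      refine ⟨⟨lmidSp u1.1 v1.1 e1, xi0_fst u1.2⟩, lmidSp u2.1 v2.1 e2, ?_⟩
      rw [xi_swap e2]
      exact xi1_snd v2.2
    · have hL1 : ¬ ((c.sh 1).lay = 0 ∧ d.lay = 1) := hL
      obtain ⟨u1, u2⟩ := (mem_Hm_E hL1).1 u.2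
      obtain ⟨v1, v2⟩ := (mem_Hm_E hL1).1 v.2
      rw [mem_Hm_E (show ¬ (((c.sh 1).sh 1).lay = 0 ∧ d.lay = 1) from hL), ea, eb]
      refine ⟨⟨⟨lmidSp u1.1.1 v1.1.1 e1, xi0_fst u1.1.2⟩, lmidSp u1.1.1 v1.1.1 e1, ?_⟩,
        lmidSp u2 v2 e2⟩
      rw [xi_swap e1]
      exact xi1_snd v1.2.2
  refine ⟨⟨_, hm⟩, Subtype.ext ?_, Subtype.ext ?_⟩ <;> rw [xl_val]
  · exact Prod.ext (cancel_xx 0 _) (cancel_xx 0 _)
  · show (xx 1 * (xi 0 * u.1.1), xx 1 * (xi 0 * u.1.2)) = _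
    rw [xi_swap e1, xi_swap e2]
    exact Prod.ext (cancel_xx 1 _) (cancel_xx 1 _)

theorem exists_xl_sub (hcd : c.a + 1 ≤ d.a) (w : Hom' k c d) :
    ∃ u v : Hom' k (c.sh 1) d, xl 1 u - xl 0 v = w := by
  have hδ : 1 ≤ d.a - c.a := by omega
  have ea : d.a - (c.sh 1).a = d.a - c.a - 1 := by simp; ring
  have eb : d.b - (c.sh 1).b = d.b - c.b := by simp
  suffices H : ∃ u v : Hom' k (c.sh 1) d,
      xx 1 * u.1.1 + xx 0 * v.1.1 = w.1.1 ∧ xx 1 * u.1.2 + xx 0 * v.1.2 = w.1.2 by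
    obtain ⟨u, v, h1, h2⟩ := H
    refine ⟨u, -v, ?_⟩
    have e : xl 1 u + xl 0 v = w := by
      refine Subtype.ext ?_
      rw [Submodule.coe_add, xl_val, xl_val]
      exact Prod.ext h1 h2
    rw [show xl 0 (-v) = -xl 0 v from map_neg (comp c (c.sh 1) d (xHom k c 0)) v]
    exact (sub_neg_eq_add (xl 1 u) (xl 0 v)).trans e
  by_cases hL : c.lay = 0 ∧ d.lay = 1
  · have hL1 : (c.sh 1).lay = 0 ∧ d.lay = 1 := hL
    obtain ⟨h1, h2⟩ := (mem_Hm_L hL).1 w.2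
    obtain ⟨a, b, ha, hb, hab⟩ := lsurj lstable_fst hδ h1
    obtain ⟨s, t, hs, ht, hst⟩ := lsurj lstable_snd hδ h2
    refine ⟨⟨(a, s), ?_⟩, ⟨(b, t), ?_⟩, hab, hst⟩ <;> rw [mem_Hm_L hL1, ea, eb]
    · exact ⟨ha, hs⟩
    · exact ⟨hb, ht⟩
  · have hL1 : ¬ ((c.sh 1).lay = 0 ∧ d.lay = 1) := hL
    obtain ⟨h1, h2⟩ := (mem_Hm_E hL).1 w.2
    obtain ⟨a, b, ha, hb, hab⟩ := lsurj (lstable_inf lstable_fst lstable_snd) hδ
      (δ := d.a - c.a) (β := d.b - c.b) ⟨h1.1.1, h1.1.2, h1.2.2⟩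
    obtain ⟨s, t, hs, ht, hst⟩ := lsurj lstable_top hδ
      (δ := d.a - c.a) (β := d.b - c.b) ⟨h2, trivial⟩
    refine ⟨⟨(a, s), ?_⟩, ⟨(b, t), ?_⟩, hab, hst⟩ <;> rw [mem_Hm_E hL1, ea, eb]
    · exact ⟨⟨⟨ha.1, ha.2.1⟩, ⟨ha.1, ha.2.2⟩⟩, hs.1⟩
    · exact ⟨⟨⟨hb.1, hb.2.1⟩, ⟨hb.1, hb.2.2⟩⟩, ht.1⟩

/-! ### The induction -/

theorem rmul_bijective_ob (v : Ix) :
    Function.Bijective (Col.rmul (k := k) (c := ob v) (d := d)) := by
  constructor
  · intro y y' h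
    have := congrArg (fun f : Col k (ob v) →ₗ[Alg k] Col k d => f (Col.gen v) v) h
    simp only [Col.rmul_apply, Col.gen, idm_comp] at this
    exact this
  · intro f
    refine ⟨f (Col.gen v) v, LinearMap.ext fun x => Col.ext fun u => ?_⟩
    conv_rhs => rw [← ColLm.emb_smul_gen v x, map_smul, Col.act_apply]
    rw [Col.rmul_apply, Finset.sum_eq_single v]
    · rw [ColLm.emb_self]
    · intro w _ hw
      rw [ColLm.emb_of_ne u x hw, map_zero, LinearMap.zero_apply]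
    · simp

/-- The map out of the middle term given by two morphisms. -/
def pairC (u v : Hom' k (c.sh 1) d) : Col k (c.sh 1) × Col k (c.sh 1) →ₗ[Alg k] Col k d :=
  (Col.rmul u).coprod (Col.rmul v)

theorem pairC_colIn (u v : Hom' k (c.sh 1) d) (x : Col k c) :
    pairC u v (colIn k c x) = Col.rmul (xl 1 u - xl 0 v) x := by
  rw [pairC, rmul_sub, ← rmul_xHom, ← rmul_xHom]
  simp [ColK.colIn, sub_eq_add_neg]

theorem rmul_bijective_step (hc : 0 ≤ c.a)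
    (h1 : Function.Bijective (Col.rmul (k := k) (c := c.sh 1) (d := d)))
    (h0 : Function.Bijective (Col.rmul (k := k) (c := c) (d := d))) :
    Function.Bijective (Col.rmul (k := k) (c := (c.sh 1).sh 1) (d := d)) := by
  constructor
  · intro y y' h
    refine xl_injective (c := c.sh 1) 0 y y' (h1.1 (LinearMap.ext fun x => ?_))
    rw [← rmul_xHom, ← rmul_xHom, h]
  · intro f
    obtain ⟨u, hu⟩ := h1.2 (f.comp (Col.rmul (xHom k (c.sh 1) 0)))
    obtain ⟨v, hv⟩ := h1.2 (f.comp (Col.rmul (xHom k (c.sh 1) 1)))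
    have hf : ∀ z, pairC u v z = f (colOut k c z) := fun z => by
      simp [pairC, hu, hv, ColK.colOut]
    have huv : xl 1 u = xl 0 v := by
      refine sub_eq_zero.1 (h0.1 (LinearMap.ext fun x => ?_))
      rw [← pairC_colIn, hf, ((ColK.col_exact _).2 ⟨x, rfl⟩ :), map_zero]
      refine Col.ext fun w => ?_
      simp
    obtain ⟨y, hy0, hy1⟩ := exists_xl u v huv
    refine ⟨y, LinearMap.ext fun x => ?_⟩
    obtain ⟨z, rfl⟩ := ColK.colOut_surjective hc x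
    rw [← hf]
    simp only [pairC, ColK.colOut, LinearMap.coprod_apply, map_add, rmul_xHom, hy0, hy1]

theorem ez_col_step (hc : 0 ≤ c.a) (hcd : c.a + 1 ≤ d.a)
    (h1 : ∀ j, 1 ≤ j → EZ (Alg k) (Col k (c.sh 1)) (Col k d) j)
    (h0 : ∀ j, 1 ≤ j → EZ (Alg k) (Col k c) (Col k d) j)
    (hb : Function.Bijective (Col.rmul (k := k) (c := c) (d := d)))
    (j : ℕ) (hj : 1 ≤ j) : EZ (Alg k) (Col k ((c.sh 1).sh 1)) (Col k d) j := by
  have hmem : ∀ x, colIn k c x ∈ LinearMap.ker (colOut k c) := fun x =>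
    (ColK.col_exact _).2 ⟨x, rfl⟩
  let E : Col k c ≃ₗ[Alg k] LinearMap.ker (colOut k c) :=
    LinearEquiv.ofBijective ((colIn k c).codRestrict _ hmem)
      ⟨fun a b h => ColK.colIn_injective (congrArg Subtype.val h), fun z => by
        obtain ⟨x, hx⟩ := (ColK.col_exact z.1).1 z.2
        exact ⟨x, Subtype.ext hx⟩⟩
  obtain ⟨j, rfl⟩ := Nat.exists_eq_add_of_le hj
  rcases j with _ | j
  · rw [ez_one_iff (colOut k c) (ColK.colOut_surjective hc) _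
      (ez_prod (h1 1 le_rfl) (h1 1 le_rfl))]
    intro h
    obtain ⟨w, hw⟩ := hb.2 (h ∘ₗ E.toLinearMap)
    obtain ⟨u, v, huv⟩ := exists_xl_sub hcd w
    refine ⟨pairC u v, LinearMap.ext fun z => ?_⟩
    obtain ⟨x, rfl⟩ := E.surjective z
    show pairC u v (colIn k c x) = h (E x)
    rw [pairC_colIn, huv, hw]
    rfl
  · rw [show 1 + (j + 1) = j + 2 by ring, ez_ker_iff (colOut k c) (ColK.colOut_surjective hc) _
      fun j' hj' => ez_prod (h1 j' hj') (h1 j' hj')]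
    exact ez_of_sum (ι := Unit) (A := fun _ => Col k c) (fun _ => E.symm.toLinearMap)
      (fun _ => E.toLinearMap) (fun z => by simp) fun _ => h0 (j + 1) (by omega)

theorem main (a : ℕ) :
    ∀ c d : Ob, c.a = a → 0 ≤ c.b → c.b ≤ 2 → c.a - 1 ≤ d.a →
      Function.Bijective (Col.rmul (k := k) (c := c) (d := d)) ∧
        ∀ j, 1 ≤ j → EZ (Alg k) (Col k c) (Col k d) j := by
  induction a using Nat.strong_induction_on with
  | _ a ih =>
    intro c d hca hb0 hb2 hcd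
    by_cases ha : a ≤ 1
    · obtain ⟨v, rfl⟩ : ∃ v : Ix, ob v = c := ⟨(c.lay, ⟨a, by omega⟩, ⟨c.b.toNat, by omega⟩), by
        obtain ⟨l, a', b⟩ := c
        simp only at hca hb0 hb2
        subst hca
        simp only [ob, Ob.mk.injEq, true_and]
        omega⟩
      exact ⟨rmul_bijective_ob v, fun j hj => ColLm.ez_col_ob v _ j hj⟩
    · obtain ⟨c, hc, rfl⟩ : ∃ e : Ob, 0 ≤ e.a ∧ (e.sh 1).sh 1 = c :=
        ⟨c.sh (-2), by simp; omega, by rw [Ob.sh_sh, Ob.sh_sh]; simp⟩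
      simp only [Ob.sh_a, Ob.sh_b] at hca hb0 hb2 hcd
      obtain ⟨b1, e1⟩ := ih (a - 1) (by omega) (c.sh 1) d (by simp; omega) hb0 hb2 (by simp; omega)
      obtain ⟨b0, e0⟩ := ih (a - 2) (by omega) c d (by omega) hb0 hb2 (by omega)
      exact ⟨rmul_bijective_step hc b1 b0, ez_col_step hc (by omega) e1 e0 b0⟩

end ColC

end

end Vale.Agent.P195D
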