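import Vale.Agent.P195D.Maps
import Vale.Agent.P195D.Interface
import Vale.Agent.P195D.ColMain

/-!
Columns: higher Ext, homomorphisms.
-/

namespace Vale.Agent.P195D

open MulOpposite

noncomputable section

variable {k : Type} [Field k]

/-- Higher `Ext` between columns vanishes. -/
theorem ez_col (c d : Ob) (hc : 0 ≤ c.a) (hb0 : 0 ≤ c.b) (hb2 : c.b ≤ 2) (hd : c.a - 1 ≤ d.a)
    (j : ℕ) (hj : 1 ≤ j) : EZ (Alg k) (Col k c) (Col k d) j :=
  (ColC.main c.a.toNat c d (Int.toNat_of_nonneg hc).symm hb0 hb2 hd).2 j hj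

/-- Homomorphisms between columns are right multiplications. -/
theorem rmul_bijective (c d : Ob) (hc : 0 ≤ c.a) (hb0 : 0 ≤ c.b) (hb2 : c.b ≤ 2)
    (hd : c.a - 1 ≤ d.a) : Function.Bijective (Col.rmul (k := k) (c := c) (d := d)) :=
  (ColC.main c.a.toNat c d (Int.toNat_of_nonneg hc).symm hb0 hb2 hd).1

end

end Vale.Agent.P195D
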