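import Vale.Agent.P195D.Spaces

/-!
The Koszul complex `λ ↦ (∂₀λ, ∂₁λ)`, `μ ↦ (xᵢ(∂₁μ₀ - ∂₀μ₁))ᵢ`, `ν ↦ x₁ν₀ - x₀ν₁` on the undeformed
spaces. It is exact except for one class, the value at `(-1, -1)` of the weight-zero coefficient.
-/

namespace Vale.Agent.P195D.Koszul

open MvPolynomial

noncomputable section

variable {k : Type} [Field k]

/-- The unit exponents. -/
def eGam (i : Fin 2) : Gam := if i = 0 then (1, 0) else (0, 1)

theorem eGam_zero : eGam 0 = ((1, 0) : Gam) := rfl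
theorem eGam_one : eGam 1 = ((0, 1) : Gam) := rfl

/-- Multiplication by `xᵢ`. -/
def xOp (k : Type) [Field k] (i : Fin 2) : W k := mon (eGam i) 1

/-- The derivative with respect to `xᵢ`. -/
def dOp (k : Type) [Field k] (i : Fin 2) : W k := mon (-eGam i) (X i + 1)

theorem cf_mon_mul (a : Gam) (f : Pl k) (w : W k) (γ : Gam) :
    cf (mon a f * w) γ = f * tau a (cf w (γ - a)) := by
  induction w using W_induction with
  | hmon b g =>
    rw [mon_mul_mon, cf_mon, cf_mon]
    by_cases h : b = γ - a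
    · subst h; simp
    · rw [if_neg h, if_neg fun h' => h (by rw [← h', add_sub_cancel_left]), map_zero, mul_zero]
  | hadd u v hu hv => simp [mul_add, hu, hv]

theorem cf_xOp_mul (i : Fin 2) (w : W k) (γ : Gam) :
    cf (xOp k i * w) γ = tau (eGam i) (cf w (γ - eGam i)) := by
  rw [xOp, cf_mon_mul, one_mul]

theorem cf_dOp_mul (i : Fin 2) (w : W k) (γ : Gam) :
    cf (dOp k i * w) γ = (X i + 1) * tau (-eGam i) (cf w (γ + eGam i)) := by
  rw [dOp, cf_mon_mul, sub_neg_eq_add]

theorem tau_tau (γ δ : Gam) (f : Pl k) : tau γ (tau δ f) = tau (γ + δ) f := by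
  rw [tau_add]; rfl

@[simp] theorem eGam_zero_fst : (eGam 0).1 = 1 := rfl
@[simp] theorem eGam_zero_snd : (eGam 0).2 = 0 := rfl
@[simp] theorem eGam_one_fst : (eGam 1).1 = 0 := rfl
@[simp] theorem eGam_one_snd : (eGam 1).2 = 1 := rfl

@[simp] theorem tau_zero_apply (f : Pl k) : tau (0 : Gam) f = f := by simp [tau_zero]

theorem tau_inj {γ : Gam} {f g : Pl k} (h : tau γ f = tau γ g) : f = g := by
  simpa [tau_tau, tau_zero_apply] using congrArg (tau (-γ)) h

theorem tau_eq_zero {γ : Gam} {f : Pl k} (h : tau γ f = 0) : f = 0 :=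
  tau_inj (h.trans (map_zero (tau γ)).symm)

@[simp] theorem ev_X (q : Gam) (i : Fin 2) : ev q (X i : Pl k) = ((crd q i : ℤ) : k) := by
  simp [ev]

theorem X_add_one_ne_zero (i : Fin 2) : (X i + 1 : Pl k) ≠ 0 := fun h => by
  simpa [ev, crd] using congrArg (ev (0 : Gam)) h

theorem xOp_injective (i : Fin 2) {u v : W k} (h : xOp k i * u = xOp k i * v) : u = v :=
  W_ext fun γ => by
    have := congrArg (fun w => cf w (γ + eGam i)) h
    simp only [cf_xOp_mul, add_sub_cancel_right] at this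
    exact tau_inj this

theorem dOp_injective (i : Fin 2) {u : W k} (h : dOp k i * u = 0) : u = 0 :=
  W_ext fun γ => by
    have := congrArg (fun w => cf w (γ - eGam i)) h
    simp only [cf_dOp_mul, cf_zero, sub_add_cancel, mul_eq_zero] at this
    simpa using tau_eq_zero (this.resolve_left (X_add_one_ne_zero i))

/-! ### Building elements from coefficients -/

theorem cf_finset_sum {ι : Type} (s : Finset ι) (f : ι → W k) (γ : Gam) :
    cf (∑ i ∈ s, f i) γ = ∑ i ∈ s, cf (f i) γ := by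
  classical
  induction s using Finset.induction_on with
  | empty => simp
  | insert a s ha ih => simp [Finset.sum_insert ha, ih]

theorem exists_Sp0 {δ β : ℤ} (F : Gam → Pl k) (hb : ∀ γ, Bd δ β γ (F γ))
    (h1 : ∀ γ, Keeps .fst γ (F γ)) (h2 : ∀ γ, Keeps .snd γ (F γ)) :
    ∃ w ∈ Sp0 k δ β, ∀ γ, cf w γ = F γ := by
  classical
  let I := Finset.Icc (-β) (δ + β) ×ˢ Finset.Icc (-β) (δ + β)
  have hout : ∀ γ ∉ I, F γ = 0 := fun γ hγ => by
    rcases hb γ with h | ⟨⟨e1, e2, e3, e4⟩, -⟩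
    · exact h
    · exact absurd (by simp only [I, Finset.mem_product, Finset.mem_Icc]; omega) hγ
  refine ⟨∑ γ ∈ I, mon γ (F γ), ?_, fun γ => ?_⟩
  · exact Submodule.sum_mem _ fun γ _ =>
      ⟨⟨mon_mem_Sp (hb γ), mon_mem_Pres (h1 γ)⟩, ⟨mon_mem_Sp (hb γ), mon_mem_Pres (h2 γ)⟩⟩
  · rw [cf_finset_sum]
    simp only [cf_mon]
    rw [Finset.sum_ite_eq']
    split
    · rfl
    · next h => exact (hout γ h).symm

theorem keeps_fst_of_nonneg {γ : Gam} (h : 0 ≤ γ.2) (f : Pl k) : Keeps .fst γ f := by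
  intro q hq hq'
  simp only [Dom.Mem, Prod.snd_sub] at hq hq'
  omega

theorem keeps_snd_of_nonneg {γ : Gam} (h : 0 ≤ γ.1) (f : Pl k) : Keeps .snd γ f := by
  intro q hq hq'
  simp only [Dom.Mem, Prod.fst_sub] at hq hq'
  omega

theorem keeps_zero (S : Dom) (γ : Gam) : Keeps S γ (0 : Pl k) := fun q _ _ => map_zero _

theorem totalDegree_tau (γ : Gam) (f : Pl k) : (tau γ f).totalDegree = f.totalDegree := by
  refine le_antisymm (totalDegree_tau_le γ f) ?_
  have := totalDegree_tau_le (-γ) (tau γ f)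
  rwa [tau_tau, neg_add_cancel, tau_zero_apply] at this

/-! ### Division by `Xᵢ + 1` -/

/-- Substitution of `-1` for `Xᵢ`. -/
def subst (i : Fin 2) : Pl k →ₐ[k] Pl k := aeval (Function.update X i (C (-1)))

@[simp] theorem subst_X_self (i : Fin 2) : subst (k := k) i (X i) = C (-1) := by simp [subst]

theorem subst_X_ne {i j : Fin 2} (h : j ≠ i) : subst (k := k) i (X j) = X j := by
  simp [subst, Function.update_of_ne h]

theorem dvd_sub_subst (i : Fin 2) (f : Pl k) : (X i + 1 : Pl k) ∣ f - subst i f := by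
  induction f using MvPolynomial.induction_on with
  | C a => simp [subst]
  | add p q hp hq => simpa [map_add, add_sub_add_comm] using dvd_add hp hq
  | mul_X p j hp =>
    have e : p * X j - subst i (p * X j) =
        (p - subst i p) * X j + subst i p * (X j - subst i (X j)) := by rw [map_mul]; ring
    rw [e]
    refine dvd_add (dvd_mul_of_dvd_left hp _) (dvd_mul_of_dvd_right ?_ _)
    rcases eq_or_ne j i with rfl | h
    · simp
    · simp [subst_X_ne h]

theorem totalDegree_aeval_le {σ : Fin 2 → Pl k} (hσ : ∀ i, (σ i).totalDegree ≤ 1) (f : Pl k) :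
    (aeval σ f).totalDegree ≤ f.totalDegree := by
  conv_lhs => rw [f.as_sum, map_sum]
  refine totalDegree_finsetSum_le fun d hd => ?_
  refine le_trans ?_ (le_totalDegree hd)
  rw [aeval_monomial]
  refine (totalDegree_mul _ _).trans ?_
  rw [show (algebraMap k (Pl k)) (coeff d f) = C (coeff d f) from rfl, totalDegree_C, zero_add,
    Finsupp.prod]
  refine (totalDegree_finsetProd _ _).trans ?_
  refine Finset.sum_le_sum fun i _ => ?_
  refine (totalDegree_pow _ _).trans ?_
  exact le_trans (Nat.mul_le_mul_left _ (hσ i)) (mul_one _).le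

theorem totalDegree_subst_le (i : Fin 2) (f : Pl k) :
    (subst i f).totalDegree ≤ f.totalDegree := by
  refine totalDegree_aeval_le (fun j => ?_) f
  rcases eq_or_ne j i with rfl | h
  · rw [Function.update_self, totalDegree_C]; omega
  · rw [Function.update_of_ne h, totalDegree_X]

theorem totalDegree_X_add_one (i : Fin 2) : (X i + 1 : Pl k).totalDegree = 1 := by
  rw [totalDegree_add_eq_left_of_totalDegree_lt] <;> simp

theorem totalDegree_fac_mul (i : Fin 2) {g : Pl k} (hg : g ≠ 0) :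
    ((X i + 1) * g).totalDegree = g.totalDegree + 1 := by
  rw [totalDegree_mul_of_isDomain (X_add_one_ne_zero i) hg, totalDegree_X_add_one, add_comm]

/-! ### The class -/

/-- The class of a weight-zero coefficient: its value at `(-1, -1)`. -/
def cls (κ : W k) : k := ev (-1, -1) (cf κ 0)

theorem cls_add (u v : W k) : cls (u + v) = cls u + cls v := by simp [cls]

theorem cls_smul (c : k) (u : W k) : cls (c • u) = c * cls u := by simp [cls]

theorem cls_one : cls (1 : W k) = 1 := by simp [cls, one_eq_mon, cf_mon]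

theorem cls_dOp_mul (i : Fin 2) (w : W k) : cls (dOp k i * w) = 0 := by
  rw [cls, cf_dOp_mul, map_mul]
  fin_cases i <;> simp [crd]

/-! ### Exactness -/

section

variable [CharZero k]

theorem cast_ne_zero {n : ℤ} (h : n < 0) : (n : k) ≠ 0 := Int.cast_ne_zero.2 h.ne

/-- A vanishing product with a negative first factor. -/
theorem ev_eq_zero_of_mul {q : Gam} {i : Fin 2} {g : Pl k} (hq : crd q i + 1 < 0)
    (h : ev q ((X i + 1) * g) = 0) : ev q g = 0 := by
  rw [map_mul, mul_eq_zero] at h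
  refine h.resolve_left ?_
  simpa using cast_ne_zero (k := k) hq

/-- A coefficient with negative exponent is divisible by the corresponding `Xᵢ + 1`. -/
theorem exists_fac_of_keeps {γ : Gam} {f : Pl k}
    (hf : γ.1 < 0 ∧ Keeps .snd γ f ∨ γ.2 < 0 ∧ Keeps .fst γ f) :
    (γ.1 < 0 ∧ Keeps .snd γ f ∧ ∃ g, f = (X 0 + 1) * g) ∨
      (γ.2 < 0 ∧ Keeps .fst γ f ∧ ∃ g, f = (X 1 + 1) * g) := by
  have key : ∀ i j : Fin 2, j ≠ i → (∀ q : Gam, crd q i = -1 → ev q f = 0) →
      ∃ g, f = (X i + 1) * g := by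
    intro i j hj h
    obtain ⟨g, hg⟩ := dvd_sub_subst i f
    refine ⟨g, ?_⟩
    rw [← hg, eq_comm, sub_eq_self]
    -- `subst i f` is a polynomial in `X j` with infinitely many zeros
    have hz : ∀ n : ℕ, (subst i f).eval (fun l => if l = i then 0 else (n : k)) = 0 := fun n => by
      let q : Gam := if i = 0 then (-1, (n : ℤ)) else ((n : ℤ), -1)
      have hq : crd q i = -1 := by fin_cases i <;> simp [q, crd]
      have hqj : crd q j = (n : ℤ) := by
        fin_cases i <;> fin_cases j <;> simp_all [q, crd]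
      refine Eq.trans ?_ (h q hq)
      have : (aeval fun l => if l = i then (0 : k) else (n : k)).comp (subst i) = ev q := by
        refine algHom_ext fun l => ?_
        rcases eq_or_ne l i with rfl | hl
        · simp [hq]
        · obtain rfl : l = j := by omega
          simp [subst_X_ne hl, hl, hqj]
      rw [← AlgHom.congr_fun this f, AlgHom.comp_apply, aeval_eq_eval]
    let φ : Pl k →ₐ[k] Polynomial k := aeval fun l => if l = i then 0 else Polynomial.X
    let ψ : Polynomial k →ₐ[k] Pl k := Polynomial.aeval (X j : Pl k)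
    have hback : (ψ.comp φ).comp (subst i) = subst i := by
      refine algHom_ext fun l => ?_
      rcases eq_or_ne l i with rfl | hl
      · simp [φ, ψ]
      · obtain rfl : l = j := by omega
        simp [φ, ψ, subst_X_ne hl, hl]
    have hp : φ (subst i f) = 0 := by
      refine Polynomial.eq_zero_of_infinite_isRoot _
        ((Set.infinite_range_of_injective Nat.cast_injective).mono ?_)
      rintro _ ⟨n, rfl⟩
      have : (Polynomial.aeval (n : k)).comp φ =
          aeval (fun l => if l = i then (0 : k) else (n : k)) := by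
        refine algHom_ext fun l => ?_
        by_cases hl : l = i <;> simp [φ, hl]
      have h' := AlgHom.congr_fun this (subst i f)
      rw [AlgHom.comp_apply, aeval_eq_eval] at h'
      simpa [Polynomial.IsRoot, Polynomial.coe_aeval_eq_eval] using h'.trans (hz n)
    have h' := AlgHom.congr_fun hback f
    simp only [AlgHom.comp_apply] at h'
    rw [← h', hp, map_zero]
  rcases hf with ⟨h, hk⟩ | ⟨h, hk⟩
  · refine Or.inl ⟨h, hk, key 0 1 (by decide) fun q hq => hk q ?_ ?_⟩ <;>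
      simp [Dom.Mem, crd] at hq ⊢ <;> omega
  · refine Or.inr ⟨h, hk, key 1 0 (by decide) fun q hq => hk q ?_ ?_⟩ <;>
      simp [Dom.Mem, crd] at hq ⊢ <;> omega

/-- The middle step with the derivatives. -/
theorem exact_dOp {δ β : ℤ} {u₀ u₁ : W k} (h₀ : u₀ ∈ Sp0 k (δ - 1) (β + 1))
    (h₁ : u₁ ∈ Sp0 k (δ - 1) (β + 1)) (h : dOp k 1 * u₀ = dOp k 0 * u₁) :
    ∃ l ∈ Sp0 k δ β, u₀ = dOp k 0 * l ∧ u₁ = dOp k 1 * l := by
  have hQ : ∀ γ : Gam, ∃ Q : Pl k, cf u₀ (γ - eGam 0) = (X 0 + 1) * Q ∧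
      cf u₁ (γ - eGam 1) = (X 1 + 1) * tau (eGam 0 - eGam 1) Q := by
    intro γ
    set A := cf u₀ (γ - eGam 0)
    set B := cf u₁ (γ - eGam 1)
    have e := congrArg (fun w => tau (eGam 1) (cf w (γ - eGam 0 - eGam 1))) h
    simp only [cf_dOp_mul, map_mul, tau_tau, add_neg_cancel, tau_zero_apply, map_add, tau_X,
      map_one, sub_add_cancel, show γ - eGam 0 - eGam 1 + eGam 0 = γ - eGam 1 by abel] at e
    have e' : X 1 * A = (X 0 + 1) * tau (eGam 1 + -eGam 0) B := by simpa [crd] using e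
    obtain ⟨Q, hQ⟩ := dvd_sub_subst 0 A
    have hz : subst 0 A = 0 := by
      have := congrArg (subst (k := k) 0) e'
      simpa [subst_X_ne (show (1 : Fin 2) ≠ 0 by decide)] using this
    rw [hz, sub_zero] at hQ
    refine ⟨Q, hQ, tau_inj (γ := eGam 1 + -eGam 0) ?_⟩
    rw [hQ, mul_left_comm] at e'
    rw [← mul_left_cancel₀ (X_add_one_ne_zero 0) e', map_mul, map_add, map_one, tau_X, tau_tau,
      show eGam 1 + -eGam 0 + (eGam 0 - eGam 1) = 0 by abel, tau_zero_apply]
    simp [crd]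
  choose Q hA hB using hQ
  obtain ⟨l, hl, hcf⟩ := exists_Sp0 (δ := δ) (β := β) (fun γ => tau (eGam 0) (Q γ))
    (fun γ => by
      by_cases hq : Q γ = 0
      · exact Or.inl (by rw [hq, map_zero])
      rcases h₀.1.1 (γ - eGam 0) with h0 | ⟨⟨a1, a2, a3, a4⟩, hd⟩
      · rw [hA] at h0; simp [X_add_one_ne_zero, hq] at h0
      rcases h₁.1.1 (γ - eGam 1) with h0 | ⟨⟨b1, b2, b3, b4⟩, -⟩
      · rw [hB] at h0
        exact absurd (tau_eq_zero ((mul_eq_zero.1 h0).resolve_left (X_add_one_ne_zero 1))) hq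
      rw [hA, totalDegree_fac_mul 0 hq] at hd
      simp at a1 a2 a3 b1 b2 b3
      refine Or.inr ⟨⟨?_, ?_, ?_, ?_⟩, ?_⟩ <;> [omega; omega; omega; omega; skip]
      rw [totalDegree_tau]; omega)
    (fun γ q hq hq' => by
      simp [Dom.Mem] at hq hq'
      have h0 := h₁.1.2 (γ - eGam 1) (q - eGam 1) (by simp [Dom.Mem]; omega)
        (by simp [Dom.Mem]; omega)
      rw [hB] at h0
      have := ev_eq_zero_of_mul (by simp [crd]; omega) h0
      rw [ev_tau] at this ⊢
      simpa [show q - eGam 1 - (eGam 0 - eGam 1) = q - eGam 0 by abel] using this)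
    (fun γ q hq hq' => by
      simp [Dom.Mem] at hq hq'
      have h0 := h₀.2.2 (γ - eGam 0) (q - eGam 0) (by simp [Dom.Mem]; omega)
        (by simp [Dom.Mem]; omega)
      rw [hA] at h0
      rw [ev_tau]
      exact ev_eq_zero_of_mul (by simp [crd]; omega) h0)
  refine ⟨l, hl, W_ext fun γ => ?_, W_ext fun γ => ?_⟩
  · rw [cf_dOp_mul, hcf, tau_tau, neg_add_cancel, tau_zero_apply, ← hA, add_sub_cancel_right]
  · rw [cf_dOp_mul, hcf, tau_tau, neg_add_eq_sub, ← hB, add_sub_cancel_right]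

omit [CharZero k] in
/-- The middle step with multiplication by the variables. -/
theorem exact_xOp {δ β : ℤ} {u₀ u₁ : W k} (h₀ : u₀ ∈ Sp0 k (δ + 1) β)
    (h₁ : u₁ ∈ Sp0 k (δ + 1) β) (h : xOp k 1 * u₀ = xOp k 0 * u₁) :
    ∃ κ ∈ Sp0 k δ β, u₀ = xOp k 0 * κ ∧ u₁ = xOp k 1 * κ := by
  set F : Gam → Pl k := fun γ => tau (-eGam 0) (cf u₀ (γ + eGam 0))
  have hF : ∀ γ, F γ = tau (-eGam 1) (cf u₁ (γ + eGam 1)) := fun γ => by
    refine tau_inj (γ := eGam 0 + eGam 1) ?_
    have e := congrArg (fun w => cf w (γ + eGam 0 + eGam 1)) h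
    simp only [cf_xOp_mul, add_sub_cancel_right,
      show γ + eGam 0 + eGam 1 - eGam 0 = γ + eGam 1 by abel] at e
    simpa [F, tau_tau] using e
  obtain ⟨κ, hκ, hcf⟩ := exists_Sp0 (δ := δ) (β := β) F
    (fun γ => by
      rcases h₀.1.1 (γ + eGam 0) with h0 | ⟨⟨a1, a2, a3, a4⟩, hd⟩
      · exact Or.inl (by simp only [F]; rw [h0, map_zero])
      rcases h₁.1.1 (γ + eGam 1) with h0 | ⟨⟨b1, b2, b3, b4⟩, -⟩
      · exact Or.inl (by rw [hF, h0, map_zero])
      simp at a1 a2 a3 b1 b2 b3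
      refine Or.inr ⟨⟨?_, ?_, ?_, ?_⟩, ?_⟩ <;> [omega; omega; omega; omega; skip]
      simp only [F]; rw [totalDegree_tau]; omega)
    (fun γ q hq hq' => by
      simp [Dom.Mem] at hq hq'
      simp only [F]; rw [ev_tau]
      exact h₀.1.2 (γ + eGam 0) (q - -eGam 0) (by simp [Dom.Mem]; omega)
        (by simp [Dom.Mem]; omega))
    (fun γ q hq hq' => by
      simp [Dom.Mem] at hq hq'
      rw [hF, ev_tau]
      exact h₁.2.2 (γ + eGam 1) (q - -eGam 1) (by simp [Dom.Mem]; omega)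
        (by simp [Dom.Mem]; omega))
  refine ⟨κ, hκ, W_ext fun γ => ?_, W_ext fun γ => ?_⟩
  · rw [cf_xOp_mul, hcf]; simp [F, tau_tau, tau_zero_apply]
  · rw [cf_xOp_mul, hcf, hF]; simp [tau_tau, tau_zero_apply]

/-- The only obstruction to being `∂₁u₀ - ∂₀u₁` is the class. -/
theorem exists_class {δ β : ℤ} (hδ : -1 ≤ δ) (hδ' : δ ≤ 0) {κ : W k} (hκ : κ ∈ Sp0 k δ β) :
    ∃ u₀ ∈ Sp0 k (δ + 1) (β - 1), ∃ u₁ ∈ Sp0 k (δ + 1) (β - 1),
      κ = dOp k 1 * u₀ - dOp k 0 * u₁ + cls κ • 1 := by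
  have hdec : ∀ γ : Gam, ∃ a b : Pl k,
      cf κ γ = (X 1 + 1) * a - (X 0 + 1) * b + (if γ = 0 then C (cls κ) else 0) ∧
      (Bd (δ + 1) (β - 1) (γ + eGam 1) (tau (eGam 1) a) ∧
        Keeps .fst (γ + eGam 1) (tau (eGam 1) a) ∧ Keeps .snd (γ + eGam 1) (tau (eGam 1) a)) ∧
      (Bd (δ + 1) (β - 1) (γ + eGam 0) (tau (eGam 0) b) ∧
        Keeps .fst (γ + eGam 0) (tau (eGam 0) b) ∧ Keeps .snd (γ + eGam 0) (tau (eGam 0) b)) := by
    intro γ
    have hz : ∀ γ' : Gam, Bd (δ + 1) (β - 1) γ' (tau γ' (0 : Pl k)) ∧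
        Keeps .fst γ' (tau γ' (0 : Pl k)) ∧ Keeps .snd γ' (tau γ' (0 : Pl k)) := fun γ' => by
      simp [keeps_zero, Bd.zero]
    rcases hκ.1.1 γ with h0 | ⟨⟨a1, a2, a3, a4⟩, hd⟩
    · refine ⟨0, 0, ?_, by simpa using hz _, by simpa using hz _⟩
      rw [h0]; split
      · next h => subst h; simp [cls, h0]
      · simp
    by_cases h2 : γ.2 < 0
    · have hne : γ ≠ 0 := fun e => by simp [e] at h2
      obtain ⟨h1, -⟩ | ⟨-, hk, g, hg⟩ := exists_fac_of_keeps (Or.inr ⟨h2, hκ.1.2 γ⟩)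
      · omega
      refine ⟨g, 0, by simp [hg, if_neg hne], ⟨?_, ?_, ?_⟩, by simpa using hz _⟩
      · by_cases hg0 : g = 0
        · exact Or.inl (by rw [hg0, map_zero])
        rw [hg, totalDegree_fac_mul 1 hg0] at hd
        refine Or.inr ⟨⟨?_, ?_, ?_, ?_⟩, ?_⟩ <;>
          [simp; simp; simp; omega; rw [totalDegree_tau]] <;> omega
      · intro q hq hq'
        simp [Dom.Mem] at hq hq'
        have h0 := hk (q - eGam 1) (by simp [Dom.Mem]; omega) (by simp [Dom.Mem]; omega)
        rw [hg] at h0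
        rw [ev_tau]
        exact ev_eq_zero_of_mul (by simp [crd]; omega) h0
      · exact keeps_snd_of_nonneg (by simp; omega) _
    by_cases h1 : γ.1 < 0
    · have hne : γ ≠ 0 := fun e => by simp [e] at h1
      obtain ⟨-, hk, g, hg⟩ | ⟨h2', -⟩ := exists_fac_of_keeps (Or.inl ⟨h1, hκ.2.2 γ⟩)
      swap
      · omega
      refine ⟨0, -g, by simp [hg, if_neg hne], by simpa using hz _, ⟨?_, ?_, ?_⟩⟩
      · by_cases hg0 : g = 0
        · exact Or.inl (by rw [hg0, neg_zero, map_zero])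
        rw [hg, totalDegree_fac_mul 0 hg0] at hd
        refine Or.inr ⟨⟨?_, ?_, ?_, ?_⟩, ?_⟩ <;>
          [simp; simp; simp; omega; rw [totalDegree_tau, totalDegree_neg]] <;> omega
      · exact keeps_fst_of_nonneg (by simp; omega) _
      · intro q hq hq'
        simp [Dom.Mem] at hq hq'
        have h0 := hk (q - eGam 0) (by simp [Dom.Mem]; omega) (by simp [Dom.Mem]; omega)
        rw [hg] at h0
        rw [ev_tau, map_neg, neg_eq_zero]
        exact ev_eq_zero_of_mul (by simp [crd]; omega) h0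
    obtain rfl : γ = 0 := Prod.ext (by simp; omega) (by simp; omega)
    obtain ⟨b, hb⟩ := dvd_sub_subst 0 (cf κ 0)
    obtain ⟨a, ha⟩ := dvd_sub_subst 1 (subst 0 (cf κ 0))
    have hs : subst 1 (subst 0 (cf κ 0)) = C (cls κ) := by
      have : (subst (k := k) 1).comp (subst 0) =
          (IsScalarTower.toAlgHom k k (Pl k)).comp (ev (-1, -1)) := by
        refine algHom_ext fun l => ?_
        fin_cases l <;> simp [crd, subst_X_ne, algebraMap_eq]
      exact AlgHom.congr_fun this (cf κ 0)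
    rw [hs] at ha
    have hsub : ∀ i (f : Pl k), (f - subst i f).totalDegree ≤ f.totalDegree := fun i f =>
      (totalDegree_sub _ _).trans (max_le le_rfl (totalDegree_subst_le i f))
    have hbd : ∀ i (g : Pl k), ((((X i + 1) * g).totalDegree : ℕ) : ℤ) ≤ β →
        Bd (δ + 1) (β - 1) ((0 : Gam) + eGam i) (tau (eGam i) g) := fun i g hg => by
      by_cases hg0 : g = 0
      · exact Or.inl (by rw [hg0, map_zero])
      rw [totalDegree_fac_mul i hg0] at hg
      refine Or.inr ⟨⟨?_, ?_, ?_, ?_⟩, ?_⟩ <;>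
        [(fin_cases i <;> simp); (fin_cases i <;> simp); (fin_cases i <;> simp); omega;
          rw [totalDegree_tau]] <;> simp at a1 ⊢ <;> omega
    refine ⟨a, -b, ?_, ⟨hbd 1 a ?_, ?_, ?_⟩, ⟨hbd 0 (-b) ?_, ?_, ?_⟩⟩
    · rw [if_pos rfl]; linear_combination hb + ha
    · rw [← ha]
      refine le_trans (Int.ofNat_le.2 ?_) hd
      refine (totalDegree_sub _ _).trans (max_le (totalDegree_subst_le 0 _) ?_)
      rw [totalDegree_C]; omega
    · exact keeps_fst_of_nonneg (by simp) _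
    · exact keeps_snd_of_nonneg (by simp) _
    · rw [mul_neg, totalDegree_neg, ← hb]
      exact le_trans (Int.ofNat_le.2 (hsub 0 _)) hd
    · exact keeps_fst_of_nonneg (by simp) _
    · exact keeps_snd_of_nonneg (by simp) _
  choose a b hab hA hB using hdec
  obtain ⟨u₀, hu₀, hc₀⟩ := exists_Sp0 (δ := δ + 1) (β := β - 1)
    (fun γ => tau (eGam 1) (a (γ - eGam 1)))
    (fun γ => by simpa using (hA (γ - eGam 1)).1) (fun γ => by simpa using (hA (γ - eGam 1)).2.1)
    (fun γ => by simpa using (hA (γ - eGam 1)).2.2)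
  obtain ⟨u₁, hu₁, hc₁⟩ := exists_Sp0 (δ := δ + 1) (β := β - 1)
    (fun γ => tau (eGam 0) (b (γ - eGam 0)))
    (fun γ => by simpa using (hB (γ - eGam 0)).1) (fun γ => by simpa using (hB (γ - eGam 0)).2.1)
    (fun γ => by simpa using (hB (γ - eGam 0)).2.2)
  refine ⟨u₀, hu₀, u₁, hu₁, W_ext fun γ => ?_⟩
  have hsub : ∀ u v : W k, cf (u - v) γ = cf u γ - cf v γ := fun u v => by
    simp [cf, SkewMonoidAlgebra.coeff_sub]
  rw [cf_add, hsub, cf_dOp_mul, cf_dOp_mul, hc₀, hc₁, cf_smul, one_eq_mon, cf_mon]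
  simp only [add_sub_cancel_right, tau_tau, neg_add_cancel, tau_zero_apply]
  rw [hab γ]
  rcases eq_or_ne γ 0 with rfl | hne
  · simp [smul_eq_C_mul]
  · rw [if_neg hne, if_neg (Ne.symm hne)]; simp

omit [CharZero k] in
/-- The last map is surjective in positive relative degree. -/
theorem exists_xOp {δ β : ℤ} (hδ : 1 ≤ δ) {w : W k} (hw : w ∈ Sp0 k δ β) :
    ∃ u₀ ∈ Sp0 k (δ - 1) β, ∃ u₁ ∈ Sp0 k (δ - 1) β, w = xOp k 1 * u₀ - xOp k 0 * u₁ := by
  obtain ⟨u₀, hu₀, hc₀⟩ := exists_Sp0 (δ := δ - 1) (β := β)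
    (fun γ => if 0 < (γ + eGam 1).1 then 0 else tau (-eGam 1) (cf w (γ + eGam 1)))
    (fun γ => by
      split
      · exact Bd.zero
      rcases hw.1.1 (γ + eGam 1) with h0 | ⟨⟨a1, a2, a3, a4⟩, hd⟩
      · exact Or.inl (by rw [h0, map_zero])
      simp at *
      refine Or.inr ⟨⟨?_, ?_, ?_, ?_⟩, ?_⟩ <;> [omega; omega; omega; omega; skip]
      rw [totalDegree_tau]; omega)
    (fun γ => by
      split
      · exact keeps_zero _ _
      rcases hw.1.1 (γ + eGam 1) with h0 | ⟨⟨a1, -, -, -⟩, -⟩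
      · rw [h0, map_zero]; exact keeps_zero _ _
      simp at *
      exact keeps_fst_of_nonneg (by omega) _)
    (fun γ => by
      split
      · exact keeps_zero _ _
      intro q hq hq'
      simp [Dom.Mem] at hq hq'
      rw [ev_tau]
      exact hw.2.2 (γ + eGam 1) (q - -eGam 1) (by simp [Dom.Mem]; omega)
        (by simp [Dom.Mem]; omega))
  obtain ⟨u₁, hu₁, hc₁⟩ := exists_Sp0 (δ := δ - 1) (β := β)
    (fun γ => if 0 < (γ + eGam 0).1 then -tau (-eGam 0) (cf w (γ + eGam 0)) else 0)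
    (fun γ => by
      split
      swap
      · exact Bd.zero
      rcases hw.1.1 (γ + eGam 0) with h0 | ⟨⟨a1, a2, a3, a4⟩, hd⟩
      · exact Or.inl (by rw [h0, map_zero, neg_zero])
      simp at *
      refine Or.inr ⟨⟨?_, ?_, ?_, ?_⟩, ?_⟩ <;> [omega; omega; omega; omega; skip]
      rw [totalDegree_neg, totalDegree_tau]; omega)
    (fun γ => by
      split
      swap
      · exact keeps_zero _ _
      intro q hq hq'
      simp [Dom.Mem] at hq hq'
      rw [map_neg, neg_eq_zero, ev_tau]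
      exact hw.1.2 (γ + eGam 0) (q - -eGam 0) (by simp [Dom.Mem]; omega)
        (by simp [Dom.Mem]; omega))
    (fun γ => by
      split
      swap
      · exact keeps_zero _ _
      next h => exact keeps_snd_of_nonneg (by simp at h; omega) _)
  refine ⟨u₀, hu₀, u₁, hu₁, W_ext fun γ => ?_⟩
  rw [show cf (xOp k 1 * u₀ - xOp k 0 * u₁) γ = cf (xOp k 1 * u₀) γ - cf (xOp k 0 * u₁) γ from by
    simp [cf, SkewMonoidAlgebra.coeff_sub]]
  rw [cf_xOp_mul, cf_xOp_mul, hc₀, hc₁]
  simp only [sub_add_cancel]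
  split <;> simp [tau_tau, tau_zero_apply]

end

end

end Vale.Agent.P195D.Koszul
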