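import Vale.Agent.P195D.ResDef
import Vale.Agent.P195D.Koszul

/-!
The complex of morphisms from the slots of the periodic resolution to a fixed object.

Filtering by the level, each level pairs the two layers by the identity or by `(1, -1)`; only the
undeformed Koszul complex of the first copy survives, and only for targets of layer `1`.
-/

namespace Vale.Agent.P195D.HomCore

open Res Koszul

noncomputable section

variable {k : Type} [Field k]

theorem neg_mulW (a b : W k) : -a * b = -(a * b) := neg_mul a b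

theorem mul_negW (a b : W k) : a * -b = -(a * b) := mul_neg a b

theorem add_negW (a b : W k) : a + -b = a - b := (sub_eq_add_neg a b).symm

theorem mul_subW (a b c : W k) : a * b - a * c = a * (b - c) := (mul_sub a b c).symm

theorem dd_eq (i : Fin 2) : (dd i : W k) = dOp k i := by fin_cases i <;> rfl

theorem xx_eq (i : Fin 2) : (xx i : W k) = xOp k i := by fin_cases i <;> rfl

/-- Cochains in degree `n` with values in `d`. -/
abbrev Co (k : Type) [Field k] (m : ℕ) (d : Ob) (n : ℕ) : Type :=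
  ∀ t : T n, Hom' k (qob m t.1) d

instance instAddCommGroupCo (m : ℕ) (d : Ob) (n : ℕ) : AddCommGroup (Co k m d n) :=
  Pi.addCommGroup

/-- The coboundary. -/
def dc (k : Type) [Field k] (m : ℕ) (d : Ob) (n : ℕ) : Co k m d n →ₗ[k] Co k m d (n + 1) :=
  LinearMap.pi fun t => ∑ s : T n,
    (comp (qob m t.1) (qob m s.1) d (ent m n t.1 s.1)).comp (LinearMap.proj s)

variable {m : ℕ} {d : Ob} {n : ℕ}

theorem dc_sub (F G : Co k m d n) : dc k m d n (F - G) = dc k m d n F - dc k m d n G :=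
  map_sub _ _ _

theorem dc_add (F G : Co k m d n) : dc k m d n (F + G) = dc k m d n F + dc k m d n G :=
  map_add _ _ _

theorem dc_cocycle (hdd : ∀ g : Co k m d n, dc k m d (n + 1) (dc k m d n g) = 0)
    {F : Co k m d (n + 1)} (hF : dc k m d (n + 1) F = 0) (g : Co k m d n) :
    dc k m d (n + 1) (F - dc k m d n g) = 0 := by
  rw [dc_sub, hF, hdd]
  exact sub_zero (0 : Co k m d (n + 1 + 1))

theorem sub_dc_add (F : Co k m d (n + 1)) (g y : Co k m d n) :
    F - dc k m d n (g + y) = F - dc k m d n g - dc k m d n y := by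
  rw [dc_add]
  exact (sub_sub F _ _).symm

theorem eq_of_sub_eq {F : Co k m d (n + 1)} {g y : Co k m d n}
    (h : ∀ t, ((F - dc k m d n g) t).1 = (dc k m d n y t).1) : dc k m d n (g + y) = F := by
  rw [dc_add]
  exact funext fun t => Subtype.ext (eq_sub_iff_add_eq'.1 (h t).symm)

theorem dc_apply (F : Co k m d n) (t : T (n + 1)) :
    dc k m d n F t = ∑ s : T n, comp (qob m t.1) (qob m s.1) d (ent m n t.1 s.1) (F s) := by
  simp [dc, LinearMap.sum_apply]

/-- The values of a cochain, extended by zero. -/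
def xv (F : Co k m d n) (s : Slot) : Pr k := if h : Pres' n s then (F ⟨s, h⟩).1 else 0

theorem xv_of (F : Co k m d n) {s : Slot} (h : Pres' n s) : xv F s = (F ⟨s, h⟩).1 := dif_pos h

theorem xv_of_not (F : Co k m d n) {s : Slot} (h : ¬ Pres' n s) : xv F s = 0 := dif_neg h

theorem mulP_zero_right (i j l : Fin 2) (x : Pr k) : mulP i j l x 0 = 0 := by
  have h := mulP_add_right i j l x 0 0
  rw [add_zero] at h
  exact add_eq_left.1 h.symm

theorem mulP_zero_left (i j l : Fin 2) (x : Pr k) : mulP i j l 0 x = 0 := by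
  have h := mulP_add_left i j l 0 0 x
  rw [add_zero] at h
  exact add_eq_left.1 h.symm

theorem sub_eq_of {u : Ob} {a b : Hom' k u d} (h : a.1 = b.1) : a - b = 0 := by
  refine Subtype.ext ?_
  show a.1 - b.1 = 0
  rw [h, sub_self]

theorem dc_val (F : Co k m d n) (t : T (n + 1)) :
    (dc k m d n F t).1 =
      ∑ s : Slot, mulP t.1.1 s.1 d.lay (entP k n t.1 s) (xv F s) := by
  rw [dc_apply, ← Fintype.sum_subtype_add_sum_subtype (Pres' n)
    (fun s => mulP t.1.1 s.1 d.lay (entP k n t.1 s) (xv F s))]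
  rw [Finset.sum_eq_zero (s := Finset.univ (α := {s // ¬ Pres' n s}))
    (fun s _ => by rw [xv_of_not F s.2, mulP_zero_right]), add_zero, AddSubmonoidClass.coe_finsetSum]
  exact Finset.sum_congr rfl fun s _ => by rw [xv_of F s.2]; rfl

/-- The pair from a slot to its partner in the other layer. -/
def diag (k : Type) [Field k] (r : Fin 2) : Pr k := if r = 0 then (1, -1) else (1, 0)

/-- The other layer. -/
def flip (r : Fin 2) : Fin 2 := if r = 0 then 1 else 0

theorem flip_flip (r : Fin 2) : flip (flip r) = r := by fin_cases r <;> rfl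

theorem entP_tri {t s : Slot} (h : lev t.2 ≤ lev s.2) :
    entP k n t s = if s = (flip t.1, t.2) then diag k t.1 else 0 := by
  obtain ⟨r, q⟩ := t
  obtain ⟨r', q'⟩ := s
  fin_cases q <;> fin_cases q' <;> simp [lev] at h <;>
    fin_cases r <;> fin_cases r' <;> simp [entP, Dq, Lq, diag, flip]

theorem dc_val_tri (F : Co k m d n) (t : T (n + 1))
    (h : ∀ s : Slot, lev s.2 < lev t.1.2 → xv F s = 0) :
    (dc k m d n F t).1 =
      mulP t.1.1 (flip t.1.1) d.lay (diag k t.1.1) (xv F (flip t.1.1, t.1.2)) := by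
  rw [dc_val, Finset.sum_eq_single (flip t.1.1, t.1.2)]
  · rw [entP_tri (t := t.1) (s := (flip t.1.1, t.1.2)) le_rfl, if_pos rfl]
  · intro s _ hs
    rcases lt_or_ge (lev s.2) (lev t.1.2) with hl | hl
    · rw [h s hl, mulP_zero_right]
    · rw [entP_tri hl, if_neg hs, mulP_zero_left]
  · simp

theorem pres_flip {t : T (n + 1)} (h : ¬ (t.1.1 = 0 ∧ lev t.1.2 = n + 1)) :
    Pres' n (flip t.1.1, t.1.2) := by
  obtain ⟨⟨r, q⟩, h1, h2⟩ := t
  fin_cases r <;> simp [Pres', flip] at h h1 h2 ⊢ <;> omega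

theorem pres_partner {s : T n} : Pres' (n + 1) (flip s.1.1, s.1.2) := by
  obtain ⟨⟨r, q⟩, h1, h2⟩ := s
  fin_cases r <;> simp [Pres', flip] at h1 h2 ⊢ <;> omega

theorem qa_le (q : Fin 6) : qa q ≤ 1 := by fin_cases q <;> simp [qa]

theorem lev_le (q : Fin 6) : lev q ≤ 3 := by fin_cases q <;> simp [lev]

/-- The values of a cochain at the partner are reached through the connecting entries. -/
theorem exists_partner (hd : (m : ℤ) ≤ d.a) (F : Co k m d (n + 1))
    (hF : dc k m d (n + 1) F = 0) (s : T n)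
    (hlow : ∀ u : Slot, lev u.2 < lev s.1.2 → xv F u = 0) :
    ∃ y : Hom' k (qob m s.1) d, mulP (flip s.1.1) s.1.1 d.lay (diag k (flip s.1.1)) y.1 =
      (F ⟨(flip s.1.1, s.1.2), pres_partner⟩).1 := by
  set t : T (n + 1) := ⟨(flip s.1.1, s.1.2), pres_partner⟩
  have hq : Pres' (n + 2) s.1 := by
    obtain ⟨h1, h2⟩ := s.2
    exact ⟨h1.trans (by omega), by omega⟩
  have he := dc_val_tri F (⟨s.1, hq⟩ : T (n + 2)) hlow
  rw [hF] at he
  dsimp only at he
  have hx : xv F (flip s.1.1, s.1.2) = (F t).1 := xv_of F t.2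
  rw [hx, Pi.zero_apply, ZeroMemClass.coe_zero] at he
  obtain ⟨⟨r, q⟩, hs⟩ := s
  have hmem := (F t).2
  generalize (F t).1 = x at he hmem ⊢
  obtain ⟨x₁, x₂⟩ := x
  change (x₁, x₂) ∈ Hm k (qob m (flip r, q)) d at hmem
  dsimp only at he ⊢
  fin_cases r
  · -- the value sits in layer `1`
    rw [mem_Hm_E (by simp [flip, qob])] at hmem
    rcases (by omega : d.lay = 0 ∨ d.lay = 1) with hl | hl
    · refine ⟨⟨(x₁, x₂), (mem_Hm_E (by simp [hl])).2 hmem⟩, ?_⟩
      simp [mulP, flip, diag, hl]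
    · obtain ⟨h1, h2⟩ := hmem
      have hδ : -1 ≤ d.a - (qob m ((0 : Fin 2), q)).a := by
        have := qa_le q
        simp [qob]; omega
      obtain ⟨p₁, hp₁, p₂, hp₂, hp⟩ := Submodule.mem_sup.1 (Sp_le_sup hδ h2)
      simp [mulP, flip, diag, hl] at he
      refine ⟨⟨(p₁, p₂), (mem_Hm_L ⟨rfl, hl⟩).2 ⟨hp₁, hp₂⟩⟩, ?_⟩
      simp [mulP, flip, diag, hl, hp]
      exact (Prod.ext_iff.1 he).1
  · -- the value sits in layer `0`
    rcases (by omega : d.lay = 0 ∨ d.lay = 1) with hl | hl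
    · simp [mulP, flip, diag, hl] at he
      refine ⟨0, ?_⟩
      rw [ZeroMemClass.coe_zero, mulP_zero_right]
      exact he
    · simp [mulP, flip, diag, hl] at he
      obtain ⟨h1, h2⟩ := (mem_Hm_L ⟨rfl, hl⟩).1 hmem
      have e : x₂ = -x₁ := eq_neg_of_add_eq_zero_right (Prod.ext_iff.1 he).2.symm
      have h1' := Submodule.neg_mem _ h2
      simp only [e, neg_neg] at h1'
      refine ⟨⟨(x₁, 0), (mem_Hm_E (by simp [qob])).2 ⟨⟨h1, h1'⟩, Submodule.zero_mem _⟩⟩, ?_⟩
      simp [mulP, flip, diag, hl, e]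
      exact neg_one_mul x₁

/-- The surviving slots. -/
def Surv (n : ℕ) (t : Slot) : Prop := t.1 = 0 ∧ lev t.2 = n

theorem clear_below (hd : (m : ℤ) ≤ d.a)
    (hdd : ∀ g : Co k m d n, dc k m d (n + 1) (dc k m d n g) = 0)
    {F : Co k m d (n + 1)} (hF : dc k m d (n + 1) F = 0) (j : ℕ) :
    ∃ g, ∀ t : T (n + 1), lev t.1.2 < j → ¬ Surv (n + 1) t.1 → (F - dc k m d n g) t = 0 := by
  classical
  induction j with
  | zero => exact ⟨0, fun t h => absurd h (Nat.not_lt_zero _)⟩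
  | succ j ih =>
    obtain ⟨g, hg⟩ := ih
    by_cases hj : n + 1 < j
    · refine ⟨g, fun t ht hs => hg t ?_ hs⟩
      obtain ⟨h1, -⟩ := t.2
      omega
    set F' := F - dc k m d n g
    have hF' : dc k m d (n + 1) F' = 0 := dc_cocycle hdd hF g
    have hlow : ∀ u : Slot, lev u.2 < j → xv F' u = 0 := fun u hu => by
      by_cases hp : Pres' (n + 1) u
      · rw [xv_of F' hp, hg ⟨u, hp⟩ hu (fun hs => by have := hs.2; simp only at this; omega)]
        rfl
      · exact xv_of_not F' hp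
    have hy : ∀ s : T n, ∃ y : Hom' k (qob m s.1) d,
        (lev s.1.2 = j → ∀ t : T (n + 1), t.1 = (flip s.1.1, s.1.2) →
          mulP (flip s.1.1) s.1.1 d.lay (diag k (flip s.1.1)) y.1 = (F' t).1) ∧ (lev s.1.2 ≠ j → y = 0) := fun s => by
      by_cases hs : lev s.1.2 = j
      · obtain ⟨y, hy⟩ := exists_partner hd F' hF' s fun u hu => hlow u (hs ▸ hu)
        exact ⟨y, fun _ t ht => hy.trans
          (congrArg (fun x => (F' x).1) (Subtype.ext ht).symm), fun h => absurd hs h⟩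
      · exact ⟨0, fun h => absurd h hs, fun _ => rfl⟩
    choose y hy₁ hy₂ using hy
    refine ⟨g + y, fun t ht hsurv => ?_⟩
    rw [sub_dc_add]
    show F' t - dc k m d n y t = 0
    refine sub_eq_of ?_
    show (F' t).1 = _
    rw [dc_val_tri y t fun u hu => ?_]
    · have hp := pres_flip hsurv
      rw [xv_of y hp]
      rcases lt_or_eq_of_le (Nat.lt_succ_iff.1 ht) with h | h
      · rw [hy₂ ⟨_, hp⟩ (by simpa using h.ne), ZeroMemClass.coe_zero, mulP_zero_right,
          hg t h hsurv, ZeroMemClass.coe_zero]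
      · have := hy₁ ⟨_, hp⟩ h t (by simp [flip_flip])
        simp only [flip_flip] at this
        exact this.symm
    · by_cases hp : Pres' n u
      · rw [xv_of y hp, hy₂ ⟨u, hp⟩ (by simp only; omega)]; rfl
      · exact xv_of_not y hp

/-- Every cocycle is cohomologous to one living on the surviving slots. -/
theorem reduce (hd : (m : ℤ) ≤ d.a)
    (hdd : ∀ g : Co k m d n, dc k m d (n + 1) (dc k m d n g) = 0)
    {F : Co k m d (n + 1)} (hF : dc k m d (n + 1) F = 0) :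
    ∃ g, (dc k m d (n + 1) (F - dc k m d n g) = 0) ∧
      ∀ t : T (n + 1), ¬ Surv (n + 1) t.1 → (F - dc k m d n g) t = 0 := by
  obtain ⟨g, hg⟩ := clear_below hd hdd hF 4
  exact ⟨g, dc_cocycle hdd hF g,
    fun t h => hg t (Nat.lt_succ_of_le (lev_le _)) h⟩

theorem surv_eq {F : Co k m d n} (hF : dc k m d n F = 0)
    (h0 : ∀ s : T n, ¬ Surv n s.1 → F s = 0) {q : Fin 6} (hq : lev q = n)
    (hp : Pres' n ((0 : Fin 2), q)) :
    mulP 1 0 d.lay (diag k 1) (F ⟨_, hp⟩).1 = 0 := by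
  have ht : Pres' (n + 1) ((1 : Fin 2), q) := by simp [Pres', hq]
  have he := dc_val_tri F (⟨_, ht⟩ : T (n + 1)) fun u hu => by
    by_cases h : Pres' n u
    · rw [xv_of F h, h0 ⟨u, h⟩ (fun hs => by have := hs.2; simp only at this hu; omega)]
      rfl
    · exact xv_of_not F h
  rw [hF, Pi.zero_apply, ZeroMemClass.coe_zero] at he
  simp only [flip, one_ne_zero, if_false] at he
  rw [xv_of F hp] at he
  exact he.symm

/-- Targets of layer `0`: a cocycle on surviving slots vanishes. -/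
theorem eq_zero_lay0 (hl : d.lay = 0) {F : Co k m d n} (hF : dc k m d n F = 0)
    (h0 : ∀ s : T n, ¬ Surv n s.1 → F s = 0) : F = 0 := by
  funext s
  obtain ⟨⟨r, q⟩, hs⟩ := s
  by_cases h : Surv n (r, q)
  · obtain ⟨hr, hq⟩ := h
    dsimp only at hr hq
    subst hr
    have := surv_eq hF h0 hq hs
    simp [mulP, diag, hl] at this
    exact this
  · exact h0 _ h

/-- The cochain complex towards layer `0` is exact in positive degree. -/
theorem exact_lay0 (hl : d.lay = 0) (hd : (m : ℤ) ≤ d.a)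
    (hdd : ∀ g : Co k m d n, dc k m d (n + 1) (dc k m d n g) = 0)
    {F : Co k m d (n + 1)} (hF : dc k m d (n + 1) F = 0) : ∃ g, dc k m d n g = F := by
  obtain ⟨g, hg, hg'⟩ := reduce hd hdd hF
  exact ⟨g, (sub_eq_zero.1 (eq_zero_lay0 hl hg hg')).symm⟩

theorem pres_zero {s : T 0} : Surv 0 s.1 := by
  obtain ⟨⟨r, q⟩, h1, h2⟩ := s
  exact ⟨by simp at h1 ⊢; omega, by simp at h1 ⊢; omega⟩

/-- The cochain complex towards layer `0` is injective in degree zero. -/
theorem inj_lay0 (hl : d.lay = 0) {F : Co k m d 0} (hF : dc k m d 0 F = 0) : F = 0 :=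
  eq_zero_lay0 hl hF fun _ h => absurd pres_zero h

/-! ### Targets of layer `1` -/

/-- On surviving slots the values are antidiagonal, with an undeformed entry. -/
theorem surv_form (hl : d.lay = 1) {F : Co k m d n} (hF : dc k m d n F = 0)
    (h0 : ∀ s : T n, ¬ Surv n s.1 → F s = 0) {q : Fin 6} (hq : lev q = n)
    (hp : Pres' n ((0 : Fin 2), q)) :
    ∃ κ ∈ Sp0 k (d.a - ((m : ℤ) + qa q)) (d.b - qb q), (F ⟨_, hp⟩).1 = (κ, -κ) := by
  have := surv_eq hF h0 hq hp
  have hmem := (mem_Hm_L (u := qob m ((0 : Fin 2), q)) ⟨rfl, hl⟩).1 (F ⟨_, hp⟩).2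
  simp [mulP, diag, hl] at this
  have e : (F ⟨_, hp⟩).1.2 = -(F ⟨_, hp⟩).1.1 := eq_neg_of_add_eq_zero_right this
  refine ⟨_, ⟨hmem.1, ?_⟩, Prod.ext rfl e⟩
  have h2 := Submodule.neg_mem _ hmem.2
  rwa [e, neg_neg] at h2

theorem exact_high (hd : (m : ℤ) ≤ d.a)
    (hdd : ∀ g : Co k m d n, dc k m d (n + 1) (dc k m d n g) = 0) (hn : 3 ≤ n)
    {F : Co k m d (n + 1)} (hF : dc k m d (n + 1) F = 0) : ∃ g, dc k m d n g = F := by
  obtain ⟨g, -, hg⟩ := reduce hd hdd hF
  refine ⟨g, (sub_eq_zero.1 (funext fun t => hg t fun h => ?_)).symm⟩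
  have h3 := lev_le t.1.2
  have h4 := h.2
  omega

/-- Sums over all slots. -/
theorem sum_slots {M : Type} [AddCommMonoid M] (f : Slot → M) :
    ∑ s, f s = (f (0, 0) + f (0, 1) + f (0, 2) + f (0, 3) + f (0, 4) + f (0, 5)) +
      (f (1, 0) + f (1, 1) + f (1, 2) + f (1, 3) + f (1, 4) + f (1, 5)) := by
  rw [Fintype.sum_prod_type, Fin.sum_univ_two, Fin.sum_univ_six, Fin.sum_univ_six]

/-- An antidiagonal value. -/
def omVal (hl : d.lay = 1) (q : Fin 6) (κ : W k)
    (hκ : κ ∈ Sp0 k (d.a - ((m : ℤ) + qa q)) (d.b - qb q)) :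
    Hom' k (qob m ((0 : Fin 2), q)) d :=
  ⟨(κ, -κ), (mem_Hm_L ⟨rfl, hl⟩).2
    ⟨Sp0_le_Sp1 _ _ hκ, Submodule.neg_mem _ (Sp0_le_Sp2 _ _ hκ)⟩⟩

theorem inj_lay1 [CharZero k] (hl : d.lay = 1) {F : Co k m d 0} (hF : dc k m d 0 F = 0) :
    F = 0 := by
  funext s
  have h0 : ∀ s : T 0, ¬ Surv 0 s.1 → F s = 0 := fun _ h => absurd pres_zero h
  obtain rfl := T_zero_eq s
  obtain ⟨κ, -, hF0⟩ := surv_form hl hF h0 (q := 0) rfl t0.2
  have e := congrArg Subtype.val (congrFun hF (⟨(0, 1), by decide⟩ : T 1))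
  rw [dc_val] at e
  have hx : xv F ((0 : Fin 2), (0 : Fin 6)) = (κ, -κ) := (xv_of F (by decide)).trans hF0
  simp [sum_slots, hx, xv_of_not, entP, Dq, Lq, mulP, hl, Pres', lev, dd_eq] at e
  refine Subtype.ext ?_
  rw [show (F t0).1 = (κ, -κ) from hF0, dOp_injective 0 e.1]
  exact Prod.ext rfl neg_zero

theorem exact_one [CharZero k] (hl : d.lay = 1) (hd : (m : ℤ) ≤ d.a)
    (hdd : ∀ g : Co k m d 0, dc k m d 1 (dc k m d 0 g) = 0)
    {F : Co k m d 1} (hF : dc k m d 1 F = 0) : ∃ g, dc k m d 0 g = F := by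
  obtain ⟨g, hg, hg'⟩ := reduce hd hdd hF
  set F' := F - dc k m d 0 g
  obtain ⟨κ₁, h₁, e₁⟩ := surv_form hl hg hg' (q := 1) rfl (by decide)
  obtain ⟨κ₂, h₂, e₂⟩ := surv_form hl hg hg' (q := 2) rfl (by decide)
  have e := congrArg (fun x : Co k m d 2 => (x ⟨(0, 3), by decide⟩).1.1) hg
  simp only [dc_val] at e
  have hz : xv F' ((1 : Fin 2), (0 : Fin 6)) = 0 := by
    rw [xv_of F' (by decide), hg' _ (by simp [Surv])]; rfl
  have hx1 : xv F' ((0 : Fin 2), (1 : Fin 6)) = (κ₁, -κ₁) := (xv_of F' (by decide)).trans e₁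
  have hx2 : xv F' ((0 : Fin 2), (2 : Fin 6)) = (κ₂, -κ₂) := (xv_of F' (by decide)).trans e₂
  simp [sum_slots, entP, Dq, Lq, mulP, hl, hz, hx1, hx2, xv_of_not, Pres', lev, dd_eq, xx_eq,
    mul_assoc, neg_mulW] at e
  rw [add_negW, mul_subW] at e
  have e' := xOp_injective 0 (e.trans (mul_zero _).symm)
  obtain ⟨l, hlm, l₁, l₂⟩ := exact_dOp (δ := d.a - (m : ℤ)) (β := d.b - 2)
    (by simpa [qa, qb, sub_sub, show (2 : ℤ) - 1 = 1 by norm_num,
      show d.b - 2 + 1 = d.b - 1 by ring] using h₁)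
    (by simpa [qa, qb, sub_sub, show d.b - 2 + 1 = d.b - 1 by ring] using h₂)
    (sub_eq_zero.1 e')
  let y : Co k m d 0 := fun s => T_zero_eq s ▸
    omVal hl 0 l (by simpa [qa, qb] using hlm)
  refine ⟨g + y, ?_⟩
  have hy : xv y ((0 : Fin 2), (0 : Fin 6)) = (l, -l) := by rw [xv_of y (by decide)]; rfl
  refine eq_of_sub_eq fun t => ?_
  show (F' t).1 = _
  obtain ⟨⟨r, q⟩, ht⟩ := t
  rw [dc_val]
  fin_cases r <;> fin_cases q <;> first
    | exact absurd ht (by decide)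
    | (simp [sum_slots, entP, Dq, Lq, mulP, hl, hy, xv_of_not, Pres', lev, dd_eq]
       first
       | (refine e₁.trans ?_; rw [l₁]; simp [mul_negW])
       | (refine e₂.trans ?_; rw [l₂]; simp [mul_negW])
       | (refine (congrArg Subtype.val (hg' _ (by simp [Surv]))).trans ?_; exact Prod.ext rfl rfl))

theorem exists_two [CharZero k] (hl : d.lay = 1) (hd : (m : ℤ) ≤ d.a) (hd1 : 1 ≤ d.a - m)
    (hd2 : d.a - m ≤ 2)
    (hdd : ∀ g : Co k m d 1, dc k m d 2 (dc k m d 1 g) = 0)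
    {F : Co k m d 2} (hF : dc k m d 2 F = 0) :
    ∃ (g : Co k m d 1) (c : k), (d.a - m = 1 → c = 0) ∧ ∀ t : T 2,
      (F t).1 = (dc k m d 1 g t).1 + c •
        (if t.1 = ((0 : Fin 2), (3 : Fin 6)) then (xOp k 0, -xOp k 0)
         else if t.1 = ((0 : Fin 2), (4 : Fin 6)) then (xOp k 1, -xOp k 1) else 0) := by
  obtain ⟨g, hg, hg'⟩ := reduce hd hdd hF
  set F' := F - dc k m d 1 g
  obtain ⟨κ₁, h₁, e₁⟩ := surv_form hl hg hg' (q := 3) rfl (by decide)
  obtain ⟨κ₂, h₂, e₂⟩ := surv_form hl hg hg' (q := 4) rfl (by decide)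
  have e := congrArg (fun x : Co k m d 3 => (x ⟨(0, 5), by decide⟩).1.1) hg
  simp only [dc_val] at e
  have hz : xv F' ((0 : Fin 2), (0 : Fin 6)) = 0 := by
    rw [xv_of F' (by decide), hg' _ (by simp [Surv, lev])]; rfl
  have hx1 : xv F' ((0 : Fin 2), (3 : Fin 6)) = (κ₁, -κ₁) := (xv_of F' (by decide)).trans e₁
  have hx2 : xv F' ((0 : Fin 2), (4 : Fin 6)) = (κ₂, -κ₂) := (xv_of F' (by decide)).trans e₂
  simp [sum_slots, entP, Dq, Lq, mulP, hl, hz, hx1, hx2, xv_of_not, Pres', lev, xx_eq,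
    neg_mulW] at e
  rw [add_negW] at e
  obtain ⟨κ, hκ, k₁, k₂⟩ := exact_xOp (δ := d.a - m - 2) (β := d.b)
    (by simpa [qa, qb, show d.a - m - 2 + 1 = d.a - ((m : ℤ) + 1) by ring] using h₁)
    (by simpa [qa, qb, show d.a - m - 2 + 1 = d.a - ((m : ℤ) + 1) by ring] using h₂)
    (sub_eq_zero.1 e)
  obtain ⟨u₀, hu₀, u₁, hu₁, hκe⟩ := exists_class (by omega) (by omega) hκ
  have hc : d.a - m = 1 → cls κ = 0 := fun h => by
    rcases hκ.1.1 (0 : Gam) with h0 | ⟨⟨a1, -, -, -⟩, -⟩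
    · simp [cls, h0]
    · simp at a1; omega
  let y : Co k m d 1 := fun s =>
    if h1 : s.1 = ((0 : Fin 2), (1 : Fin 6)) then h1 ▸ omVal hl 1 u₀ (by
      simpa [qa, qb, show d.a - m - 2 + 1 = d.a - ((m : ℤ) + 1) by ring] using hu₀)
    else if h2 : s.1 = ((0 : Fin 2), (2 : Fin 6)) then h2 ▸ omVal hl 2 u₁ (by
      simpa [qa, qb, show d.a - m - 2 + 1 = d.a - ((m : ℤ) + 1) by ring] using hu₁)
    else 0
  have hy1 : xv y ((0 : Fin 2), (1 : Fin 6)) = (u₀, -u₀) := by rw [xv_of y (by decide)]; rfl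
  have hy2 : xv y ((0 : Fin 2), (2 : Fin 6)) = (u₁, -u₁) := by rw [xv_of y (by decide)]; rfl
  have hy0 : xv y ((1 : Fin 2), (0 : Fin 6)) = 0 := by rw [xv_of y (by decide)]; rfl
  generalize cls κ = c at hc hκe
  refine ⟨g + y, c, hc, fun t => ?_⟩
  have key : (F' t).1 = (dc k m d 1 y t).1 + c •
      (if t.1 = ((0 : Fin 2), (3 : Fin 6)) then (xOp k 0, -xOp k 0)
       else if t.1 = ((0 : Fin 2), (4 : Fin 6)) then (xOp k 1, -xOp k 1) else 0) := by
    obtain ⟨⟨r, q⟩, ht⟩ := t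
    rw [dc_val]
    fin_cases r <;> fin_cases q <;> first
      | exact absurd ht (by decide)
      | (simp [sum_slots, entP, Dq, Lq, mulP, hl, hy0, hy1, hy2, xv_of_not, Pres', lev, dd_eq,
          xx_eq]
         first
         | (refine e₁.trans ?_; rw [k₁, hκe]; simp [mul_add, mul_sub, mul_assoc, sub_eq_add_neg, neg_mulW, mul_negW] <;> abel)
         | (refine e₂.trans ?_; rw [k₂, hκe]; simp [mul_add, mul_sub, mul_assoc, sub_eq_add_neg, neg_mulW, mul_negW] <;> abel)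
         | (refine (congrArg Subtype.val (hg' _ (by simp [Surv, lev]))).trans ?_; exact Prod.ext rfl rfl))
  have : (F t).1 = (F' t).1 + (dc k m d 1 g t).1 := by simp [F']
  rw [this, key, dc_add]
  simp only [Pi.add_apply, Submodule.coe_add]
  abel

theorem exact_three [CharZero k] (hl : d.lay = 1) (hd : (m : ℤ) ≤ d.a) (hd1 : 1 ≤ d.a - m)
    (hdd : ∀ g : Co k m d 2, dc k m d 3 (dc k m d 2 g) = 0)
    {F : Co k m d 3} (hF : dc k m d 3 F = 0) : ∃ g, dc k m d 2 g = F := by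
  obtain ⟨g, hg, hg'⟩ := reduce hd hdd hF
  set F' := F - dc k m d 2 g
  obtain ⟨κ, hκ, e⟩ := surv_form hl hg hg' (q := 5) rfl (by decide)
  obtain ⟨u₀, hu₀, u₁, hu₁, hκe⟩ := exists_xOp (δ := d.a - m) hd1
    (show κ ∈ Sp0 k (d.a - m) d.b by simpa [qa, qb] using hκ)
  let y : Co k m d 2 := fun s =>
    if h1 : s.1 = ((0 : Fin 2), (3 : Fin 6)) then h1 ▸ omVal hl 3 u₀ (by
      simpa [qa, qb, sub_sub] using hu₀)
    else if h2 : s.1 = ((0 : Fin 2), (4 : Fin 6)) then h2 ▸ omVal hl 4 u₁ (by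
      simpa [qa, qb, sub_sub] using hu₁)
    else 0
  have hy1 : xv y ((0 : Fin 2), (3 : Fin 6)) = (u₀, -u₀) := by rw [xv_of y (by decide)]; rfl
  have hy2 : xv y ((0 : Fin 2), (4 : Fin 6)) = (u₁, -u₁) := by rw [xv_of y (by decide)]; rfl
  have hy0 : xv y ((0 : Fin 2), (0 : Fin 6)) = 0 := by rw [xv_of y (by decide)]; rfl
  have hy3 : xv y ((1 : Fin 2), (1 : Fin 6)) = 0 := by rw [xv_of y (by decide)]; rfl
  have hy4 : xv y ((1 : Fin 2), (2 : Fin 6)) = 0 := by rw [xv_of y (by decide)]; rfl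
  refine ⟨g + y, eq_of_sub_eq fun t => ?_⟩
  show (F' t).1 = _
  obtain ⟨⟨r, q⟩, ht⟩ := t
  rw [dc_val]
  fin_cases r <;> fin_cases q <;> first
    | exact absurd ht (by decide)
    | (simp [sum_slots, entP, Dq, Lq, mulP, hl, hy0, hy1, hy2, hy3, hy4, xv_of_not, Pres', lev,
        dd_eq, xx_eq]
       first
       | (refine e.trans ?_; rw [hκe]; simp [sub_eq_add_neg, neg_mulW, mul_negW] <;> abel)
       | (refine (congrArg Subtype.val (hg' _ (by simp [Surv, lev]))).trans ?_; exact Prod.ext rfl rfl))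

end

end Vale.Agent.P195D.HomCore
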