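import Vale.Agent.P195D.ResKoszul

/-!
The periodic complex squares to zero and its rows are exact.

The rows in layer `1` are cones of identity maps.  In a row of layer `0` the slots are eliminated
from the top generator down, which leaves the Koszul complex of `∂₁, ∂₂` on the first copy.
-/

namespace Vale.Agent.P195D.Res

set_option linter.unusedSimpArgs false

open MvPolynomial

noncomputable section

variable {k : Type} [Field k]

/-! ### Composition formulas -/

theorem mulP_zero_left (i j l : Fin 2) (y : Pr k) : mulP i j l 0 y = 0 := by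
  have := mulP_smul_left i j l (0 : k) 0 y
  simpa using this

theorem mulP_zero_right (i j l : Fin 2) (x : Pr k) : mulP i j l x 0 = 0 := by
  have := mulP_smul_right i j l (0 : k) x 0
  simpa using this

theorem mulP_sum_right {ι : Type} (i j l : Fin 2) (x : Pr k) (s : Finset ι) (y : ι → Pr k) :
    mulP i j l x (∑ a ∈ s, y a) = ∑ a ∈ s, mulP i j l x (y a) := by
  classical
  induction s using Finset.induction_on with
  | empty => simp [mulP_zero_right]
  | insert a s h ih => rw [Finset.sum_insert h, Finset.sum_insert h, mulP_add_right, ih]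

theorem mulP_sum_left {ι : Type} (i j l : Fin 2) (s : Finset ι) (x : ι → Pr k) (y : Pr k) :
    mulP i j l (∑ a ∈ s, x a) y = ∑ a ∈ s, mulP i j l (x a) y := by
  classical
  induction s using Finset.induction_on with
  | empty => simp [mulP_zero_left]
  | insert a s h ih => rw [Finset.sum_insert h, Finset.sum_insert h, mulP_add_left, ih]

/-! ### The square of the differential -/

theorem pd_xx (i j : Fin 2) : pd i (xx j : W k) = 0 := by simp [xx]

theorem pd_dd (i j : Fin 2) : pd i (dd j : W k) = if i = j then xi j else 0 := by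
  rw [dd, pd_mon]
  split
  · next h => subst h; simp [xi]
  · next h => simp [pderiv_X_of_ne (Ne.symm h)]

theorem entP_absent {n : ℕ} {t t' : Slot} (h : ¬ Pres' (n + 1) t) (h' : Pres' n t') :
    entP k n t t' = 0 := by
  obtain ⟨r, q⟩ := t
  obtain ⟨r', q'⟩ := t'
  fin_cases r <;> fin_cases r' <;> fin_cases q <;> fin_cases q' <;>
    simp [entP, Dq, Lq, Pres', lev] at h h' ⊢ <;>
    first
      | omega
      | (have e : n / 2 = 0 := by omega
         simp [e])

theorem Dq_succ {n : ℕ} {q : Fin 6} (h : q = 5 → n % 2 = 0) (p : Fin 6) :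
    Dq k (n + 1) q p = Dq k n q p := by
  fin_cases q <;> fin_cases p <;> simp [Dq] at h ⊢
  rw [show (n + 1) / 2 = n / 2 by omega]

/-- The sums along the rows of `Dq`. -/
theorem sum_Dq {M : Type} [AddCommGroup M] (n : ℕ) (q : Fin 6) (Φ : W k → Fin 6 → M)
    (h0 : ∀ s, Φ 0 s = 0) :
    ∑ s, Φ (Dq k n q s) s =
      match q with
      | 0 => 0
      | 1 => Φ (dd 0) 0
      | 2 => Φ (dd 1) 0
      | 3 => Φ (xx 0 * dd 1) 1 + Φ (-(xx 0 * dd 0)) 2
      | 4 => Φ (xx 1 * dd 1) 1 + Φ (-(xx 1 * dd 0)) 2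
      | 5 => Φ ((-((n / 2 : ℕ) : k)) • 1) 0 + Φ (xx 1) 3 + Φ (-xx 0) 4 := by
  fin_cases q <;> simp [Fin.sum_univ_six, Dq, h0]

/-- The sums along the rows of `Lq`. -/
theorem sum_Lq {M : Type} [AddCommGroup M] (q : Fin 6) (Φ : Pr k → Fin 6 → M)
    (h0 : ∀ s, Φ 0 s = 0) :
    ∑ s, Φ (Lq k q s) s =
      match q with
      | 3 => Φ (0, -xi 1) 0 + Φ (1, -1) 3
      | 4 => Φ (-xi 0, 0) 0 + Φ (1, -1) 4
      | q => Φ (1, -1) q := by
  fin_cases q <;> simp [Fin.sum_univ_six, Lq, h0]

theorem Dq_mul_Dq (n : ℕ) (q p : Fin 6) :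
    ∑ s, Dq k (n + 1) q s * Dq k n s p = 0 := by
  have h1 : (dd 0 * dd 1 : W k) = dd 1 * dd 0 := dd_comm 0 1
  have h2 : (xx 0 * xx 1 : W k) = xx 1 * xx 0 := xx_comm 0 1
  rw [sum_Dq (n + 1) q (fun w s => w * Dq k n s p) (fun s => zero_mul _)]
  fin_cases q <;> fin_cases p <;> simp [Dq, mul_assoc, h1] <;>
    simp [← mul_assoc, h2]

theorem pd_Dq_mul (n : ℕ) (q p : Fin 6) :
    (∑ s, pd 1 (Dq k (n + 1) q s) * pd 0 (Dq k n s p)) + ((Lq k q p).1 + (Lq k q p).2) = 0 := by
  have h1 : (xx 0 * (xi 1 * xi 0) : W k) = xi 1 := by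
    rw [← mul_assoc, xx_xi_comm, mul_assoc, xx_mul_xi, mul_one]
  have h2 : (xx 1 * (xi 1 * xi 0) : W k) = xi 0 := by
    rw [← mul_assoc, xx_mul_xi, one_mul]
  rw [sum_Dq (n + 1) q (fun w s => pd 1 w * pd 0 (Dq k n s p)) (fun s => by simp)]
  fin_cases q <;> fin_cases p <;>
    simp [Dq, Lq, pd_mul, pd_xx, pd_dd, mul_assoc, h1, h2]

theorem Dq_mul_Lq {n : ℕ} {q : Fin 6} (hn : q = 5 → n % 2 = 1) (p : Fin 6) :
    (∑ s, (Dq k (n + 1) q s * (Lq k s p).1 - (Lq k q s).1 * Dq k n s p) = 0) ∧
    (∑ s, (Dq k (n + 1) q s * (Lq k s p).2 - (Lq k q s).2 * Dq k n s p) = 0) := by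
  have h2 : (xx 1 * xi 1 : W k) = 1 := xx_mul_xi 1
  have h3 : (xx 0 * xi 0 : W k) = 1 := xx_mul_xi 0
  rw [Finset.sum_sub_distrib, Finset.sum_sub_distrib,
    sum_Dq (n + 1) q (fun w s => w * (Lq k s p).1) (fun s => zero_mul _),
    sum_Dq (n + 1) q (fun w s => w * (Lq k s p).2) (fun s => zero_mul _),
    sum_Lq q (fun x s => x.1 * Dq k n s p) (fun s => zero_mul _),
    sum_Lq q (fun x s => x.2 * Dq k n s p) (fun s => zero_mul _)]
  fin_cases q <;> fin_cases p <;> simp [Dq, Lq] at hn ⊢
  rw [show (n + 1) / 2 = n / 2 + 1 by omega, h2, h3]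
  push_cast
  constructor <;> simp [add_smul, neg_smul] <;> abel

theorem ent_mul_ent {n : ℕ} {t t'' : Slot} (ht : Pres' (n + 2) t) (ht'' : Pres' n t'') :
    ∑ t' : Slot, mulP t.1 t'.1 t''.1 (entP k (n + 1) t t') (entP k n t' t'') = 0 := by
  obtain ⟨r, q⟩ := t
  obtain ⟨r'', p⟩ := t''
  rw [Fintype.sum_prod_type, Fin.sum_univ_two]
  obtain ⟨-, hr⟩ := ht
  obtain ⟨-, hr''⟩ := ht''
  fin_cases r <;> fin_cases r'' <;> simp at hr hr''
  · simp only [entP, mulP]
    simp only [Fin.zero_eta, Fin.isValue, Fin.mk_one, one_ne_zero, zero_ne_one, and_self,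
      and_false, false_and, ↓reduceIte]
    refine Prod.ext ?_ ?_
    · simpa [Prod.fst_sum, apply_ite Prod.fst, Finset.sum_ite_eq', Finset.sum_ite_eq] using
        Dq_mul_Dq n q p
    · simpa [Prod.snd_sum, apply_ite Prod.fst, apply_ite Prod.snd, mul_ite, Finset.sum_ite_eq',
        Finset.sum_ite_eq] using pd_Dq_mul n q p
  · simp only [entP, mulP]
    simp only [Fin.zero_eta, Fin.isValue, Fin.mk_one, one_ne_zero, zero_ne_one, and_self,
      and_false, false_and, ↓reduceIte]
    obtain ⟨a, b⟩ := Dq_mul_Lq (k := k) (n := n) (q := q)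
      (fun e => by subst e; simp [lev] at hr; omega) p
    rw [Finset.sum_sub_distrib] at a b
    refine Prod.ext ?_ ?_
    · simpa [Prod.fst_sum, sub_eq_add_neg] using a
    · simpa [Prod.snd_sum, sub_eq_add_neg] using b
  · have e : Dq k (n + 1) q p = Dq k n q p :=
      Dq_succ (fun e => by subst e; simp [lev] at hr; omega) p
    simp only [entP, mulP]
    simp only [Fin.zero_eta, Fin.isValue, Fin.mk_one, one_ne_zero, zero_ne_one, and_self,
      and_false, false_and, ↓reduceIte]
    refine Prod.ext ?_ ?_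
    · simp [Prod.fst_sum, apply_ite Prod.fst, e]
    · simp [Prod.snd_sum, apply_ite Prod.fst, apply_ite Prod.snd, apply_ite (pd (k := k) _)]
  · simp only [entP, mulP]
    simp only [Fin.zero_eta, Fin.isValue, Fin.mk_one, one_ne_zero, zero_ne_one, and_self,
      and_false, false_and, ↓reduceIte]
    refine Prod.ext ?_ ?_
    · simpa [Prod.fst_sum, apply_ite Prod.fst, Finset.sum_ite_eq', Finset.sum_ite_eq] using
        Dq_mul_Dq n q p
    · simpa [Prod.snd_sum, apply_ite Prod.fst, apply_ite Prod.snd, ite_mul, Finset.sum_ite_eq',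
        Finset.sum_ite_eq, add_comm] using pd_Dq_mul n q p

/-- The differential on a row, as a function of all slots. -/
def RD (k : Type) [Field k] (l : Fin 2) (n : ℕ) (f : Slot → Pr k) (t' : Slot) : Pr k :=
  if Pres' n t' then ∑ t, mulP l t.1 t'.1 (f t) (entP k n t t') else 0

theorem RD_add (l : Fin 2) (n : ℕ) (f g : Slot → Pr k) :
    RD k l n (f + g) = RD k l n f + RD k l n g := funext fun t' => by
  simp only [RD, Pi.add_apply]
  split
  · simp [mulP_add_left, Finset.sum_add_distrib]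
  · simp

theorem RD_sub (l : Fin 2) (n : ℕ) (f g : Slot → Pr k) :
    RD k l n (f - g) = RD k l n f - RD k l n g :=
  eq_sub_of_add_eq (by rw [← RD_add, sub_add_cancel])

theorem RD_RD (l : Fin 2) (n : ℕ) {f : Slot → Pr k} (hf : ∀ t, ¬ Pres' (n + 2) t → f t = 0) :
    RD k l n (RD k l (n + 1) f) = 0 := funext fun t'' => by
  show RD k l n (RD k l (n + 1) f) t'' = 0
  rw [RD]
  split
  swap
  · rfl
  rename_i h''
  have e : ∀ t', mulP l t'.1 t''.1 (RD k l (n + 1) f t') (entP k n t' t'')
      = ∑ t, mulP l t.1 t''.1 (f t) (mulP t.1 t'.1 t''.1 (entP k (n + 1) t t') (entP k n t' t'')) :=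
    fun t' => by
    rw [RD]
    split
    · rw [mulP_sum_left]
      exact Finset.sum_congr rfl fun t _ => mulP_assoc _ _ _ _ _ _ _
    · next h' =>
      simp [entP_absent h' h'', mulP_zero_left, mulP_zero_right]
  rw [Finset.sum_congr rfl fun t' _ => e t', Finset.sum_comm]
  refine Finset.sum_eq_zero fun t _ => ?_
  by_cases ht : Pres' (n + 2) t
  · rw [← mulP_sum_right, ent_mul_ent ht h'', mulP_zero_right]
  · simp [hf t ht, mulP_zero_left]

/-! ### Rows -/

/-- An element of a row in degree `n`. -/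
def InRow (m : ℕ) (o : Ob) (n : ℕ) (f : Slot → Pr k) : Prop :=
  ∀ t, f t ∈ Hm k o (qob m t) ∧ (¬ Pres' n t → f t = 0)

theorem InRow.add {m : ℕ} {o : Ob} {n : ℕ} {f g : Slot → Pr k} (hf : InRow m o n f)
    (hg : InRow m o n g) : InRow m o n (f + g) := fun t =>
  ⟨Submodule.add_mem _ (hf t).1 (hg t).1, fun h => by simp [(hf t).2 h, (hg t).2 h]⟩

theorem InRow.sub {m : ℕ} {o : Ob} {n : ℕ} {f g : Slot → Pr k} (hf : InRow m o n f)
    (hg : InRow m o n g) : InRow m o n (f - g) := fun t =>
  ⟨Submodule.sub_mem _ (hf t).1 (hg t).1, fun h => by simp [(hf t).2 h, (hg t).2 h]⟩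

theorem InRow.single {m : ℕ} {o : Ob} {n : ℕ} {t : Slot} {x : Pr k}
    (hx : x ∈ Hm k o (qob m t)) (h : ¬ Pres' n t → x = 0) :
    InRow m o n (Pi.single t x) := fun t' => by
  rcases eq_or_ne t' t with rfl | hne
  · rw [Pi.single_eq_same]; exact ⟨hx, h⟩
  · rw [Pi.single_eq_of_ne hne]; exact ⟨Submodule.zero_mem _, fun _ => rfl⟩

theorem InRow.RD {m : ℕ} {o : Ob} {n : ℕ} {f : Slot → Pr k} (hf : InRow m o (n + 1) f) :
    InRow m o n (RD k o.lay n f) := fun t' => by
  refine ⟨?_, fun h => by simp [Res.RD, h]⟩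
  unfold Res.RD
  split
  · exact Submodule.sum_mem _ fun t _ => mulP_mem (hf t).1 (entP_mem m n t t')
  · exact Submodule.zero_mem _

theorem RD_single (l : Fin 2) (n : ℕ) (t : Slot) (x : Pr k) (t' : Slot) :
    RD k l n (Pi.single t x) t' = if Pres' n t' then mulP l t.1 t'.1 x (entP k n t t') else 0 := by
  unfold RD
  split
  · rw [Finset.sum_eq_single t]
    · rw [Pi.single_eq_same]
    · intro t₁ _ h
      rw [Pi.single_eq_of_ne h, mulP_zero_left]
    · simp
  · rfl

/-- Rows of layer `1` are cones of identity maps. -/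
theorem exact_lay_one {m : ℕ} {o : Ob} (ho : o.lay = 1) {N : ℕ} {f : Slot → Pr k}
    (hf : InRow m o N f) (hc : ∀ n, N = n + 1 → RD k o.lay n f = 0) :
    ∃ g, InRow m o (N + 1) g ∧ RD k o.lay N g = f := by
  let g : Slot → Pr k := fun t => if t.1 = 1 then f (0, t.2) else 0
  refine ⟨g, fun t => ?_, funext fun t' => ?_⟩
  · obtain ⟨r, q⟩ := t
    fin_cases r
    · exact ⟨Submodule.zero_mem _, fun _ => rfl⟩
    · refine ⟨?_, fun h => (hf (0, q)).2 fun h' => h ?_⟩
      · show f (0, q) ∈ Hm k o (qob m (1, q))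
        have h := (mem_Hm_E (by simp [ho])).1 (hf (0, q)).1
        exact (mem_Hm_E (by simp [ho])).2 h
      · simp [Pres'] at h' ⊢
        omega
  · obtain ⟨r, p⟩ := t'
    unfold RD
    by_cases hp : Pres' N (r, p)
    swap
    · rw [if_neg hp, (hf _).2 hp]
    rw [if_pos hp, Fintype.sum_prod_type, Fin.sum_univ_two,
      Finset.sum_eq_zero (fun q _ => show mulP _ _ _ (g (0, q)) _ = 0 from mulP_zero_left _ _ _ _),
      zero_add]
    simp only [g, if_pos, ho]
    fin_cases r
    · rw [Finset.sum_eq_single p]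
      · simp [mulP, entP]
      · intro q _ h
        simp [mulP, entP, h]
      · simp
    · obtain ⟨n, rfl⟩ : ∃ n, N = n + 1 := ⟨N - 1, by simp [Pres'] at hp; omega⟩
      have hp' : Pres' n (0, p) := by simp [Pres'] at hp ⊢; omega
      have h0 := congrFun (hc n rfl) (0, p)
      simp only [RD, if_pos hp', Pi.zero_apply, Fintype.sum_prod_type, Fin.sum_univ_two, ho] at h0
      rw [Finset.sum_eq_single (f := fun q => mulP (1 : Fin 2) 1 0 (f (1, q)) _) p] at h0
      · have e : ∀ q : Fin 6,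
            mulP (1 : Fin 2) 1 1 (f (0, q)) (entP k (n + 1) ((1 : Fin 2), q) ((1 : Fin 2), p))
              = -mulP (1 : Fin 2) 0 0 (f (0, q))
                  (entP k n ((0 : Fin 2), q) ((0 : Fin 2), p)) := fun q => by
          by_cases hq : Pres' (n + 1) (0, q)
          · have hD : Dq k (n + 1) q p = Dq k n q p :=
              Dq_succ (fun e => by subst e; simp [Pres', lev] at hq; omega) p
            simp [mulP, entP, hD]
            abel
          · simp [(hf _).2 hq, mulP_zero_left]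
        simp only [Fin.mk_one, e, Finset.sum_neg_distrib]
        rw [eq_neg_of_add_eq_zero_left h0, neg_neg]
        simp [mulP, entP]
      · intro q _ h
        simp [mulP, entP, h]
      · simp

theorem Dq_tri {n : ℕ} {q p : Fin 6} (h : q ≤ p) : Dq k n q p = 0 := by
  fin_cases q <;> fin_cases p <;> simp [Dq] at h ⊢

theorem Lq_tri {q p : Fin 6} (h : q < p) : Lq k q p = 0 := by
  fin_cases q <;> fin_cases p <;> simp [Lq] at h ⊢

theorem Lq_self (q : Fin 6) : Lq k q q = (1, -1) := by fin_cases q <;> simp [Lq]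

theorem lev_mono {q p : Fin 6} (h : q ≤ p) : lev q ≤ lev p := by
  fin_cases q <;> fin_cases p <;> simp [lev] at h ⊢

theorem entP_up {n : ℕ} {r r' : Fin 2} {q p : Fin 6} (h : q < p) :
    entP k n (r, q) (r', p) = 0 := by
  unfold entP
  simp [Dq_tri h.le, Lq_tri h, h.ne]

/-- The invariant of the elimination: nothing remains of the first copy at the top. -/
def TopZero (N : ℕ) (f : Slot → Pr k) : Prop := ∀ q, lev q = N → (f (0, q)).1 = 0

theorem eliminate {m : ℕ} {o : Ob} (ho : o.lay = 0) (hoa : o.a ≤ 1) (N : ℕ) (j : ℕ) :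
    ∀ f : Slot → Pr k, InRow m o N f → (∀ n, N = n + 1 → RD k o.lay n f = 0) → TopZero N f →
      (∀ t : Slot, j ≤ t.2.val → f t = 0) →
      ∃ g, InRow m o (N + 1) g ∧ RD k o.lay N g = f := by
  induction j with
  | zero =>
    intro f _ _ _ hz
    refine ⟨0, fun t => ⟨Submodule.zero_mem _, fun _ => rfl⟩, funext fun t => ?_⟩
    rw [hz t (Nat.zero_le _)]
    simp [RD, mulP_zero_left]
  | succ j ih =>
    intro f hf hc htop hz
    by_cases hj : 6 ≤ j
    · exact ih f hf hc htop fun t ht => absurd (t.2.isLt) (by omega)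
    obtain ⟨p, rfl⟩ : ∃ p : Fin 6, p.val = j := ⟨⟨j, by omega⟩, rfl⟩
    have hmL := (mem_Hm_L (u := o) (v := qob m (1, p)) ⟨ho, rfl⟩).1 (hf (1, p)).1
    have hmE := (mem_Hm_E (u := o) (v := qob m (0, p)) (by simp [qob])).1 (hf (0, p)).1
    -- the equation in the slot `(0, p)`: the two halves of `(1, p)` cancel
    have hsum : (f (1, p)).1 + (f (1, p)).2 = 0 := by
      by_cases hp : Pres' N (1, p)
      swap
      · simp [(hf _).2 hp]
      obtain ⟨n, rfl⟩ : ∃ n, N = n + 1 := ⟨N - 1, by simp [Pres'] at hp; omega⟩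
      have hp' : Pres' n (0, p) := by simp [Pres'] at hp ⊢; omega
      have h0 := congrFun (hc n rfl) (0, p)
      rw [RD, if_pos hp', Finset.sum_eq_single (1, p)] at h0
      · simpa [mulP, entP, ho] using congrArg Prod.snd h0
      · rintro ⟨r, q⟩ _ hne
        rcases le_or_gt q p with hq | hq
        · rcases hq.lt_or_eq with hq | rfl
          · rw [entP_up hq, mulP_zero_right]
          · fin_cases r
            · simp [mulP, entP, Dq_tri le_rfl]
            · simp at hne
        · rw [hz (r, q) hq, mulP_zero_left]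
      · simp
    -- the equation in the slot `(1, p)`: no undeformed part in `(0, p)`
    have hlam : (f (0, p)).1 = 0 := by
      by_cases hp : Pres' N (0, p)
      swap
      · simp [(hf _).2 hp]
      by_cases hN : lev p = N
      · exact htop p hN
      obtain ⟨n, rfl⟩ : ∃ n, N = n + 1 := ⟨N - 1, by simp [Pres'] at hp; omega⟩
      have hp' : Pres' n (1, p) := by simp [Pres'] at hp ⊢; omega
      have h0 := congrFun (hc n rfl) (1, p)
      rw [RD, if_pos hp', Finset.sum_eq_single (0, p)] at h0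
      · simpa [mulP, entP, Lq_self, ho] using congrArg Prod.fst h0
      · rintro ⟨r, q⟩ _ hne
        rcases le_or_gt q p with hq | hq
        · rcases hq.lt_or_eq with hq | rfl
          · rw [entP_up hq, mulP_zero_right]
          · fin_cases r
            · simp at hne
            · simp [mulP, entP, Dq_tri le_rfl]
        · rw [hz (r, q) hq, mulP_zero_left]
      · simp
    -- the two corrections
    set δ := (qob m (1, p)).a - o.a
    set β := (qob m (1, p)).b - o.b
    have hb : (f (1, p)).1 ∈ Sp0 k δ β :=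
      ⟨hmL.1, by rw [eq_neg_of_add_eq_zero_left hsum]; exact Submodule.neg_mem _ hmL.2⟩
    have hδ : -1 ≤ δ := by
      have : 0 ≤ qa p := by fin_cases p <;> simp [qa]
      simp only [δ, qob]; omega
    obtain ⟨P1, hP1, P2, hP2, hP⟩ := Submodule.mem_sup.1 (Sp_le_sup (β := β) hδ hmE.2)
    let x : Pr k := ((f (1, p)).1, 0)
    let y : Pr k := if Pres' N (0, p) then (P1, P2) else 0
    have hy : y.1 + y.2 = (f (0, p)).2 := by
      simp only [y]
      split
      · exact hP
      · next h => simp [(hf _).2 h]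
    have hg : InRow m o (N + 1) ((Pi.single ((0 : Fin 2), p) x : Slot → Pr k) +
        Pi.single ((1 : Fin 2), p) y) := by
      refine (InRow.single ?_ fun h => ?_).add (InRow.single ?_ fun h => ?_)
      · exact (mem_Hm_E (by simp [qob])).2 ⟨hb, Submodule.zero_mem _⟩
      · have := (hf (1, p)).2 fun h' => h (by simp [Pres'] at h' ⊢; omega)
        simp [x, this]
      · simp only [y]
        split
        · exact (mem_Hm_L ⟨ho, rfl⟩).2 ⟨hP1, hP2⟩
        · exact Submodule.zero_mem _
      · simp only [y]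
        rw [if_neg fun h' => h (by simp [Pres'] at h' ⊢; omega)]
    set g := (Pi.single ((0 : Fin 2), p) x : Slot → Pr k) + Pi.single ((1 : Fin 2), p) y
      with hgdef
    have hval : ∀ t, RD k o.lay N g t = if Pres' N t then
        mulP 0 0 t.1 x (entP k N (0, p) t) + mulP 0 1 t.1 y (entP k N (1, p) t)
          else 0 := fun t => by
      rw [hgdef, RD_add, Pi.add_apply, RD_single, RD_single, ho]
      split <;> simp
    obtain ⟨g', hg', hg''⟩ := ih (f - RD k o.lay N g) (hf.sub hg.RD)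
      (fun n hn => by
        subst hn
        rw [RD_sub, hc n rfl, RD_RD o.lay n (fun t ht => (hg t).2 ht), sub_self])
      (fun q hq => by
        rw [Pi.sub_apply, Prod.fst_sub, htop q hq, zero_sub, neg_eq_zero, hval]
        split
        swap
        · rfl
        rw [Prod.fst_add]
        have h2 : (mulP 0 1 0 y (entP k N ((1 : Fin 2), p) ((0 : Fin 2), q))).1 = 0 := by
          simp [mulP]
        rw [h2, add_zero]
        rcases lt_or_ge q p with hqp | hqp
        · have hp : ¬ Pres' N (1, p) := fun h => by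
            have := lev_mono hqp.le
            simp [Pres'] at h
            omega
          simp [x, (hf _).2 hp, mulP]
        · simp [mulP, entP, Dq_tri hqp])
      (fun t ht => by
        obtain ⟨r, q⟩ := t
        rw [Pi.sub_apply, hval]
        rcases Nat.lt_or_eq_of_le ht with hlt | heq
        · rw [hz _ hlt, entP_up hlt, entP_up hlt]
          simp [mulP_zero_right]
        obtain rfl : q = p := Fin.ext heq.symm
        by_cases hp : Pres' N (r, q)
        swap
        · rw [if_neg hp, (hf _).2 hp, sub_zero]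
        rw [if_pos hp]
        fin_cases r
        · refine Prod.ext ?_ ?_
          · simp [mulP, entP, Dq_tri le_rfl, hlam]
          · simp [mulP, entP, Dq_tri le_rfl, hy]
        · refine Prod.ext ?_ ?_
          · simp [x, mulP, entP, Lq_self, Dq_tri le_rfl]
          · simp [x, mulP, entP, Lq_self, Dq_tri le_rfl, eq_neg_of_add_eq_zero_right hsum])
    exact ⟨g + g', hg.add hg', by rw [RD_add, hg'', add_sub_cancel]⟩

/-- Elimination of the undeformed part of the top of the first copy. -/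
theorem exists_topZero [CharZero k] {m : ℕ} {o : Ob} (ho : o.lay = 0) (hoa : o.a ≤ 1) (N : ℕ)
    {f : Slot → Pr k} (hf : InRow m o N f) (hc : ∀ n, N = n + 1 → RD k o.lay n f = 0)
    (h0 : N = 0 → ∀ γ, ev γ (cf (f (0, 0)).1 γ) = 0) :
    ∃ g, InRow m o (N + 1) g ∧ TopZero N (f - RD k o.lay N g) := by
  have hmem : ∀ q, (f (0, q)).1 ∈ Sp0 k (m + qa q - o.a) (qb q - o.b) := fun q =>
    ((mem_Hm_E (u := o) (v := qob m (0, q)) (by simp [qob])).1 (hf (0, q)).1).1
  have hsingle : ∀ {q : Fin 6} {w : W k}, lev q = N + 1 →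
      w ∈ Sp0 k (m + qa q - o.a) (qb q - o.b) →
      InRow m o (N + 1) (Pi.single (((0 : Fin 2), q) : Slot) (w, (0 : W k))) := fun {q w} hq hw =>
    InRow.single ((mem_Hm_E (by simp [qob])).2 ⟨hw, Submodule.zero_mem _⟩)
      fun h => absurd ⟨by simp [hq], by simp [hq]⟩ h
  rcases N with _ | _ | _ | N
  · obtain ⟨a, b, ha, hb, hab⟩ := exists_dd (hmem 0) (h0 rfl)
    have h1 := hsingle (q := 1) (w := a) rfl (by convert ha using 2 <;> simp [qa, qb] <;> ring)
    have h2 := hsingle (q := 2) (w := b) rfl (by convert hb using 2 <;> simp [qa, qb] <;> ring)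
    refine ⟨_, h1.add h2, fun q hq => ?_⟩
    fin_cases q <;> simp [lev] at hq
    simp [RD_add, RD_single, Pres', lev, ho, mulP, entP, Dq, ← hab]
  · have hp : Pres' 0 ((0 : Fin 2), (0 : Fin 6)) := ⟨le_rfl, rfl⟩
    have he := congrArg Prod.fst (congrFun (hc 0 rfl) (0, 0))
    have hz : ∀ r, (f (r, 5)) = 0 := fun r => (hf _).2 fun h => by simp [Pres', lev] at h; omega
    rw [RD, if_pos hp] at he
    simp [Fintype.sum_prod_type, Fin.sum_univ_six, ho, mulP, entP, Dq, Lq, hz] at he
    have ha : (f (0, 1)).1 ∈ Sp0 k ((m : ℤ) + 1 - o.a) (1 - o.b) := by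
      simpa [qa, qb] using hmem 1
    obtain ⟨c, hc', hc1, hc2⟩ := exists_dd_mid ha he
    obtain ⟨a, b, ha', hb', hab⟩ := exists_xx (by omega) hc'
    have h1 := hsingle (q := 3) (w := a) rfl (by convert ha' using 2 <;> simp [qa, qb] <;> ring)
    have h2 := hsingle (q := 4) (w := b) rfl (by convert hb' using 2 <;> simp [qa, qb] <;> ring)
    refine ⟨_, h1.add h2, fun q hq => ?_⟩
    fin_cases q <;> simp [lev] at hq
    · simp [RD_add, RD_single, Pres', lev, ho, mulP, entP, Dq, ← hc1, ← hab, add_mul, mul_assoc]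
    · simp [RD_add, RD_single, Pres', lev, ho, mulP, entP, Dq, ← hc2, ← hab, add_mul, mul_assoc]
      abel
  · have hp : Pres' 1 ((0 : Fin 2), (1 : Fin 6)) := ⟨le_rfl, rfl⟩
    have he := congrArg Prod.fst (congrFun (hc 1 rfl) (0, 1))
    rw [RD, if_pos hp] at he
    simp [Fintype.sum_prod_type, Fin.sum_univ_six, ho, mulP, entP, Dq, Lq, ← mul_assoc,
      ← add_mul] at he
    have ha : (f (0, 3)).1 ∈ Sp0 k ((m : ℤ) + 1 - o.a) (-o.b) := by
      simpa [qa, qb] using hmem 3
    have hb : (f (0, 4)).1 ∈ Sp0 k ((m : ℤ) + 1 - o.a) (-o.b) := by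
      simpa [qa, qb] using hmem 4
    obtain ⟨c, hc', hc1, hc2⟩ := exists_xx_mid ha hb (mul_dd_eq_zero he)
    have h1 := hsingle (q := 5) (w := c) rfl (by convert hc' using 2 <;> simp [qa, qb] <;> ring)
    refine ⟨_, h1, fun q hq => ?_⟩
    fin_cases q <;> simp [lev] at hq
    · simp [RD_single, Pres', lev, ho, mulP, entP, Dq, hc1]
    · simp [RD_single, Pres', lev, ho, mulP, entP, Dq, ← hc2]
  · refine ⟨0, fun t => ⟨Submodule.zero_mem _, fun _ => rfl⟩, fun q hq => ?_⟩
    rcases N with _ | N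
    · fin_cases q <;> simp [lev] at hq
      have hp : Pres' 2 ((0 : Fin 2), (3 : Fin 6)) := ⟨le_rfl, rfl⟩
      have he := congrArg Prod.fst (congrFun (hc 2 rfl) (0, 3))
      rw [RD, if_pos hp] at he
      simp [Fintype.sum_prod_type, Fin.sum_univ_six, ho, mulP, entP, Dq, Lq] at he
      simp [RD, mulP_zero_left, mul_xx_eq_zero he]
    · fin_cases q <;> simp [lev] at hq

/-- Exactness of a row of layer `0`. -/
theorem exact_lay_zero [CharZero k] {m : ℕ} {o : Ob} (ho : o.lay = 0) (hoa : o.a ≤ 1) {N : ℕ}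
    {f : Slot → Pr k} (hf : InRow m o N f) (hc : ∀ n, N = n + 1 → RD k o.lay n f = 0)
    (h0 : N = 0 → ∀ γ, ev γ (cf (f (0, 0)).1 γ) = 0) :
    ∃ g, InRow m o (N + 1) g ∧ RD k o.lay N g = f := by
  obtain ⟨g, hg, hT⟩ := exists_topZero ho hoa N hf hc h0
  obtain ⟨g', hg', hg''⟩ := eliminate ho hoa N 6 (f - RD k o.lay N g) (hf.sub hg.RD)
    (fun n hn => by
      subst hn
      rw [RD_sub, hc n rfl, RD_RD o.lay n (fun t ht => (hg t).2 ht), sub_self])
    hT (fun t ht => absurd t.2.isLt (by omega))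
  exact ⟨g + g', hg.add hg', by rw [RD_add, hg'', add_sub_cancel]⟩

end

end Vale.Agent.P195D.Res
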