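import Vale.Agent.P195D.Maps
import Vale.Agent.P195D.ResRows

/-!
From the rows to the complex of columns.
-/

namespace Vale.Agent.P195D.Res

set_option linter.unusedSimpArgs false

open MvPolynomial

noncomputable section

variable {k : Type} [Field k]

/-- The row of an element of the complex at a vertex. -/
def toRow {m n : ℕ} (x : Cpx k m n) (u : Ix) : Slot → Pr k :=
  fun t => if h : Pres' n t then (x ⟨t, h⟩ u).1 else 0

theorem toRow_inRow {m n : ℕ} (x : Cpx k m n) (u : Ix) : InRow m (ob u) n (toRow x u) := fun t => by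
  unfold toRow
  split
  · next h => exact ⟨(x ⟨t, h⟩ u).2, fun h' => absurd h h'⟩
  · exact ⟨Submodule.zero_mem _, fun _ => rfl⟩

@[simp] theorem toRow_zero (m n : ℕ) (u : Ix) : toRow (0 : Cpx k m n) u = 0 := funext fun t => by
  simp [toRow]

theorem toRow_ext {m n : ℕ} {x y : Cpx k m n} (h : ∀ u, toRow x u = toRow y u) : x = y := by
  funext t
  refine Col.ext fun u => Subtype.ext ?_
  simpa [toRow, t.2] using congrFun (h u) t.1

theorem toRow_d {m n : ℕ} (x : Cpx k m (n + 1)) (u : Ix) :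
    toRow (d m n x) u = RD k (ob u).lay n (toRow x u) := funext fun t' => by
  by_cases h' : Pres' n t'
  swap
  · simp [toRow, RD, h']
  rw [RD, if_pos h', toRow, dif_pos h', d_apply, Shift.col_sum_apply, Submodule.coe_sum]
  have e : ∑ t, mulP (ob u).lay t.1 t'.1 (toRow x u t) (entP k n t t')
      = ∑ t : T (n + 1), mulP (ob u).lay t.1.1 t'.1 (toRow x u t.1) (entP k n t.1 t') := by
    rw [← Finset.sum_subtype (Finset.univ.filter (Pres' (n + 1))) (by simp)
      (fun t => mulP (ob u).lay t.1 t'.1 (toRow x u t) (entP k n t t')), Finset.sum_filter]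
    refine Finset.sum_congr rfl fun t _ => ?_
    split
    · rfl
    · next h => simp [toRow, h, mulP_zero_left]
  rw [e]
  refine Finset.sum_congr rfl fun t _ => ?_
  rw [Col.rmul_apply, comp_val, ent_val, toRow, dif_pos t.2]
  rfl

theorem d_d (m n : ℕ) (x : Cpx k m (n + 2)) : d m n (d m (n + 1) x) = 0 :=
  toRow_ext fun u => by
    rw [toRow_d, toRow_d, toRow_zero, RD_RD]
    exact fun t h => (toRow_inRow x u t).2 h

/-- A family of rows gives an element of the complex. -/
def ofRows {m n : ℕ} (g : Ix → Slot → Pr k) (hg : ∀ u, InRow m (ob u) n (g u)) : Cpx k m n :=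
  fun t u => ⟨g u t.1, (hg u t.1).1⟩

theorem toRow_ofRows {m n : ℕ} (g : Ix → Slot → Pr k) (hg : ∀ u, InRow m (ob u) n (g u)) (u : Ix) :
    toRow (ofRows g hg) u = g u := funext fun t => by
  unfold toRow
  split
  · rfl
  · next h => exact ((hg u t).2 h).symm

theorem exists_preimage [CharZero k] {m N : ℕ} (y : Cpx k m N)
    (hc : ∀ u n, N = n + 1 → RD k (ob u).lay n (toRow y u) = 0)
    (h0 : N = 0 → ∀ u, (ob u).lay = 0 → ∀ γ, ev γ (cf (toRow y u (0, 0)).1 γ) = 0) :
    ∃ x, d m N x = y := by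
  have H : ∀ u, ∃ g, InRow m (ob u) (N + 1) g ∧ RD k (ob u).lay N g = toRow y u := fun u => by
    by_cases hl : (ob u).lay = 0
    · refine exact_lay_zero hl ?_ (toRow_inRow y u) (hc u) (fun e => h0 e u hl)
      have := u.2.1.isLt
      simp
      omega
    · exact exact_lay_one (by omega) (toRow_inRow y u) (hc u)
  choose g hg hgy using H
  exact ⟨ofRows g hg, toRow_ext fun u => by rw [toRow_d, toRow_ofRows, hgy]⟩

theorem act_single_apply (w : W k) (γ : Gam) :
    act w (Finsupp.single 0 1) γ = ev γ (cf w γ) := by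
  classical
  induction w using W_induction with
  | hmon η f =>
    rw [act_mon_single, cf_mon, zero_add, mul_one, Finsupp.single_apply]
    split
    · next h => subst h; rfl
    · simp
  | hadd u v hu hv => simp [hu, hv]

theorem qaug_val (m : ℕ) (x : Cpx k m 0) (u : Ix) :
    (qaug k m x u).1 = if (ob u).lay = 0 then
      act (toRow x u (0, 0)).1 (Finsupp.single 0 1) else 0 := by
  show (actHom 0 .reg _ (ob u) _ (x t0 u) (topVal k m)).1 = _
  rw [actHom_val, opOf]
  have e : (qob m t0.1).lay = 0 := rfl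
  simp only [e, and_true]
  split
  · have h : Pres' 0 ((0 : Fin 2), (0 : Fin 6)) := ⟨le_rfl, rfl⟩
    rw [toRow, dif_pos h]
    rfl
  · simp

theorem qaug_eq_zero_iff (m : ℕ) (x : Cpx k m 0) :
    qaug k m x = 0 ↔
      ∀ u, (ob u).lay = 0 → ∀ γ, ev γ (cf (toRow x u (0, 0)).1 γ) = 0 := by
  constructor
  · intro h u hu γ
    have h1 : (qaug k m x u).1 = 0 := by rw [h]; simp
    rw [qaug_val, if_pos hu] at h1
    rw [← act_single_apply, h1, Finsupp.zero_apply]
  · intro h
    refine LMod.ext fun u => Subtype.ext (Finsupp.ext fun γ => ?_)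
    rw [qaug_val]
    split
    · next hu => rw [act_single_apply, h u hu γ]; simp
    · simp

theorem qaug_d (m : ℕ) (x : Cpx k m 1) : qaug k m (d m 0 x) = 0 := by
  rw [qaug_eq_zero_iff]
  intro u hu γ
  have h : Pres' 0 ((0 : Fin 2), (0 : Fin 6)) := ⟨le_rfl, rfl⟩
  have hz : toRow x u ((0 : Fin 2), (5 : Fin 6)) = 0 :=
    (toRow_inRow x u _).2 fun h => by simp [Pres', lev] at h
  rw [toRow_d, RD, if_pos h, hu]
  simp [Fintype.sum_prod_type, Fin.sum_univ_six, mulP, entP, Dq, Lq, hz, cf_mul_dd]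

/-- A polynomial is the value at `1` of an operator with constant coefficients. -/
theorem exists_value [CharZero k] {m : ℕ} (u : Ix) (hu : (ob u).lay = 0)
    (y : ↥(sps k 0 .reg (m : ℤ) (ob u))) :
    ∃ w ∈ Sp0 k ((qob m t0.1).a - (ob u).a) ((qob m t0.1).b - (ob u).b),
      act w (Finsupp.single 0 1) = y.1 := by
  classical
  have hy := y.2
  simp only [sps, if_pos hu, MS, Finsupp.mem_supported] at hy
  refine ⟨∑ p ∈ y.1.support, mon p (MvPolynomial.C (y.1 p)),
    Submodule.sum_mem _ fun p hp => mon_mem_Sp0 (Or.inr ⟨?_, ?_, fun q i hq hi => ?_⟩), ?_⟩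
  · obtain ⟨-, h2⟩ := hy hp
    simp [qob, t0, qa] at h2 ⊢
    omega
  · have := u.2.2.isLt
    rw [totalDegree_C]
    simp [qob, t0, qb]
    omega
  · obtain ⟨h1, -⟩ := hy hp
    simp only [Dom.Mem] at h1
    fin_cases i <;> simp [crd] at hq hi <;> omega
  · conv_rhs => rw [← Finsupp.sum_single y.1, Finsupp.sum]
    rw [map_sum, LinearMap.sum_apply]
    refine Finset.sum_congr rfl fun p _ => ?_
    rw [act_mon_single, zero_add, mul_one]
    simp [ev]

theorem qaug_surj [CharZero k] (m : ℕ) : Function.Surjective (qaug k m) := fun y => by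
  classical
  have H : ∀ u, ∃ z : Hom' k (ob u) (qob m t0.1),
      (ob u).lay = 0 → act z.1.1 (Finsupp.single 0 1) = (y u).1 := fun u => by
    by_cases hu : (ob u).lay = 0
    · obtain ⟨w, hw, hwy⟩ := exists_value u hu (y u)
      exact ⟨⟨(w, 0), (mem_Hm_E (by simp [qob, t0])).2 ⟨hw, Submodule.zero_mem _⟩⟩, fun _ => hwy⟩
    · exact ⟨0, fun h => absurd h hu⟩
  choose z hz using H
  let x : Cpx k m 0 := fun t u => ⟨(z u).1, by rw [T_zero_eq t]; exact (z u).2⟩
  refine ⟨x, LMod.ext fun u => Subtype.ext ?_⟩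
  rw [qaug_val m x u]
  split
  · next hu =>
    rw [toRow, dif_pos ⟨le_rfl, rfl⟩]
    exact hz u hu
  · next hu =>
    have hy := (y u).2
    simp only [sps, if_neg hu, Submodule.mem_bot] at hy
    rw [hy]

end

end Vale.Agent.P195D.Res
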