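import Vale.Agent.P195D.Maps
import Vale.Agent.P195D.Interface
import Vale.Agent.P195D.ResBridge

/-!
The periodic complex of columns is exact onto U m.
-/

namespace Vale.Agent.P195D

open MulOpposite

noncomputable section

variable {k : Type} [Field k]

theorem qaug_surjective [CharZero k] (m : ℕ) : Function.Surjective (qaug k m) :=
  Res.qaug_surj m

theorem qd_exact_zero [CharZero k] (m : ℕ) : Function.Exact (qd k m 0) (qaug k m) := fun y => by
  constructor
  · intro hy
    exact Res.exists_preimage y (fun u n h => by omega)
      fun _ u hu => (Res.qaug_eq_zero_iff m y).1 hy u hu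
  · rintro ⟨x, rfl⟩
    exact Res.qaug_d m x

theorem qd_exact_succ [CharZero k] (m i : ℕ) : Function.Exact (qd k m (i + 1)) (qd k m i) :=
  fun y => by
  constructor
  · intro hy
    refine Res.exists_preimage y (fun u n h => ?_) fun h => by omega
    obtain rfl : i = n := by omega
    rw [← Res.toRow_d]
    exact (congrArg (fun x => Res.toRow x u) hy).trans (Res.toRow_zero m i u)
  · rintro ⟨x, rfl⟩
    exact Res.d_d m i x

end

end Vale.Agent.P195D
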