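import Vale.Agent.P195D.Maps

/-!
The distinguished cocycle is a cocycle.
-/

namespace Vale.Agent.P195D

set_option linter.unusedSimpArgs false

noncomputable section

variable {k : Type} [Field k]

theorem neg_mon (γ : Gam) (f : Pl k) : -mon γ f = mon γ (-f) := by
  refine neg_eq_of_add_eq_zero_right ?_
  rw [← mon_add, add_neg_cancel, mon_zero]

theorem negm (γ δ : Gam) (f g : Pl k) : -mon γ f * mon δ g = mon (γ + δ) (-f * tau γ g) := by
  rw [neg_mon, mon_mul_mon]

theorem mneg (γ δ : Gam) (f g : Pl k) : mon γ f * -mon δ g = mon (γ + δ) (f * tau γ (-g)) := by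
  rw [neg_mon, mon_mul_mon]

/-- The components of the differential followed by those of the cocycle cancel. -/
theorem sum_mulP_ent_vP (t : Res.T 3) :
    ∑ t' : Res.T 2, mulP t.1.1 t'.1.1 1 (Res.entP k 2 t.1 t'.1) (vP k t'.1) = 0 := by
  let a : Res.T 2 := ⟨(0, 3), by decide⟩
  let b : Res.T 2 := ⟨(0, 4), by decide⟩
  rw [Finset.sum_eq_add_of_mem a b (Finset.mem_univ _) (Finset.mem_univ _) (by decide)]
  · obtain ⟨⟨r, q⟩, h⟩ := t
    revert h
    fin_cases r <;> fin_cases q <;> intro h <;>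
      first
      | exact absurd h (by decide)
      | (simp [a, b, mulP, Res.entP, Res.Dq, vP, Res.xx, Res.ee, xW, unitG, negm, mneg, mon_mul_mon,
          neg_mon, ← mon_add, add_comm])
  · intro c _ hc
    have hv : vP k c.1 = 0 := by
      obtain ⟨⟨r, q⟩, h⟩ := c
      obtain ⟨h1, h2⟩ := hc
      rw [Ne, Subtype.ext_iff] at h1 h2
      revert h1 h2
      fin_cases r <;> fin_cases q <;> intro h1 h2 <;>
        first
        | rfl
        | exact absurd rfl h1
        | exact absurd rfl h2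
    rw [hv]
    simp [mulP]

/-- The component of the cocycle. -/
theorem vQ_apply (y : QT k 0 2) :
    vQ k y = (Pi.single hIx (∑ t : Res.T 2,
      Col.rmul (⟨vP k t.1, vP_mem t.1⟩ : Hom' k (Res.qob 0 t.1) ((ob hIx).sh 1)) (y t)) :
        ∀ v : Ix, Col k ((ob v).sh 1)) := by
  show LinearMap.single (Alg k) (fun v : Ix => Col k ((ob v).sh 1)) hIx
    ((∑ t : Res.T 2, (Col.rmul (⟨vP k t.1, vP_mem t.1⟩ :
      Hom' k (Res.qob 0 t.1) ((ob hIx).sh 1))).comp (LinearMap.proj t)) y) = _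
  rw [LinearMap.sum_apply]
  rfl

/-- The distinguished map is a cocycle. -/
theorem vQ_cocycle [CharZero k] : vQ k ∘ₗ qd k 0 2 = 0 := by
  refine LinearMap.ext fun x => ?_
  rw [LinearMap.comp_apply, LinearMap.zero_apply, vQ_apply]
  suffices h : (∑ t' : Res.T 2, Col.rmul (⟨vP k t'.1, vP_mem t'.1⟩ :
      Hom' k (Res.qob 0 t'.1) ((ob hIx).sh 1)) (qd k 0 2 x t')) = 0 by
    rw [h]
    exact Pi.single_zero hIx
  simp only [Res.d_apply, map_sum, Col.rmul_comp]
  rw [Finset.sum_comm]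
  refine Finset.sum_eq_zero fun t _ => Col.ext fun u => ?_
  rw [Shift.col_sum_apply]
  simp only [Col.rmul_apply, ← map_sum]
  have key : ∑ t' : Res.T 2,
      comp (Res.qob 0 t.1) (Res.qob 0 t'.1) ((ob hIx).sh 1) (Res.ent (k := k) 0 2 t.1 t'.1)
        ⟨vP k t'.1, vP_mem t'.1⟩ = 0 := Subtype.ext (by
    rw [AddSubmonoidClass.coe_finsetSum]
    exact sum_mulP_ent_vP t)
  rw [key, map_zero]
  rfl

end

end Vale.Agent.P195D
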