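import Vale.Agent.P195D.Homology
import Vale.Agent.P195D.ResFacts
import Vale.Agent.P195D.ColFacts
import Vale.Agent.P195D.VCocycle
import Vale.Agent.P195D.HomCore

/-!
From cochains to maps out of the periodic complex and to `Ext`.
-/

namespace Vale.Agent.P195D.HomExt

open CategoryTheory Abelian MulOpposite Res HomCore Koszul

noncomputable section

variable {k : Type} [Field k]

/-- A module whose identity is a sum of maps through modules with vanishing `Ext` has vanishing
`Ext` from `M`. -/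
theorem ez_into_sum {B : Type} [Ring B] {ι : Type} [Fintype ι] {A : ι → Type}
    [∀ a, AddCommGroup (A a)] [∀ a, Module B (A a)] {M X : Type} [AddCommGroup M] [Module B M]
    [AddCommGroup X] [Module B X] (π : ∀ a, X →ₗ[B] A a) (e : ∀ a, A a →ₗ[B] X)
    (h : ∀ x, ∑ a, e a (π a x) = x) {j : ℕ} (hA : ∀ a, EZ B M (A a) j) : EZ B M X j := by
  refine subsingleton_of_forall_eq 0 fun x => ?_
  have hid : (𝟙 (ModuleCat.of B X) : _ ⟶ _) =
      ∑ a, ModuleCat.ofHom (π a) ≫ ModuleCat.ofHom (e a) := by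
    ext m
    simp [h]
  rw [← Ext.comp_mk₀_id x, hid, Ext.mk₀_sum, Ext.comp_sum]
  refine Finset.sum_eq_zero fun a _ => ?_
  rw [← Ext.mk₀_comp_mk₀, ← Ext.comp_assoc_of_second_deg_zero,
    (hA a).elim (x.comp (Ext.mk₀ (ModuleCat.ofHom (π a))) (add_zero j)) 0, Ext.zero_comp]

variable {m n : ℕ} {d : Ob}

/-- The map out of a term of the complex given by a cochain. -/
def hom (F : Co k m d n) : QT k m n →ₗ[Alg k] Col k d :=
  ∑ t, (Col.rmul (F t)).comp (LinearMap.proj t)

theorem hom_apply (F : Co k m d n) (x : QT k m n) (u : Ix) :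
    hom F x u = ∑ t, comp (ob u) (qob m t.1) d (x t u) (F t) := by
  rw [hom, LinearMap.sum_apply, Shift.col_sum_apply]
  rfl

theorem qob_bounds (m : ℕ) (t : Slot) :
    0 ≤ (qob m t).a ∧ 0 ≤ (qob m t).b ∧ (qob m t).b ≤ 2 ∧ (qob m t).a ≤ (m : ℤ) + 1 := by
  obtain ⟨r, q⟩ := t
  fin_cases q <;> simp [qob, qa, qb] <;> omega

theorem rmul_bij (hd : (m : ℤ) ≤ d.a) (t : Slot) :
    Function.Bijective (Col.rmul (k := k) (c := qob m t) (d := d)) := by
  obtain ⟨h1, h2, h3, h4⟩ := qob_bounds m t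
  exact rmul_bijective _ _ h1 h2 h3 (by omega)

theorem hom_single (F : Co k m d n) (t : T n) :
    (hom F).comp (LinearMap.single (Alg k) (fun t : T n => Col k (qob m t.1)) t) =
      Col.rmul (F t) := by
  classical
  refine LinearMap.ext fun y => ?_
  rw [LinearMap.comp_apply, hom, LinearMap.sum_apply, Finset.sum_eq_single t]
  · simp
  · intro t' _ h
    simp [Pi.single_eq_of_ne h]
  · simp

theorem hom_surj (hd : (m : ℤ) ≤ d.a) (f : QT k m n →ₗ[Alg k] Col k d) :
    ∃ F : Co k m d n, hom F = f := by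
  classical
  have h := fun t : T n => (rmul_bij (k := k) hd t.1).2
    (f.comp (LinearMap.single (Alg k) (fun t : T n => Col k (qob m t.1)) t))
  choose F hF using h
  exact ⟨F, LinearMap.pi_ext' fun t => by rw [hom_single, hF]⟩

theorem hom_inj (hd : (m : ℤ) ≤ d.a) {F G : Co k m d n} (h : hom F = hom G) : F = G := by
  classical
  funext t
  refine (rmul_bij hd t.1).1 ?_
  rw [← hom_single, ← hom_single, h]

theorem hom_zero : hom (0 : Co k m d n) = 0 :=
  LinearMap.ext fun x => Col.ext fun u => by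
    rw [hom_apply]
    exact Finset.sum_eq_zero fun t _ => map_zero _

theorem hom_qd (F : Co k m d n) : (hom F).comp (qd k m n) = hom (dc k m d n F) := by
  refine LinearMap.ext fun x => Col.ext fun u => ?_
  rw [LinearMap.comp_apply, hom_apply, hom_apply]
  simp only [Res.d_apply, dc_apply, map_sum, Shift.col_sum_apply, LinearMap.sum_apply,
    Col.rmul_apply, comp_assoc]
  exact Finset.sum_comm

theorem dc_dc [CharZero k] (hd : (m : ℤ) ≤ d.a) (g : Co k m d n) :
    dc k m d (n + 1) (dc k m d n g) = 0 := by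
  refine hom_inj hd ?_
  rw [hom_zero, ← hom_qd, ← hom_qd]
  refine LinearMap.ext fun x => ?_
  simp only [LinearMap.comp_apply, (qd_exact_succ m n).apply_apply_eq_zero, map_zero,
    LinearMap.zero_apply]

/-- Exactness of the cochain complex gives vanishing of `Ext`. -/
theorem ez_of_exact [CharZero k] (hd : (m : ℤ) ≤ d.a)
    (h0 : ∀ F : Co k m d 0, dc k m d 0 F = 0 → F = 0) :
    EZ (Alg k) (Um k m) (Col k d) 0 ∧ ∀ i, (∀ F : Co k m d (i + 1), dc k m d (i + 1) F = 0 →
      ∃ g, dc k m d i g = F) → EZ (Alg k) (Um k m) (Col k d) (i + 1) := by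
  have h := ez_iff_of_acyclic (B := Alg k) (fun i => ModuleCat.of (Alg k) (QT k m i))
    (fun i => qd k m i) (qaug k m) (qaug_surjective m) (qd_exact_zero m) (qd_exact_succ m)
    (Col k d) (fun i j hj => ?_)
  · refine ⟨h.1.2 fun f hf => ?_, fun i hi => (h.2 i).2 fun f hf => ?_⟩
    · obtain ⟨F, rfl⟩ := hom_surj hd f
      rw [h0 F (hom_inj hd (by rw [← hom_qd, hom_zero]; exact hf)), hom_zero]
    · obtain ⟨F, rfl⟩ := hom_surj hd f
      obtain ⟨g, rfl⟩ := hi F (hom_inj hd (by rw [← hom_qd, hom_zero]; exact hf))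
      exact ⟨hom g, hom_qd g⟩
  · classical
    exact ez_of_sum (A := fun t : T i => Col k (qob m t.1)) (fun t => LinearMap.proj t)
      (fun t => LinearMap.single (Alg k) (fun t : T i => Col k (qob m t.1)) t)
      (fun x => Finset.univ_sum_single x) fun t => by
        obtain ⟨h1, h2, h3, h4⟩ := qob_bounds m t.1
        exact ez_col _ _ h1 h2 h3 (by omega) j hj

theorem ez_col_lay0 [CharZero k] (hl : d.lay = 0) (hd : (m : ℤ) ≤ d.a) (n : ℕ) :
    EZ (Alg k) (Um k m) (Col k d) n := by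
  have h := ez_of_exact hd fun F hF => inj_lay0 (k := k) hl hF
  cases n with
  | zero => exact h.1
  | succ i => exact h.2 i fun F hF => exact_lay0 hl hd (dc_dc hd) hF

theorem ez_col_lay1 [CharZero k] (hl : d.lay = 1) (hd1 : 1 ≤ d.a) (n : ℕ) (hn : n ≠ 2) :
    EZ (Alg k) (Um k 0) (Col k d) n := by
  have hd : ((0 : ℕ) : ℤ) ≤ d.a := by omega
  have h := ez_of_exact hd fun F hF => inj_lay1 (k := k) hl hF
  match n, hn with
  | 0, _ => exact h.1
  | 1, _ => exact h.2 0 fun F hF => exact_one hl hd (dc_dc hd) hF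
  | 3, _ => exact h.2 2 fun F hF => exact_three hl hd (by omega) (dc_dc hd) hF
  | i + 4, _ => exact h.2 (i + 3) fun F hF => exact_high hd (dc_dc hd) (by omega) hF

/-! ### Components of maps into the shift bimodule -/

/-- A component of the shift bimodule. -/
def projS (w : Ix) : Shift k →ₗ[Alg k] Col k ((ob w).sh 1) where
  toFun y := y w
  map_add' _ _ := rfl
  map_smul' _ _ := rfl

@[simp] theorem projS_apply (w : Ix) (y : Shift k) : projS w y = y w := rfl

theorem ez_shift_n [CharZero k] (n : ℕ) (hn : n ≠ 2) : EZ (Alg k) (Um k 0) (Shift k) n := by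
  classical
  refine ez_into_sum (A := fun w : Ix => Col k ((ob w).sh 1)) projS
    (fun w => LinearMap.single (Alg k) (fun w : Ix => Col k ((ob w).sh 1)) w)
    (fun y => Finset.univ_sum_single (M := fun w : Ix => Col k ((ob w).sh 1)) y) fun w => ?_
  rcases (by omega : w.1 = 0 ∨ w.1 = 1) with h | h
  · exact ez_col_lay0 h (by simp; omega) n
  · exact ez_col_lay1 h (by simp) n hn

theorem sh_bounds (w : Ix) :
    ((0 : ℕ) : ℤ) ≤ ((ob w).sh 1).a ∧ 1 ≤ ((ob w).sh 1).a - (0 : ℕ) ∧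
      ((ob w).sh 1).a - (0 : ℕ) ≤ 2 := by
  have := w.2.1.isLt
  simp
  omega

/-- The cochain of `v ρ` in a component. -/
def vco (w : Ix) (ρ : Alg k) : Co k 0 ((ob w).sh 1) 2 := fun t =>
  comp (qob 0 t.1) ((ob hIx).sh 1) ((ob w).sh 1) ⟨vP k t.1, vP_mem t.1⟩ (shHom 1 (ρ hIx w))

theorem smul_vQ_apply (ρ : Alg k) (x : QT k 0 2) (w : Ix) :
    (op ρ • vQ k x) w = hom (vco w ρ) x := by
  classical
  rw [Shift.op_smul_apply, Finset.sum_eq_single hIx]
  · rw [vQ_apply, Pi.single_eq_same]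
    refine Col.ext fun u => ?_
    rw [hom_apply, map_sum, Shift.col_sum_apply]
    exact Finset.sum_congr rfl fun t _ => comp_assoc _ _ _ _ _ _ _
  · intro v _ hv
    rw [vQ_apply, Pi.single_eq_of_ne hv, map_zero]
  · simp

theorem vco_cocycle [CharZero k] (w : Ix) (ρ : Alg k) :
    dc k 0 ((ob w).sh 1) 2 (vco w ρ) = 0 := by
  refine hom_inj (sh_bounds w).1 ?_
  rw [← hom_qd, hom_zero]
  refine LinearMap.ext fun x => ?_
  rw [LinearMap.comp_apply, ← smul_vQ_apply, LinearMap.zero_apply]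
  have h := LinearMap.congr_fun (vQ_cocycle (k := k)) x
  rw [LinearMap.comp_apply, LinearMap.zero_apply] at h
  rw [h, smul_zero]
  rfl

theorem vco_val (w : Ix) (hw : w.1 = 1) (ρ : Alg k) (t : T 2) :
    (vco w ρ t).1 =
      if t.1 = ((0 : Fin 2), (3 : Fin 6)) then
        (xOp k 0 * (ρ hIx w).1.1, -(xOp k 0 * (ρ hIx w).1.1))
      else if t.1 = ((0 : Fin 2), (4 : Fin 6)) then
        (xOp k 1 * (ρ hIx w).1.1, -(xOp k 1 * (ρ hIx w).1.1)) else 0 := by
  have e : ∀ i : Fin 2, (xW k i : W k) = xOp k i := fun i => by fin_cases i <;> rfl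
  obtain ⟨⟨r, q⟩, ht⟩ := t
  fin_cases r <;> fin_cases q <;> first
    | exact absurd ht (by decide)
    | (rw [vco, comp_val, shHom_val]; simp [vP, mulP, hIx, hw, e, neg_mulW, qob])

/-- The first component of a coboundary determines the class. -/
theorem cls_of_eq (hl : d.lay = 1) (g : Co k 0 d 1) {κ : W k} {c : k}
    (h : xOp k 0 * κ =
      (dc k 0 d 1 g ⟨((0 : Fin 2), (3 : Fin 6)), by decide⟩).1.1 + c • xOp k 0) :
    cls κ = c := by
  rw [dc_val] at h
  simp [sum_slots, entP, Dq, Lq, mulP, hl, xv_of_not, Pres', lev, dd_eq, xx_eq, neg_mulW,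
    mul_assoc] at h
  rw [add_negW, mul_subW] at h
  have e : xOp k 0 * κ = xOp k 0 * (dOp k 1 * (xv g ((0 : Fin 2), (1 : Fin 6))).1 -
      dOp k 0 * (xv g ((0 : Fin 2), (2 : Fin 6))).1 + c • (1 : W k)) := by
    rw [mul_add, mul_smul_comm, mul_one, h]
  rw [xOp_injective 0 e, sub_eq_add_neg, cls_add, cls_add, cls_smul, cls_one, cls_dOp_mul,
    ← mul_negW, cls_dOp_mul]
  ring

/-- The decomposition of a cocycle in one component. -/
theorem split_two [CharZero k] (w : Ix) {F : Co k 0 ((ob w).sh 1) 2}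
    (hF : dc k 0 ((ob w).sh 1) 2 F = 0) :
    ∃ (g : Co k 0 ((ob w).sh 1) 1) (c : k), (¬ (w.1 = 1 ∧ w.2.1 = 1) → c = 0) ∧
      ∀ t : T 2, (F t).1 = (dc k 0 ((ob w).sh 1) 1 g t).1 + c •
        (if t.1 = ((0 : Fin 2), (3 : Fin 6)) then (xOp k 0, -xOp k 0)
         else if t.1 = ((0 : Fin 2), (4 : Fin 6)) then (xOp k 1, -xOp k 1) else 0) := by
  obtain ⟨hd, hd1, hd2⟩ := sh_bounds w
  rcases (by omega : w.1 = 0 ∨ w.1 = 1) with h | h
  · obtain ⟨g, rfl⟩ := exact_lay0 (d := (ob w).sh 1) h hd (dc_dc hd) hF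
    exact ⟨g, 0, fun _ => rfl, fun t => by rw [zero_smul, add_zero]⟩
  · obtain ⟨g, c, hc, hg⟩ := exists_two (d := (ob w).sh 1) h hd hd1 hd2 (dc_dc hd) hF
    refine ⟨g, c, fun h' => hc ?_, hg⟩
    have : w.2.1 = 0 := by
      by_contra h0
      exact h' ⟨h, by omega⟩
    simp [this]

end

end Vale.Agent.P195D.HomExt
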