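import Vale.Agent.P195D.Maps
import Vale.Agent.P195D.Homology
import Vale.Agent.P195D.ResFacts

/-!
The module `U 0` has no higher self-extensions and only scalar endomorphisms.
-/

namespace Vale.Agent.P195D

open Res

noncomputable section

variable {k : Type} [Field k]

namespace HomU0

/-- The vertex of a slot of the complex of `U 0`. -/
def vx (t : Slot) : Ix :=
  (t.1, ⟨(qa t.2).toNat, by obtain ⟨r, q⟩ := t; fin_cases q <;> simp [qa]⟩,
    ⟨(qb t.2).toNat, by obtain ⟨r, q⟩ := t; fin_cases q <;> simp [qb]⟩)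

theorem ob_vx (t : Slot) : ob (vx t) = qob 0 t := by
  obtain ⟨r, q⟩ := t
  fin_cases q <;> simp [ob, vx, qob, qa, qb]

/-- The generator of a column. -/
def genS (c : Ob) : Col k c := fun u => idm (ob u) c

/-- The element of the algebra taking the generator to a given element of a column. -/
def liftA {c : Ob} (v : Ix) (hv : ob v = c) (x : Col k c) : Alg k := fun u w =>
  if h : w = v then
    (Submodule.inclusion (le_of_eq (by rw [h, hv])) : Hom' k (ob u) c →ₗ[k] _) (x u)
  else 0

theorem liftA_smul {c : Ob} (v : Ix) (hv : ob v = c) (x : Col k c) :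
    liftA v hv x • genS c = x := by
  subst hv
  refine Col.ext fun u => ?_
  rw [Col.act_apply, Finset.sum_eq_single v]
  · simp only [liftA, genS, dif_pos, comp_idm]
    rfl
  · intro w _ hw
    simp [liftA, hw]
  · simp

theorem projective_col' {c : Ob} (v : Ix) (hv : ob v = c) :
    Module.Projective (Alg k) (Col k c) := by
  let p : Alg k →ₗ[Alg k] Col k c := LinearMap.toSpanSingleton (Alg k) (Col k c) (genS c)
  have hp : ∀ b, p b = b • genS c := fun b => LinearMap.toSpanSingleton_apply _ _ _ _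
  subst hv
  let i : Col k (ob v) →ₗ[Alg k] Alg k :=
    { toFun := liftA v rfl
      map_add' := fun x y => Alg.ext fun u w => by
        simp only [liftA, Alg.add_apply, Col.add_apply, map_add]
        split <;> simp
      map_smul' := fun b x => Alg.ext fun u w => by
        show liftA v rfl (b • x) u w = (b * liftA v rfl x) u w
        rw [Alg.mul_apply]
        by_cases h : w = v
        · subst h
          simp only [liftA, dif_pos, Col.act_apply, map_sum]
          rfl
        · simp [liftA, h] }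
  exact Module.Projective.of_split i p (LinearMap.ext fun x => (hp _).trans (liftA_smul v rfl x))

/-- A map out of a column is given by the value at the generator. -/
theorem col_map_apply {i : Fin 2} {S : Dom} {n : ℤ} {c : Ob} (v : Ix) (hv : ob v = c)
    (g : Col k c →ₗ[Alg k] LMod k i S n) (x : Col k c) (u : Ix) :
    (g x u).1 = act (opOf i (x u)) (g (genS c) v).1 := by
  subst hv
  conv_lhs => rw [← liftA_smul v rfl x, map_smul, LMod.act_apply]
  rw [Finset.sum_eq_single v]
  · rw [actHom_val]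
    simp only [liftA, dif_pos]
    rfl
  · intro w _ hw
    simp [liftA, hw]
  · simp

theorem rmul_genS {c c' : Ob} (v : Ix) (hv : ob v = c) (h : Hom' k c c') :
    (Col.rmul h (genS c) v).1 = h.1 := by
  subst hv
  simp only [Col.rmul_apply, genS, idm_comp]

/-- The values of `U 0` are multiples of the constant monomial. -/
theorem sps_eq {u : Ix} {x : Lau k} (hx : x ∈ sps k 0 .reg ((0 : ℕ) : ℤ) (ob u)) :
    x = x 0 • Finsupp.single 0 1 ∧ (¬ (u.1 = 0 ∧ u.2.1 = 0) → x = 0) := by
  classical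
  have key : ∀ p : Gam, x p ≠ 0 → u.1 = 0 ∧ u.2.1 = 0 ∧ p = 0 := by
    intro p hp
    by_cases hl : (ob u).lay = 0
    · rw [sps, if_pos hl] at hx
      obtain ⟨⟨h1, h2⟩, h3⟩ := (Finsupp.mem_supported k x).1 hx (Finsupp.mem_support_iff.2 hp)
      simp only [ob_a] at h3
      exact ⟨hl, Fin.ext (by simp; omega), Prod.ext (by simp; omega) (by simp; omega)⟩
    · rw [sps, if_neg hl, Submodule.mem_bot] at hx
      simp [hx] at hp
  refine ⟨Finsupp.ext fun p => ?_, fun h => Finsupp.ext fun p => ?_⟩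
  · by_cases hp : x p = 0
    · by_cases h0 : p = 0
      · subst h0; simp
      · simp [hp, Finsupp.single_eq_of_ne h0]
    · obtain ⟨-, -, rfl⟩ := key p hp
      simp
  · by_contra hp
    exact h ⟨(key p hp).1, (key p hp).2.1⟩

variable {n : ℕ}

/-- The generator of a summand of the complex. -/
def genT (t : T n) : QT k 0 n := Pi.single t (genS (qob 0 t.1))

/-- The value of a map at the generator of a summand. -/
def val (f : QT k 0 n →ₗ[Alg k] Um k 0) (t : T n) : Lau k := (f (genT t) (vx t.1)).1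

theorem val_eq_smul (f : QT k 0 n →ₗ[Alg k] Um k 0) (t : T n) :
    val f t = val f t 0 • Finsupp.single 0 1 :=
  (sps_eq (f (genT t) (vx t.1)).2).1

theorem val_eq_zero (f : QT k 0 n →ₗ[Alg k] Um k 0) (t : T n)
    (h : t.1 ≠ (0, 0) ∧ t.1 ≠ (0, 5)) : val f t = 0 := by
  refine (sps_eq (f (genT t) (vx t.1)).2).2 ?_
  obtain ⟨⟨r, q⟩, ht⟩ := t
  fin_cases r <;> fin_cases q <;> simp_all [vx, qa]

theorem map_apply (f : QT k 0 n →ₗ[Alg k] Um k 0) (x : QT k 0 n) (u : Ix) :
    (f x u).1 = ∑ t, act (opOf 0 (x t u)) (val f t) := by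
  classical
  have h : f x = ∑ t, f.comp (LinearMap.single (Alg k) (fun t : T n => Col k (qob 0 t.1)) t) (x t) := by
    conv_lhs => rw [← Finset.univ_sum_single x, map_sum]
    rfl
  have hsum : (∑ t, f.comp (LinearMap.single (Alg k) (fun t : T n => Col k (qob 0 t.1)) t) (x t)) u =
      ∑ t, f.comp (LinearMap.single (Alg k) (fun t : T n => Col k (qob 0 t.1)) t) (x t) u :=
    map_sum (M := Um k 0) (⟨⟨fun y => y u, rfl⟩, fun _ _ => rfl⟩ :
      Um k 0 →+ ↥(sps k 0 .reg ((0 : ℕ) : ℤ) (ob u)))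
      (fun t => f.comp (LinearMap.single (Alg k) (fun t : T n => Col k (qob 0 t.1)) t) (x t))
      Finset.univ
  rw [h, hsum, Submodule.coe_sum]
  exact Finset.sum_congr rfl fun t _ => col_map_apply (vx t.1) (ob_vx t.1) _ _ _

theorem map_ext {f g : QT k 0 n →ₗ[Alg k] Um k 0} (h : ∀ t, val f t = val g t) : f = g :=
  LinearMap.ext fun x => LMod.ext fun u => Subtype.ext (by simp only [map_apply, h])

theorem val_zero (t : T n) : val (0 : QT k 0 n →ₗ[Alg k] Um k 0) t = 0 := rfl

theorem val_comp_qd (f : QT k 0 n →ₗ[Alg k] Um k 0) (t : T (n + 1)) :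
    val (f ∘ₗ qd k 0 n) t =
      ∑ t' : T n, if t.1.1 = 0 ∧ t'.1.1 = 0 then act (entP k n t.1 t'.1).1 (val f t') else 0 := by
  classical
  have h : ∀ t', qd k 0 n (genT t) t' = Col.rmul (ent 0 n t.1 t'.1) (genS (qob 0 t.1)) := fun t' => by
    rw [qd, Res.d_apply, Finset.sum_eq_single t]
    · rw [genT, Pi.single_eq_same]
    · intro s _ hs
      rw [genT, Pi.single_eq_of_ne hs, map_zero]
    · simp
  rw [val, LinearMap.comp_apply, map_apply]
  refine Finset.sum_congr rfl fun t' _ => ?_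
  rw [h, opOf]
  have hl : (ob (vx t.1)).lay = t.1.1 := rfl
  rw [rmul_genS (vx t.1) (ob_vx t.1), ent_val]
  by_cases hc : t.1.1 = 0 ∧ t'.1.1 = 0
  · rw [if_pos hc, if_pos]
    exact hc
  · rw [if_neg hc, if_neg]
    · simp
    · exact hc

/-- Only the slot `(0, 0)` contributes to the value at `(0, 5)`. -/
theorem val_comp_five (hn : n % 2 = 0) (f : QT k 0 n →ₗ[Alg k] Um k 0)
    (h5 : Pres' (n + 1) (0, 5)) (h0 : Pres' n (0, 0)) :
    val (f ∘ₗ qd k 0 n) ⟨(0, 5), h5⟩ = (-((n / 2 : ℕ) : k)) • val f ⟨(0, 0), h0⟩ := by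
  rw [val_comp_qd, Finset.sum_eq_single ⟨(0, 0), h0⟩]
  · rw [if_pos ⟨rfl, rfl⟩]
    simp [entP, Dq, map_neg, map_smul, act_one]
  · intro t' _ ht
    have h1 : t'.1 ≠ (0, 0) := fun h => ht (Subtype.ext h)
    have h2 : t'.1 ≠ (0, 5) := fun h => by
      have h' := t'.2
      rw [h] at h'
      obtain ⟨-, hp⟩ := h'
      simp [lev] at hp
      omega
    rw [val_eq_zero f t' ⟨h1, h2⟩]
    simp
  · simp

end HomU0

open HomU0

theorem ez_U0_self [CharZero k] (n : ℕ) (hn : 1 ≤ n) : EZ (Alg k) (Um k 0) (Um k 0) n := by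
  obtain ⟨i, rfl⟩ : ∃ i, n = i + 1 := ⟨n - 1, by omega⟩
  have hproj : ∀ i j, 1 ≤ j → EZ (Alg k) (QT k 0 i) (Um k 0) j := fun i j hj => by
    classical
    refine ez_of_sum (A := fun t : T i => Col k (qob 0 t.1)) (fun t => LinearMap.proj t)
      (fun t => LinearMap.single (Alg k) (fun t : T i => Col k (qob 0 t.1)) t)
      (fun x => Finset.univ_sum_single x) fun t => ?_
    have := projective_col' (k := k) (vx t.1) (ob_vx t.1)
    have : CategoryTheory.Projective (ModuleCat.of (Alg k) (Col k (qob 0 t.1))) :=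
      (IsProjective.iff_projective (R := Alg k) (Col k (qob 0 t.1))).1 this
    obtain ⟨j', rfl⟩ := Nat.exists_eq_add_of_le hj
    rw [Nat.add_comm]
    exact subsingleton_of_forall_eq 0 CategoryTheory.Abelian.Ext.eq_zero_of_projective
  refine ((ez_iff_of_acyclic (fun j => ModuleCat.of (Alg k) (QT k 0 j)) (qd k 0) (qaug k 0)
    (qaug_surjective 0) (qd_exact_zero 0) (qd_exact_succ 0) (Um k 0) hproj).2 i).2 fun f hf => ?_
  have zero_case : (∀ t, val f t = 0) → ∃ g, g ∘ₗ qd k 0 i = f := fun h =>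
    ⟨0, (LinearMap.zero_comp _).trans (map_ext fun t => (h t).symm)⟩
  by_cases hi : (i + 1) % 2 = 0
  · have h5 : Pres' (i + 1 + 1) ((0, 5) : Slot) := by constructor <;> simp [lev] <;> omega
    have h0 : Pres' (i + 1) ((0, 0) : Slot) := by constructor <;> simp [lev] <;> omega
    refine zero_case fun t => ?_
    by_cases ht : t.1 = (0, 0)
    · obtain rfl : t = ⟨(0, 0), h0⟩ := Subtype.ext ht
      have := val_comp_five hi f h5 h0
      rw [hf, val_zero] at this
      refine (smul_eq_zero.1 this.symm).resolve_left ?_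
      rw [neg_eq_zero, Nat.cast_eq_zero]
      omega
    · refine val_eq_zero f t ⟨ht, fun h => ?_⟩
      have h' := t.2
      rw [h] at h'
      obtain ⟨-, hp⟩ := h'
      simp [lev] at hp
      omega
  · have no0 : ∀ t : T (i + 1), t.1 ≠ (0, 0) := fun t h => by
      have h' := t.2
      rw [h] at h'
      obtain ⟨-, hp⟩ := h'
      simp [lev] at hp
      omega
    by_cases h2 : i = 0
    · refine zero_case fun t => val_eq_zero f t ⟨no0 t, fun h => ?_⟩
      have h' := t.2
      rw [h] at h'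
      obtain ⟨hp, -⟩ := h'
      simp [lev] at hp
      omega
    have h5 : Pres' (i + 1) ((0, 5) : Slot) := by constructor <;> simp [lev] <;> omega
    have h0 : Pres' i ((0, 0) : Slot) := by constructor <;> simp [lev] <;> omega
    let a : k := -((i / 2 : ℕ) : k)
    have ha : a ≠ 0 := by
      rw [neg_ne_zero, Nat.cast_ne_zero]
      omega
    let g : QT k 0 i →ₗ[Alg k] Um k 0 :=
      (evalL ((a⁻¹ * val f ⟨(0, 5), h5⟩ 0) • topVal k 0)).comp (LinearMap.proj (⟨(0, 0), h0⟩ : T i))
    have hg : val g ⟨(0, 0), h0⟩ = (a⁻¹ * val f ⟨(0, 5), h5⟩ 0) • Finsupp.single 0 1 := by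
      show act (opOf 0 (genT (⟨(0, 0), h0⟩ : T i) ⟨(0, 0), h0⟩ (vx (0, 0)))) _ = _
      rw [genT, Pi.single_eq_same, genS]
      have : opOf 0 (idm (k := k) (ob (vx (0, 0))) (qob 0 (0, 0))) = 1 := by
        rw [opOf, if_pos (⟨rfl, rfl⟩)]
        simp only [idm]
        rw [if_pos (ob_vx (0, 0))]
        rfl
      rw [this, act_one]
      rfl
    refine ⟨g, map_ext fun t => ?_⟩
    by_cases ht : t.1 = (0, 5)
    · obtain rfl : t = ⟨(0, 5), h5⟩ := Subtype.ext ht
      rw [val_comp_five (by omega) g h5 h0, hg, smul_smul, ← mul_assoc, mul_inv_cancel₀ ha, one_mul,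
        ← val_eq_smul]
    · rw [val_eq_zero _ t ⟨no0 t, ht⟩, val_eq_zero _ t ⟨no0 t, ht⟩]

theorem end_U0 [CharZero k] (f : Um k 0 →ₗ[Alg k] Um k 0) : ∃ c : k, ∀ u, f u = c • u := by
  classical
  have hq : val (qaug k 0) t0 = Finsupp.single 0 1 := by
    show act (opOf 0 (genT (k := k) t0 t0 (vx t0.1))) _ = _
    rw [genT, Pi.single_eq_same, genS]
    have : opOf 0 (idm (k := k) (ob (vx t0.1)) (qob 0 t0.1)) = 1 := by
      rw [opOf, if_pos (⟨rfl, rfl⟩)]
      simp only [idm]
      rw [if_pos (ob_vx t0.1)]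
      rfl
    rw [this, act_one]
    rfl
  refine ⟨val (f ∘ₗ qaug k 0) t0 0, fun y => ?_⟩
  obtain ⟨x, rfl⟩ := qaug_surjective 0 y
  refine LMod.ext fun u => Subtype.ext ?_
  rw [← LinearMap.comp_apply, map_apply, LMod.smul_apply, SetLike.val_smul, map_apply,
    Finset.smul_sum]
  refine Finset.sum_congr rfl fun t _ => ?_
  rw [T_zero_eq t, hq, ← map_smul, ← val_eq_smul]

end

end Vale.Agent.P195D
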