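import Vale.Agent.P195D.Maps
import Vale.Agent.P195D.Interface
import Vale.Agent.P195D.HomExt
import Vale.Agent.P195D.HomU0

/-!
Ext from U m computed by the periodic complex.
-/

namespace Vale.Agent.P195D

open MulOpposite Res HomCore HomExt Koszul

noncomputable section

variable {k : Type} [Field k]

/-- No extensions from `U m` into columns of layer `0` at or to the right of `m`. -/
theorem ez_U_col0 [CharZero k] (m n : ℕ) (d : Ob) (hl : d.lay = 0) (hd : (m : ℤ) ≤ d.a) :
    EZ (Alg k) (Um k m) (Col k d) n :=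
  ez_col_lay0 hl hd n

theorem ez_U0_shift [CharZero k] (n : ℕ) (hn : n ≠ 2) : EZ (Alg k) (Um k 0) (Shift k) n :=
  ez_shift_n n hn

/-- The multiples of the identity with which the cocycle is composed. -/
def oneCls (k : Type) [Field k] (c : Ix → k) : ∀ w : Ix, Hom' k (ob hIx) (ob w) := fun w =>
  if h : w.1 = 1 ∧ w.2.1 = 1 then
    c w • mkE (by simp [hIx]) 1 (by
      rw [show (ob w).a - (ob hIx).a = 0 by simp [hIx, h.2]]
      exact P195D.one_mem_Sp0' (by simp [hIx]))
  else 0

/-- Every cocycle of degree two is a multiple of the distinguished one up to a coboundary. -/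
theorem cocycle_two [CharZero k] (f : QT k 0 2 →ₗ[Alg k] Shift k) (hf : f ∘ₗ qd k 0 2 = 0) :
    ∃ (ρ : Alg k) (g : QT k 0 1 →ₗ[Alg k] Shift k),
      Alg.e hIx * ρ = ρ ∧ ∀ x, f x = op ρ • vQ k x + g (qd k 0 1 x) := by
  classical
  have key : ∀ w : Ix, ∃ (F : Co k 0 ((ob w).sh 1) 2) (g : Co k 0 ((ob w).sh 1) 1) (c : k),
      hom F = (projS w).comp f ∧ (¬ (w.1 = 1 ∧ w.2.1 = 1) → c = 0) ∧
      ∀ t : T 2, (F t).1 = (dc k 0 ((ob w).sh 1) 1 g t).1 + c •
        (if t.1 = ((0 : Fin 2), (3 : Fin 6)) then (xOp k 0, -xOp k 0)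
         else if t.1 = ((0 : Fin 2), (4 : Fin 6)) then (xOp k 1, -xOp k 1) else 0) := fun w => by
    obtain ⟨F, hF⟩ := hom_surj (sh_bounds w).1 ((projS w).comp f)
    have h : dc k 0 ((ob w).sh 1) 2 F = 0 := hom_inj (sh_bounds w).1 (by
      rw [← hom_qd, hF, LinearMap.comp_assoc, hf, LinearMap.comp_zero, hom_zero])
    obtain ⟨g, c, h1, h2⟩ := split_two w h
    exact ⟨F, g, c, hF, h1, h2⟩
  choose F g c hF hc hg using key
  let ρ : Alg k := Pi.single (M := fun u : Ix => ∀ w : Ix, Hom' k (ob u) (ob w)) hIx (oneCls k c)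
  have hρ : ∀ w, ρ hIx w = oneCls k c w := fun w => congrFun (Pi.single_eq_same hIx _) w
  refine ⟨ρ, LinearMap.pi fun w => hom (g w), ?_, fun x => Shift.ext fun w => ?_⟩
  · refine Alg.ext fun u w => ?_
    rw [Alg.mul_apply, Finset.sum_eq_single hIx]
    · by_cases hu : u = hIx
      · subst hu
        simp [Alg.e]
      · rw [Alg.e, if_neg (fun h => hu h.1), map_zero, LinearMap.zero_apply]
        have hz : ρ u = (fun _ => 0) :=
          Pi.single_eq_of_ne (M := fun u : Ix => ∀ w : Ix, Hom' k (ob u) (ob w)) hu (oneCls k c)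
        exact (congrFun hz w).symm
    · intro v _ hv
      rw [Alg.e, if_neg (fun h => hv h.2), map_zero, LinearMap.zero_apply]
    · simp
  · rw [Shift.add_apply, smul_vQ_apply]
    show f x w = hom (vco w ρ) x + hom (g w) (qd k 0 1 x)
    rw [← LinearMap.comp_apply (hom (g w)), hom_qd, show f x w = hom (F w) x by rw [hF]; rfl]
    refine Col.ext fun u => ?_
    rw [Col.add_apply, hom_apply, hom_apply, hom_apply, ← Finset.sum_add_distrib]
    refine Finset.sum_congr rfl fun t _ => ?_
    rw [← map_add]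
    congr 1
    refine Subtype.ext ((hg w t).trans ?_)
    rw [Submodule.coe_add, add_comm]
    congr 1
    by_cases hw : w.1 = 1 ∧ w.2.1 = 1
    · rw [vco_val w hw.1, hρ, oneCls, dif_pos hw]
      simp only [SetLike.val_smul, mkE_val, Prod.smul_fst, mul_smul_comm, mul_one]
      split_ifs <;> simp
    · rw [hc w hw, zero_smul, vco, comp_val, shHom_val, hρ, oneCls, dif_neg hw,
        ZeroMemClass.coe_zero, HomCore.mulP_zero_right]

/-- The annihilator of the class of the distinguished cocycle. -/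
theorem vQ_coboundary_iff [CharZero k] (ρ : Alg k) (hρ : Alg.e hIx * ρ = ρ) :
    (∃ g : QT k 0 1 →ₗ[Alg k] Shift k, ∀ x, op ρ • vQ k x = g (qd k 0 1 x)) ↔
      ∀ b, wc k b ρ = 0 := by
  classical
  constructor
  · rintro ⟨g, hg⟩ b
    set w : Ix := ((1 : Fin 2), (1 : Fin 2), b)
    obtain ⟨G, hG⟩ := hom_surj (sh_bounds w).1 ((projS w).comp g)
    have e : vco w ρ = dc k 0 ((ob w).sh 1) 1 G := hom_inj (sh_bounds w).1 (by
      refine LinearMap.ext fun x => ?_
      rw [← smul_vQ_apply, ← hom_qd, LinearMap.comp_apply, hG, hg x]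
      rfl)
    refine cls_of_eq (d := (ob w).sh 1) rfl G ?_
    rw [← e, vco_val w rfl, if_pos rfl, zero_smul, add_zero]
  · intro h
    have key : ∀ w : Ix, ∃ G : Co k 0 ((ob w).sh 1) 1,
        dc k 0 ((ob w).sh 1) 1 G = vco w ρ := fun w => by
      obtain ⟨G, c, hc, hG⟩ := split_two w (vco_cocycle w ρ)
      have hc0 : c = 0 := by
        by_cases hw : w.1 = 1 ∧ w.2.1 = 1
        · obtain ⟨r, a, b⟩ := w
          obtain ⟨rfl, rfl⟩ := hw
          have e := hG ⟨((0 : Fin 2), (3 : Fin 6)), by decide⟩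
          rw [vco_val _ rfl, if_pos rfl, if_pos rfl] at e
          have e1 := congrArg Prod.fst e
          simp only [Prod.fst_add, Prod.smul_fst] at e1
          exact ((cls_of_eq rfl G e1).symm.trans (h b))
        · exact hc hw
      exact ⟨G, funext fun t => Subtype.ext (by rw [hG t, hc0, zero_smul, add_zero])⟩
    choose G hG using key
    refine ⟨LinearMap.pi fun w => hom (G w), fun x => Shift.ext fun w => ?_⟩
    rw [smul_vQ_apply, ← hG w, ← hom_qd]
    rfl

end

end Vale.Agent.P195D
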