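import Vale.Agent.P195D.Interface
import Vale.Agent.P195D.Homology

/-!
From comparisons over `B` to the counterexample over the trivial extension `B ⋉ Y`: the total
complex of the resolutions over `B`, glued by the comparisons, is a free resolution over the
trivial extension, and its duals into the extension and into the first module are acyclic.
-/

namespace Vale.Agent.P195D

open CategoryTheory Abelian MulOpposite Matrix TrivSqZeroExt

set_option linter.unusedSectionVars false

namespace Lift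

section Blocks
variable {R : Type*} [Ring R] {a b c d e : ℕ}

/-- Two matrices on top of each other. -/
def stack (A : Matrix (Fin a) (Fin c) R) (A' : Matrix (Fin b) (Fin c) R) :
    Matrix (Fin (a + b)) (Fin c) R := Matrix.of (Fin.append A A')

/-- Two matrices side by side. -/
def beside (A : Matrix (Fin a) (Fin c) R) (A' : Matrix (Fin a) (Fin d) R) :
    Matrix (Fin a) (Fin (c + d)) R := Matrix.of fun i => Fin.append (A i) (A' i)

@[simp] theorem stack_castAdd (A : Matrix (Fin a) (Fin c) R) (A' : Matrix (Fin b) (Fin c) R)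
    (i : Fin a) (j : Fin c) : stack A A' (Fin.castAdd b i) j = A i j :=
  congr_fun (Fin.append_left A A' i) j

@[simp] theorem stack_natAdd (A : Matrix (Fin a) (Fin c) R) (A' : Matrix (Fin b) (Fin c) R)
    (i : Fin b) (j : Fin c) : stack A A' (Fin.natAdd a i) j = A' i j :=
  congr_fun (Fin.append_right A A' i) j

theorem vecMul_stack (A : Matrix (Fin a) (Fin c) R) (A' : Matrix (Fin b) (Fin c) R)
    (x : Fin a → R) (y : Fin b → R) : Fin.append x y ᵥ* stack A A' = x ᵥ* A + y ᵥ* A' := by
  funext j; simp [vecMul, dotProduct, Fin.sum_univ_add]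

theorem stack_mulVec (A : Matrix (Fin a) (Fin c) R) (A' : Matrix (Fin b) (Fin c) R)
    (f : Fin c → R) : stack A A' *ᵥ f = Fin.append (A *ᵥ f) (A' *ᵥ f) := by
  funext i; refine Fin.addCases (fun i => ?_) (fun i => ?_) i <;> simp [mulVec, dotProduct]

theorem vecMul_beside (A : Matrix (Fin a) (Fin c) R) (A' : Matrix (Fin a) (Fin d) R)
    (x : Fin a → R) : x ᵥ* beside A A' = Fin.append (x ᵥ* A) (x ᵥ* A') := by
  funext j; refine Fin.addCases (fun j => ?_) (fun j => ?_) j <;> simp [vecMul, dotProduct, beside]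

theorem beside_mulVec (A : Matrix (Fin a) (Fin c) R) (A' : Matrix (Fin a) (Fin d) R)
    (f : Fin c → R) (g : Fin d → R) : beside A A' *ᵥ Fin.append f g = A *ᵥ f + A' *ᵥ g := by
  funext i; simp [mulVec, dotProduct, beside, Fin.sum_univ_add]

theorem stack_mul (A : Matrix (Fin a) (Fin c) R) (A' : Matrix (Fin b) (Fin c) R)
    (X : Matrix (Fin c) (Fin e) R) : stack A A' * X = stack (A * X) (A' * X) := by
  ext i j; refine Fin.addCases (fun i => ?_) (fun i => ?_) i <;> simp [Matrix.mul_apply]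

theorem mul_beside (X : Matrix (Fin e) (Fin a) R) (A : Matrix (Fin a) (Fin c) R)
    (A' : Matrix (Fin a) (Fin d) R) : X * beside A A' = beside (X * A) (X * A') := by
  ext i j; refine Fin.addCases (fun j => ?_) (fun j => ?_) j <;> simp [Matrix.mul_apply, beside]

theorem beside_mul_stack (A : Matrix (Fin a) (Fin c) R) (A' : Matrix (Fin a) (Fin d) R)
    (X : Matrix (Fin c) (Fin e) R) (X' : Matrix (Fin d) (Fin e) R) :
    beside A A' * stack X X' = A * X + A' * X' := by
  ext i j; simp [Matrix.mul_apply, beside, Fin.sum_univ_add]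

theorem stack_zero : stack (0 : Matrix (Fin a) (Fin c) R) (0 : Matrix (Fin b) (Fin c) R) = 0 := by
  ext i j; refine Fin.addCases (fun i => ?_) (fun i => ?_) i <;> simp

theorem beside_zero : beside (0 : Matrix (Fin a) (Fin c) R) (0 : Matrix (Fin a) (Fin d) R) = 0 := by
  ext i j; refine Fin.addCases (fun j => ?_) (fun j => ?_) j <;> simp [beside]

end Blocks

theorem exists_append {X : Type*} {a b : ℕ} (v : Fin (a + b) → X) :
    ∃ x y, Fin.append x y = v :=
  ⟨_, _, Fin.append_castAdd_natAdd⟩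

theorem append_inj {X : Type*} {a b : ℕ} {x x' : Fin a → X} {y y' : Fin b → X}
    (h : Fin.append x y = Fin.append x' y') : x = x' ∧ y = y' :=
  ⟨funext fun i => by simpa using congr_fun h (Fin.castAdd b i),
    funext fun i => by simpa using congr_fun h (Fin.natAdd a i)⟩

theorem append_zero {X : Type*} [Zero X] {a b : ℕ} :
    Fin.append (0 : Fin a → X) (0 : Fin b → X) = 0 := by
  funext i; refine Fin.addCases (fun i => ?_) (fun i => ?_) i <;> simp

section Entries
variable {B Y : Type} [Ring B] [AddCommGroup Y] [Module B Y] [Module Bᵐᵒᵖ Y]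
  [SMulCommClass B Bᵐᵒᵖ Y] {p q r : ℕ}

/-- A matrix over `B` inside the extension. -/
def inlM (A : Matrix (Fin p) (Fin q) B) : Matrix (Fin p) (Fin q) (TrivSqZeroExt B Y) :=
  A.map inl

/-- A matrix with entries in `Y` inside the extension. -/
def inrM (C : Matrix (Fin p) (Fin q) Y) : Matrix (Fin p) (Fin q) (TrivSqZeroExt B Y) :=
  C.map inr

@[simp] theorem inlM_apply (A : Matrix (Fin p) (Fin q) B) (i : Fin p) (j : Fin q) :
    (inlM A : Matrix (Fin p) (Fin q) (TrivSqZeroExt B Y)) i j = inl (A i j) := rfl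

@[simp] theorem inrM_apply (C : Matrix (Fin p) (Fin q) Y) (i : Fin p) (j : Fin q) :
    (inrM C : Matrix (Fin p) (Fin q) (TrivSqZeroExt B Y)) i j = inr (C i j) := rfl

theorem fst_vecMul_inlM (A : Matrix (Fin p) (Fin q) B) (v : Fin p → TrivSqZeroExt B Y) :
    fst ∘ (v ᵥ* inlM A) = (fst ∘ v) ᵥ* A := by
  funext j; simp [vecMul, dotProduct, TrivSqZeroExt.fst_sum]

theorem snd_vecMul_inlM (A : Matrix (Fin p) (Fin q) B) (v : Fin p → TrivSqZeroExt B Y) :
    snd ∘ (v ᵥ* inlM A) = rMat A (snd ∘ v) := by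
  funext j; simp [vecMul, dotProduct, rMat, TrivSqZeroExt.snd_sum]

theorem fst_vecMul_inrM (C : Matrix (Fin p) (Fin q) Y) (v : Fin p → TrivSqZeroExt B Y) :
    fst ∘ (v ᵥ* inrM C) = 0 := by
  funext j; simp [vecMul, dotProduct, TrivSqZeroExt.fst_sum]

theorem snd_vecMul_inrM (C : Matrix (Fin p) (Fin q) Y) (v : Fin p → TrivSqZeroExt B Y) :
    snd ∘ (v ᵥ* inrM C) = cap C (fst ∘ v) := by
  funext j; simp [vecMul, dotProduct, cap, TrivSqZeroExt.snd_sum]

theorem fst_inlM_mulVec (A : Matrix (Fin p) (Fin q) B) (f : Fin q → TrivSqZeroExt B Y) :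
    fst ∘ (inlM A *ᵥ f) = lMat A (fst ∘ f) := by
  funext i; simp [mulVec, dotProduct, lMat, TrivSqZeroExt.fst_sum]

theorem snd_inlM_mulVec (A : Matrix (Fin p) (Fin q) B) (f : Fin q → TrivSqZeroExt B Y) :
    snd ∘ (inlM A *ᵥ f) = lMat A (snd ∘ f) := by
  funext i; simp [mulVec, dotProduct, lMat, TrivSqZeroExt.snd_sum]

theorem fst_inrM_mulVec (C : Matrix (Fin p) (Fin q) Y) (f : Fin q → TrivSqZeroExt B Y) :
    fst ∘ (inrM C *ᵥ f) = 0 := by
  funext i; simp [mulVec, dotProduct, TrivSqZeroExt.fst_sum]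

theorem snd_inrM_mulVec (C : Matrix (Fin p) (Fin q) Y) (f : Fin q → TrivSqZeroExt B Y) :
    snd ∘ (inrM C *ᵥ f) = alpha C (fst ∘ f) := by
  funext i; simp [mulVec, dotProduct, alpha, TrivSqZeroExt.snd_sum]

theorem inrM_mul_inrM (C : Matrix (Fin p) (Fin q) Y) (C' : Matrix (Fin q) (Fin r) Y) :
    inrM (B := B) C * inrM (B := B) C' = 0 := by
  refine Matrix.ext fun i j => ?_
  rw [Matrix.mul_apply]
  ext <;> simp [ TrivSqZeroExt.fst_sum, TrivSqZeroExt.snd_sum]

theorem vec_ext {v v' : Fin p → TrivSqZeroExt B Y} (h₁ : fst ∘ v = fst ∘ v')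
    (h₂ : snd ∘ v = snd ∘ v') : v = v' :=
  funext fun i => TrivSqZeroExt.ext (congr_fun h₁ i) (congr_fun h₂ i)

/-- A vector of the extension with given components. -/
def mkV (x : Fin p → B) (y : Fin p → Y) : Fin p → TrivSqZeroExt B Y :=
  fun i => inl (x i) + inr (y i)

@[simp] theorem fst_mkV (x : Fin p → B) (y : Fin p → Y) : fst ∘ mkV x y = x := by
  funext i; simp [mkV]

@[simp] theorem snd_mkV (x : Fin p → B) (y : Fin p → Y) : snd ∘ mkV x y = y := by
  funext i; simp [mkV]

end Entries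

section Total
variable {B : Type} [Ring B] {Y : Type} [AddCommGroup Y] [Module B Y] [Module Bᵐᵒᵖ Y]
  [SMulCommClass B Bᵐᵒᵖ Y] {U : ℕ → Type} [∀ m, AddCommGroup (U m)] [∀ m, Module B (U m)]
  (P : ∀ m, FreeRes B (U m)) (c : ∀ m, Comparison (P m) (P (m + 1)) Y)

theorem freeRes_comp {V : Type} [AddCommGroup V] [Module B V] (Q : FreeRes B V) (i : ℕ) :
    Q.D (i + 1) * Q.D i = 0 :=
  Matrix.ext fun s t =>
    congr_fun ((Q.exact_succ i (Q.D (i + 1) s)).2
      ⟨Pi.single s (1 : B), Matrix.single_one_vecMul s _⟩) t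

/-- The ranks of the total complex starting at the index `m`. -/
@[reducible] def T : ℕ → ℕ → ℕ
  | 0, m => (P m).n 0
  | N + 1, m => (P m).n (N + 1) + T N (m + 1)

/-- The gluing block. -/
def K : ∀ N m, Matrix (Fin (T P N (m + 1))) (Fin ((P m).n N)) (TrivSqZeroExt B Y)
  | 0, m => inrM ((c m).C 0)
  | N + 1, m => stack (inrM ((c m).C (N + 1))) 0

/-- The differential of the total complex. -/
def D : ∀ N m, Matrix (Fin (T P (N + 1) m)) (Fin (T P N m)) (TrivSqZeroExt B Y)
  | 0, m => stack (inlM ((P m).D 0)) (inrM ((c m).C 0))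
  | N + 1, m => stack (beside (inlM ((P m).D (N + 1))) 0) (beside (K P c (N + 1) m) (-D N (m + 1)))

theorem inlM_comp (m i : ℕ) :
    inlM (Y := Y) ((P m).D (i + 1)) * inlM (Y := Y) ((P m).D i) = 0 := by
  have h := freeRes_comp (P m) i
  refine Matrix.ext fun s t => ?_
  have h' := congr_fun (congr_fun h s) t
  rw [Matrix.mul_apply] at h' ⊢
  ext
  · simpa [TrivSqZeroExt.fst_sum] using h'
  · simp [TrivSqZeroExt.snd_sum]

include c in
theorem inrM_comm (m i : ℕ) :
    inrM (B := B) ((c m).C (i + 1)) * inlM (Y := Y) ((P m).D i)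
      = inlM (Y := Y) ((P (m + 1)).D i) * inrM (B := B) ((c m).C i) := by
  refine Matrix.ext fun s t => ?_
  rw [Matrix.mul_apply, Matrix.mul_apply]
  ext
  · simp [TrivSqZeroExt.fst_sum]
  · simpa [rMat, TrivSqZeroExt.snd_sum] using congr_fun ((c m).comm i s) t

theorem K_comm : ∀ N m, K P c (N + 1) m * inlM (Y := Y) ((P m).D N) = D P c N (m + 1) * K P c N m := by
  intro N m
  cases N with
  | zero =>
    simp only [K, D]
    rw [stack_mul, stack_mul, inrM_comm]
    congr 1
    rw [Matrix.zero_mul]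
    exact (inrM_mul_inrM _ _).symm
  | succ N =>
    simp only [K, D]
    rw [stack_mul, stack_mul, beside_mul_stack, beside_mul_stack, inrM_comm]
    congr 1
    · simp
    · rw [stack_mul, inrM_mul_inrM]
      simp [stack_zero]

theorem D_comp : ∀ N m, D P c (N + 1) m * D P c N m = 0 := by
  intro N
  induction N with
  | zero =>
    intro m
    show stack _ _ * stack _ _ = 0
    rw [stack_mul, beside_mul_stack, beside_mul_stack, inlM_comp, Matrix.zero_mul, add_zero,
      Matrix.neg_mul, K_comm, show K P c 0 m = inrM ((c m).C 0) from rfl, add_neg_cancel,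
      stack_zero]
  | succ N ih =>
    intro m
    show stack _ _ * stack _ _ = 0
    rw [stack_mul, beside_mul_stack, beside_mul_stack, Matrix.zero_mul, add_zero, mul_beside,
      mul_beside, mul_beside, inlM_comp, Matrix.mul_zero, beside_zero, K_comm, Matrix.mul_zero,
      Matrix.neg_mul, Matrix.neg_mul, Matrix.mul_neg, ih, neg_zero, neg_zero]
    have e : ∀ {a b d : ℕ} (X : Matrix (Fin a) (Fin b) (TrivSqZeroExt B Y)),
        beside X (0 : Matrix (Fin a) (Fin d) (TrivSqZeroExt B Y)) + beside (-X) 0 = 0 := fun X =>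
      Matrix.ext fun i j => by
        refine Fin.addCases (fun j => ?_) (fun j => ?_) j <;> simp [beside]
    rw [e, stack_zero]

/-- The first block of a vector of the total complex. -/
def hd {X : Type*} : ∀ {N m : ℕ}, (Fin (T P N m) → X) → Fin ((P m).n N) → X
  | 0, _, v => v
  | _ + 1, _, v => fun i => v (Fin.castAdd _ i)

/-- A vector supported in the first block. -/
def put {X : Type*} [Zero X] : ∀ {N m : ℕ}, (Fin ((P m).n N) → X) → Fin (T P N m) → X
  | 0, _, x => x
  | _ + 1, _, x => Fin.append x 0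

theorem vecMul_K {N m : ℕ} (v : Fin (T P N (m + 1)) → TrivSqZeroExt B Y) :
    v ᵥ* K P c N m = hd P v ᵥ* inrM ((c m).C N) := by
  cases N with
  | zero => rfl
  | succ N =>
    obtain ⟨x, y, rfl⟩ := exists_append v
    show Fin.append x y ᵥ* stack _ _ = _
    rw [vecMul_stack, Matrix.vecMul_zero, add_zero]
    congr 1
    funext i; exact (Fin.append_left x y i).symm

theorem K_mulVec {N m : ℕ} (f : Fin ((P m).n N) → TrivSqZeroExt B Y) :
    K P c N m *ᵥ f = put P (inrM ((c m).C N) *ᵥ f) := by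
  cases N with
  | zero => rfl
  | succ N => show stack _ _ *ᵥ f = Fin.append _ 0; rw [stack_mulVec, Matrix.zero_mulVec]

theorem vecMul_D_D {N m : ℕ} (w : Fin (T P (N + 2) m) → TrivSqZeroExt B Y) :
    (w ᵥ* D P c (N + 1) m) ᵥ* D P c N m = 0 := by
  rw [Matrix.vecMul_vecMul, D_comp, Matrix.vecMul_zero]

theorem vecMul_D_succ {N m : ℕ} (x : Fin ((P m).n (N + 2)) → TrivSqZeroExt B Y)
    (y : Fin (T P (N + 1) (m + 1)) → TrivSqZeroExt B Y) :
    Fin.append x y ᵥ* D P c (N + 1) m = Fin.append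
      (x ᵥ* inlM ((P m).D (N + 1)) + hd P y ᵥ* inrM ((c m).C (N + 1)))
      (-(y ᵥ* D P c N (m + 1))) := by
  show Fin.append x y ᵥ* stack _ _ = _
  rw [vecMul_stack, vecMul_beside, vecMul_beside, vecMul_K, Matrix.vecMul_zero, Matrix.vecMul_neg]
  funext i
  refine Fin.addCases (fun i => ?_) (fun i => ?_) i <;> simp

/-- A boundary of the total complex is detected in degree zero by its part over `B`. -/
theorem exact_aug {m : ℕ} (v : Fin ((P m).n 0) → TrivSqZeroExt B Y)
    (h : ∃ w, w ᵥ* (P m).D 0 = fst ∘ v) : ∃ w, w ᵥ* D P c 0 m = v := by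
  obtain ⟨w, hw⟩ := h
  obtain ⟨x, z, hz⟩ := (c m).surj (snd ∘ v)
  refine ⟨Fin.append (mkV w z) (mkV x 0), ?_⟩
  show _ ᵥ* stack _ _ = v
  rw [vecMul_stack]
  apply vec_ext
  · have h1 := fst_vecMul_inlM (Y := Y) ((P m).D 0) (mkV w z)
    have h2 := fst_vecMul_inrM ((c m).C 0) (mkV (B := B) x 0)
    rw [fst_mkV, hw] at h1
    funext i
    have e1 := congr_fun h1 i
    have e2 := congr_fun h2 i
    simp only [Function.comp_apply, Pi.zero_apply] at e1 e2
    simp [e1, e2]
  · have h1 := snd_vecMul_inlM ((P m).D 0) (mkV w z)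
    have h2 := snd_vecMul_inrM ((c m).C 0) (mkV (B := B) x 0)
    rw [snd_mkV] at h1
    rw [fst_mkV] at h2
    funext i
    have e1 := congr_fun h1 i
    have e2 := congr_fun h2 i
    simp only [Function.comp_apply] at e1 e2
    have e3 := congr_fun hz i
    simp only [Function.comp_apply, Pi.add_apply] at e3
    simp [e1, e2, ← e3, add_comm]

include c in
theorem exact_head {N m : ℕ} (a : Fin ((P m).n (N + 1)) → TrivSqZeroExt B Y)
    (h : a ᵥ* inlM ((P m).D N) = 0) : ∃ u, u ᵥ* inlM ((P m).D (N + 1)) = a := by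
  have h1 : (fst ∘ a) ᵥ* (P m).D N = 0 := by
    rw [← fst_vecMul_inlM (Y := Y), h]; rfl
  have h2 : rMat ((P m).D N) (snd ∘ a) = 0 := by
    rw [← snd_vecMul_inlM, h]; rfl
  obtain ⟨u, hu⟩ := ((P m).exact_succ N _).1 h1
  obtain ⟨z, hz⟩ := (c m).exact N _ h2
  refine ⟨mkV u z, vec_ext ?_ ?_⟩
  · rw [fst_vecMul_inlM, fst_mkV, hu]
  · rw [snd_vecMul_inlM, snd_mkV, hz]

/-- The total complex is exact in positive degrees. -/
theorem exact_total : ∀ N m (v : Fin (T P (N + 1) m) → TrivSqZeroExt B Y),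
    v ᵥ* D P c N m = 0 → ∃ w, w ᵥ* D P c (N + 1) m = v := by
  intro N
  induction N with
  | zero =>
    intro m v hv
    obtain ⟨a, b, rfl⟩ := exists_append v
    have hb : ∃ w, w ᵥ* (P (m + 1)).D 0 = fst ∘ b := by
      change Fin.append a b ᵥ* stack _ _ = 0 at hv
      rw [vecMul_stack] at hv
      refine (c m).inj (fst ∘ b) (-(snd ∘ a)) ?_
      funext j
      have e := congr_arg snd (congr_fun hv j)
      have e1 := congr_fun (snd_vecMul_inlM ((P m).D 0) a) j
      have e2 := congr_fun (snd_vecMul_inrM (B := B) ((c m).C 0) b) j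
      simp only [Function.comp_apply] at e1 e2
      simp only [Pi.add_apply, TrivSqZeroExt.snd_add, e1, e2, Pi.zero_apply,
        TrivSqZeroExt.snd_zero] at e
      rw [eq_neg_of_add_eq_zero_right e]
      simp [rMat, Finset.sum_neg_distrib]
    obtain ⟨w, hw⟩ := exact_aug P c (m := m + 1) b hb
    have hv' : (Fin.append a b + Fin.append 0 w ᵥ* D P c 1 m) ᵥ* D P c 0 m = 0 := by
      rw [Matrix.add_vecMul, hv, vecMul_D_D, add_zero]
    rw [vecMul_D_succ, hw] at hv'
    obtain ⟨u, hu⟩ := exact_head P c (N := 0) (m := m)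
      (a + hd P w ᵥ* inrM ((c m).C 1)) (by
        have e : Fin.append a b + Fin.append (0 ᵥ* inlM ((P m).D 1) + hd P w ᵥ* inrM ((c m).C 1))
            (-b) = Fin.append (a + hd P w ᵥ* inrM ((c m).C 1)) 0 := by
          funext i; refine Fin.addCases (fun i => ?_) (fun i => ?_) i <;> simp
        rw [e] at hv'
        change Fin.append _ _ ᵥ* stack _ _ = 0 at hv'
        rwa [vecMul_stack, Matrix.zero_vecMul, add_zero] at hv')
    refine ⟨Fin.append u (-w), ?_⟩
    rw [vecMul_D_succ, hu]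
    funext i
    refine Fin.addCases (fun i => ?_) (fun i => ?_) i
    · have : hd P (-w) = -hd P w := rfl
      simp [this, Matrix.neg_vecMul]
    · simp [Matrix.neg_vecMul, hw]
  | succ N ih =>
    intro m v hv
    obtain ⟨a, b, rfl⟩ := exists_append v
    have hb : b ᵥ* D P c N (m + 1) = 0 := by
      rw [vecMul_D_succ, ← append_zero] at hv
      simpa using (append_inj hv).2
    obtain ⟨w, hw⟩ := ih (m + 1) b hb
    have hv' : (Fin.append a b + Fin.append 0 w ᵥ* D P c (N + 2) m) ᵥ* D P c (N + 1) m = 0 := by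
      rw [Matrix.add_vecMul, hv, vecMul_D_D, add_zero]
    rw [vecMul_D_succ, hw] at hv'
    obtain ⟨u, hu⟩ := exact_head P c (N := N + 1) (m := m)
      (a + hd P w ᵥ* inrM ((c m).C (N + 2))) (by
        have e : Fin.append a b + Fin.append
            (0 ᵥ* inlM ((P m).D (N + 2)) + hd P w ᵥ* inrM ((c m).C (N + 2))) (-b)
            = Fin.append (a + hd P w ᵥ* inrM ((c m).C (N + 2))) 0 := by
          funext i; refine Fin.addCases (fun i => ?_) (fun i => ?_) i <;> simp
        rw [e, vecMul_D_succ] at hv'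
        have h0 : hd P (0 : Fin (T P (N + 1) (m + 1)) → TrivSqZeroExt B Y) = 0 := rfl
        have h3 := (append_inj (hv'.trans append_zero.symm)).1
        simpa [h0, append_zero] using h3)
    refine ⟨Fin.append u (-w), ?_⟩
    rw [vecMul_D_succ, hu]
    funext i
    refine Fin.addCases (fun i => ?_) (fun i => ?_) i
    · have : hd P (-w) = -hd P w := rfl
      simp [this, Matrix.neg_vecMul]
    · simp [Matrix.neg_vecMul, hw]

theorem D_mulVec_succ {N m : ℕ} (f : Fin ((P m).n (N + 1)) → TrivSqZeroExt B Y)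
    (t : Fin (T P N (m + 1)) → TrivSqZeroExt B Y) :
    D P c (N + 1) m *ᵥ Fin.append f t = Fin.append (inlM ((P m).D (N + 1)) *ᵥ f)
      (put P (inrM ((c m).C (N + 1)) *ᵥ f) - D P c N (m + 1) *ᵥ t) := by
  show stack _ _ *ᵥ _ = _
  rw [stack_mulVec, beside_mulVec, beside_mulVec, K_mulVec, Matrix.zero_mulVec, add_zero,
    Matrix.neg_mulVec, ← sub_eq_add_neg]

theorem hd_put {X : Type*} [Zero X] {N m : ℕ} (x : Fin ((P m).n N) → X) :
    hd P (put P x) = x := by
  cases N with
  | zero => rfl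
  | succ N => funext i; exact Fin.append_left x 0 i

theorem hd_D_mulVec {N m : ℕ} (t : Fin (T P N m) → TrivSqZeroExt B Y) :
    hd P (D P c N m *ᵥ t) = inlM ((P m).D N) *ᵥ hd P t := by
  cases N with
  | zero =>
    funext i
    show (stack _ _ *ᵥ t) (Fin.castAdd _ i) = _
    rw [stack_mulVec]
    exact Fin.append_left _ _ i
  | succ N =>
    obtain ⟨f, t, rfl⟩ := exists_append t
    funext i
    show (D P c (N + 1) m *ᵥ Fin.append f t) (Fin.castAdd _ i) = _
    rw [D_mulVec_succ, Fin.append_left]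
    congr
    exact (funext fun j => Fin.append_left f t j).symm

theorem D_mulVec_put {N m : ℕ} (g : Fin ((P m).n N) → TrivSqZeroExt B Y) :
    D P c N m *ᵥ put P g
      = Fin.append (inlM ((P m).D N) *ᵥ g) (put P (inrM ((c m).C N) *ᵥ g)) := by
  cases N with
  | zero =>
    show stack _ _ *ᵥ g = _
    rw [stack_mulVec]
    rfl
  | succ N =>
    show _ *ᵥ Fin.append g 0 = _
    rw [D_mulVec_succ, Matrix.mulVec_zero, sub_zero]

theorem put_zero {X : Type*} [Zero X] {N m : ℕ} : put P (0 : Fin ((P m).n N) → X) = 0 := by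
  cases N with
  | zero => rfl
  | succ N => exact append_zero

/-- The dual of the total complex into the extension is exact. -/
theorem hom_total : ∀ N m (f : Fin (T P N m) → TrivSqZeroExt B Y), D P c N m *ᵥ f = 0 →
    IsCobdry (P m) Y N (snd ∘ hd P f) →
    match N, f with
    | 0, f => f = 0
    | N + 1, f => ∃ g, D P c N m *ᵥ g = f := by
  intro N
  induction N with
  | zero =>
    intro m f hf hgood
    show f = 0
    change stack _ _ *ᵥ f = 0 at hf
    rw [stack_mulVec] at hf
    obtain ⟨h1, h2⟩ := append_inj (hf.trans append_zero.symm)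
    have hc : IsCocycle (P m) B 0 (fst ∘ f) := by
      rw [IsCocycle, ← fst_inlM_mulVec (Y := Y), h1]; rfl
    have ha : alpha ((c m).C 0) (fst ∘ f) = 0 := by
      rw [← snd_inrM_mulVec, h2]; rfl
    have h3 : fst ∘ f = 0 := (c m).hom_inj 0 _ hc ha
    exact vec_ext h3 hgood
  | succ N ih =>
    intro m f hf hgood
    obtain ⟨h, t, rfl⟩ := exists_append f
    show ∃ g, D P c N m *ᵥ g = Fin.append h t
    rw [D_mulVec_succ] at hf
    obtain ⟨h1, h2⟩ := append_inj (hf.trans append_zero.symm)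
    have hh : hd P (Fin.append h t : Fin (T P (N + 1) m) → _) = h :=
      funext fun i => Fin.append_left h t i
    rw [hh] at hgood
    obtain ⟨gY, hgY⟩ : ∃ g, lMat ((P m).D N) g = snd ∘ h := hgood
    have h3 : inlM ((P (m + 1)).D N) *ᵥ hd P t
        = inrM ((c m).C (N + 1)) *ᵥ h := by
      show inlM ((P (m + 1)).D N) *ᵥ hd P t = _
      rw [← hd_D_mulVec P c, ← sub_eq_zero.1 h2, hd_put]
    have hc : IsCocycle (P m) B (N + 1) (fst ∘ h) := by
      rw [IsCocycle, ← fst_inlM_mulVec (Y := Y), h1]; rfl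
    have ha : IsCobdry (P (m + 1)) Y (N + 1) (alpha ((c m).C (N + 1)) (fst ∘ h)) := by
      refine ⟨snd ∘ hd P t, ?_⟩
      rw [← snd_inlM_mulVec, ← snd_inrM_mulVec]
      exact congr_arg (snd ∘ ·) h3
    obtain ⟨gB, hgB⟩ : ∃ g, lMat ((P m).D N) g = fst ∘ h := (c m).hom_inj _ _ hc ha
    have hg0 : inlM ((P m).D N) *ᵥ mkV gB gY = h := by
      apply vec_ext
      · rw [fst_inlM_mulVec, fst_mkV, hgB]
      · rw [snd_inlM_mulVec, snd_mkV, hgY]
    -- remove the first block
    set t1 := t - put P (inrM ((c m).C N) *ᵥ mkV gB gY) with ht1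
    have e1 : Fin.append h t - D P c N m *ᵥ put P (mkV gB gY) = Fin.append 0 t1 := by
      rw [D_mulVec_put, hg0]
      funext i
      refine Fin.addCases (fun i => ?_) (fun i => ?_) i <;> simp [ht1]
    have hcomp : ∀ g, D P c (N + 1) m *ᵥ (D P c N m *ᵥ g) = 0 := fun g => by
      rw [Matrix.mulVec_mulVec, D_comp, Matrix.zero_mulVec]
    have hf1 : D P c N (m + 1) *ᵥ t1 = 0 := by
      have e : D P c (N + 1) m *ᵥ Fin.append 0 t1 = 0 := by
        rw [← e1, Matrix.mulVec_sub, hcomp, sub_zero, D_mulVec_succ, hf]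
      rw [D_mulVec_succ] at e
      simp only [Matrix.mulVec_zero, put_zero, zero_sub] at e
      simpa using (append_inj (e.trans append_zero.symm)).2
    have hcy : IsCocycle (P (m + 1)) Y N (snd ∘ hd P t1) := by
      rw [IsCocycle, ← snd_inlM_mulVec, ← hd_D_mulVec P c, hf1]
      funext i
      cases N <;> rfl
    obtain ⟨f0, hf0, hcob⟩ := (c m).hom_surj N _ hcy
    set t2 := t1 - put P (inrM ((c m).C N) *ᵥ mkV f0 0) with ht2
    have hg1 : inlM ((P m).D N) *ᵥ mkV (Y := Y) f0 0 = 0 := by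
      apply vec_ext
      · rw [fst_inlM_mulVec, fst_mkV]; exact hf0
      · rw [snd_inlM_mulVec, snd_mkV]; funext i; simp [lMat]
    have e2 : Fin.append 0 t1 - D P c N m *ᵥ put P (mkV f0 0) = Fin.append 0 t2 := by
      rw [D_mulVec_put, hg1]
      funext i
      refine Fin.addCases (fun i => ?_) (fun i => ?_) i <;> simp [ht2]
    have hf2 : D P c N (m + 1) *ᵥ t2 = 0 := by
      have e : D P c (N + 1) m *ᵥ Fin.append 0 t2 = 0 := by
        rw [← e2, Matrix.mulVec_sub, hcomp, sub_zero, D_mulVec_succ]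
        simp only [Matrix.mulVec_zero, put_zero, hf1, sub_zero, append_zero]
      rw [D_mulVec_succ] at e
      simp only [Matrix.mulVec_zero, put_zero, zero_sub] at e
      simpa using (append_inj (e.trans append_zero.symm)).2
    have hgood2 : IsCobdry (P (m + 1)) Y N (snd ∘ hd P t2) := by
      have e : snd ∘ hd P t2 = snd ∘ hd P t1 - alpha ((c m).C N) f0 := by
        have e' := snd_inrM_mulVec ((c m).C N) (mkV (Y := Y) f0 0)
        rw [fst_mkV] at e'
        have e'' : hd P t2 = hd P t1 - inrM ((c m).C N) *ᵥ mkV f0 0 := by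
          conv_rhs => rw [← hd_put P (inrM ((c m).C N) *ᵥ mkV f0 0)]
          cases N <;> rfl
        rw [e'', ← e']
        funext i
        simp
      rw [e]
      exact hcob
    have h4 := ih (m + 1) t2 hf2 hgood2
    have e3 : Fin.append h t
        = D P c N m *ᵥ (put P (mkV gB gY) + put P (mkV f0 0)) + Fin.append 0 t2 := by
      rw [← e2, ← e1, Matrix.mulVec_add]
      abel
    cases N with
    | zero =>
      have h4' : t2 = 0 := h4
      exact ⟨_, by rw [e3, h4', append_zero, add_zero]⟩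
    | succ N =>
      obtain ⟨g', hg'⟩ : ∃ g, D P c N (m + 1) *ᵥ g = t2 := h4
      have e4 : Fin.append 0 t2 = D P c (N + 1) m *ᵥ Fin.append 0 (-g') := by
        rw [D_mulVec_succ, Matrix.mulVec_zero, Matrix.mulVec_zero, put_zero, Matrix.mulVec_neg,
          hg', zero_sub, neg_neg]
      exact ⟨_, by rw [e3, e4, ← Matrix.mulVec_add]⟩

end Total

section Killed
variable {B : Type} [Ring B] {Y : Type} [AddCommGroup Y] [Module B Y] [Module Bᵐᵒᵖ Y]
  [SMulCommClass B Bᵐᵒᵖ Y] {X : Type} [AddCommGroup X] [Module B X]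
  [Module (TrivSqZeroExt B Y) X] {a b c d : ℕ}

theorem lMat_stack {R : Type} [Ring R] [Module R X] (A : Matrix (Fin a) (Fin c) R)
    (A' : Matrix (Fin b) (Fin c) R) (f : Fin c → X) :
    lMat (stack A A') f = Fin.append (lMat A f) (lMat A' f) := by
  funext i; refine Fin.addCases (fun i => ?_) (fun i => ?_) i <;> simp [lMat]

theorem lMat_beside {R : Type} [Ring R] [Module R X] (A : Matrix (Fin a) (Fin c) R)
    (A' : Matrix (Fin a) (Fin d) R) (f : Fin c → X) (g : Fin d → X) :
    lMat (beside A A') (Fin.append f g) = lMat A f + lMat A' g := by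
  funext i; simp [lMat, beside, Fin.sum_univ_add]

theorem lMat_inlM (hs : ∀ (r : TrivSqZeroExt B Y) (x : X), r • x = r.fst • x)
    (A : Matrix (Fin a) (Fin c) B) (f : Fin c → X) :
    lMat (inlM (Y := Y) A) f = lMat A f := by
  funext i; simp [lMat, hs]

theorem lMat_inrM (hs : ∀ (r : TrivSqZeroExt B Y) (x : X), r • x = r.fst • x)
    (C : Matrix (Fin a) (Fin c) Y) (f : Fin c → X) : lMat (inrM (B := B) C) f = 0 := by
  funext i; simp [lMat, hs]

variable {U : ℕ → Type} [∀ m, AddCommGroup (U m)] [∀ m, Module B (U m)]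
  (P : ∀ m, FreeRes B (U m)) (c : ∀ m, Comparison (P m) (P (m + 1)) Y)

theorem lMat_D_succ (hs : ∀ (r : TrivSqZeroExt B Y) (x : X), r • x = r.fst • x) {N m : ℕ}
    (h : Fin ((P m).n (N + 1)) → X) (t : Fin (T P N (m + 1)) → X) :
    lMat (D P c (N + 1) m) (Fin.append h t)
      = Fin.append (lMat ((P m).D (N + 1)) h) (-lMat (D P c N (m + 1)) t) := by
  show lMat (stack _ _) _ = _
  rw [lMat_stack, lMat_beside, lMat_beside]
  congr 1
  · funext i; simp [lMat, hs]
  · show lMat (stack _ _) h + _ = _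
    rw [lMat_stack, lMat_inrM hs]
    funext i
    refine Fin.addCases (fun i => ?_) (fun i => ?_) i <;>
      simp [lMat, neg_smul, Finset.sum_neg_distrib]

/-- The dual of the total complex into a module killed by the bimodule is exact. -/
theorem hom_killed (hs : ∀ (r : TrivSqZeroExt B Y) (x : X), r • x = r.fst • x)
    (hX : ∀ m n, HomExactAt (P (m + 1)) X n) :
    ∀ N m (f : Fin (T P N m) → X), HomExactAt (P m) X N → lMat (D P c N m) f = 0 →
      match N, f with
      | 0, f => f = 0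
      | N + 1, f => ∃ g, lMat (D P c N m) g = f := by
  intro N
  induction N with
  | zero =>
    intro m f hex hf
    show f = 0
    change lMat (stack _ _) f = 0 at hf
    rw [lMat_stack, lMat_inlM hs] at hf
    exact hex f (append_inj (hf.trans append_zero.symm)).1
  | succ N ih =>
    intro m f hex hf
    obtain ⟨h, t, rfl⟩ := exists_append f
    show ∃ g, lMat (D P c N m) g = Fin.append h t
    rw [lMat_D_succ P c hs] at hf
    obtain ⟨h1, h2⟩ := append_inj (hf.trans append_zero.symm)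
    obtain ⟨g, hg⟩ := hex h h1
    have h4 := ih (m + 1) t (hX m N) (neg_eq_zero.1 h2)
    cases N with
    | zero =>
      have h4' : t = 0 := h4
      refine ⟨g, ?_⟩
      show lMat (stack _ _) g = _
      rw [lMat_stack, lMat_inlM hs, lMat_inrM hs, hg, h4']
    | succ N =>
      obtain ⟨g', hg'⟩ : ∃ g, lMat (D P c N (m + 1)) g = t := h4
      refine ⟨Fin.append g (-g'), ?_⟩
      rw [lMat_D_succ P c hs, hg]
      congr 1
      rw [← hg']
      funext i
      simp [lMat, Finset.sum_neg_distrib]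

end Killed

end Lift

open Lift in
theorem lift_counterexample {k : Type} [Field k] {B : Type} [Ring B] [Algebra k B]
    [Module.Finite k B] (Y : Type) [AddCommGroup Y] [Module B Y] [Module Bᵐᵒᵖ Y]
    [SMulCommClass B Bᵐᵒᵖ Y] [Module k Y] [IsScalarTower k B Y] [IsScalarTower k Bᵐᵒᵖ Y]
    [Module.Finite k Y]
    (U : ℕ → Type) [∀ m, AddCommGroup (U m)] [∀ m, Module B (U m)] [∀ m, Module.Finite B (U m)]
    [Nontrivial (U 0)] (P : ∀ m, FreeRes B (U m))
    (c : ∀ m, Comparison (P m) (P (m + 1)) Y)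
    (hY : ∀ n, EZ B (U 0) Y n)
    (hU : ∀ m n, EZ B (U (m + 1)) (U 0) n) (hU0 : ∀ n, 1 ≤ n → EZ B (U 0) (U 0) n) :
    ARCounterexample k := by
  let π : TrivSqZeroExt B Y →+* B :=
    { toFun := TrivSqZeroExt.fst, map_one' := fst_one, map_mul' := fst_mul, map_zero' := fst_zero
      map_add' := fst_add }
  letI : Module (TrivSqZeroExt B Y) (U 0) := Module.compHom (U 0) π
  have hs : ∀ (r : TrivSqZeroExt B Y) (x : U 0), r • x = r.fst • x := fun r x => rfl
  have hgen : ∀ v : Fin ((P 0).n 0) → TrivSqZeroExt B Y,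
      ∑ j, v j • (P 0).gen j = ∑ j, (fst ∘ v) j • (P 0).gen j := fun v => rfl
  let F : FreeRes (TrivSqZeroExt B Y) (U 0) :=
    { n := fun N => T P N 0
      D := fun N => D P c N 0
      gen := (P 0).gen
      surj := fun u => by
        obtain ⟨v, hv⟩ := (P 0).surj u
        refine ⟨mkV v 0, (hgen _).trans ?_⟩
        rw [fst_mkV, hv]
      exact_zero := fun v => by
        rw [hgen v, (P 0).exact_zero]
        refine ⟨exact_aug P c v, ?_⟩
        rintro ⟨w, rfl⟩
        obtain ⟨x, y, rfl⟩ := exists_append (X := TrivSqZeroExt B Y) w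
        refine ⟨fst ∘ x, ?_⟩
        show _ = fst ∘ (Fin.append x y ᵥ* stack _ _)
        rw [vecMul_stack]
        have e1 := fst_vecMul_inlM (Y := Y) ((P 0).D 0) x
        have e2 := fst_vecMul_inrM ((c 0).C 0) y
        funext i
        have e1' := congr_fun e1 i
        have e2' := congr_fun e2 i
        simp only [Function.comp_apply, Pi.zero_apply] at e1' e2'
        simp [e1', e2']
      exact_succ := fun i v => ⟨exact_total P c i 0 v, by
        rintro ⟨w, rfl⟩
        exact vecMul_D_D P c w⟩ }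
  have hR : ∀ n, EZ (TrivSqZeroExt B Y) (U 0) (TrivSqZeroExt B Y) n := by
    intro n
    rw [ez_iff_homExactAt F]
    have hY' := fun i => (ez_iff_homExactAt (P 0) Y i).1 (hY i)
    have key : ∀ f, D P c n 0 *ᵥ f = 0 → IsCobdry (P 0) Y n (snd ∘ hd P f) := by
      intro f hf
      have h : lMat ((P 0).D n) (snd ∘ hd P f) = 0 := by
        rw [← snd_inlM_mulVec, ← hd_D_mulVec P c, hf]
        funext i
        cases n <;> rfl
      cases n with
      | zero => exact hY' 0 _ h
      | succ n => exact hY' (n + 1) _ h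
    have hl : ∀ {p q : ℕ} (A : Matrix (Fin p) (Fin q) (TrivSqZeroExt B Y)) f,
        lMat A f = A *ᵥ f := fun A f => rfl
    cases n with
    | zero => exact fun f hf => hom_total P c 0 0 f (hl _ f ▸ hf) (key f (hl _ f ▸ hf))
    | succ n =>
      intro f hf
      obtain ⟨g, hg⟩ := hom_total P c (n + 1) 0 f (hl _ f ▸ hf) (key f (hl _ f ▸ hf))
      exact ⟨g, hg⟩
  have hM : ∀ n, 1 ≤ n → EZ (TrivSqZeroExt B Y) (U 0) (U 0) n := by
    intro n hn
    obtain ⟨n, rfl⟩ : ∃ j, n = j + 1 := ⟨n - 1, by omega⟩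
    rw [ez_iff_homExactAt F]
    exact fun f hf => hom_killed P c hs (fun m i => (ez_iff_homExactAt (P (m + 1)) (U 0) i).1
      (hU m i)) (n + 1) 0 f ((ez_iff_homExactAt (P 0) (U 0) _).1 (hU0 _ hn)) hf
  let q : (Fin ((P 0).n 0) → TrivSqZeroExt B Y) →ₗ[TrivSqZeroExt B Y] U 0 :=
    Fintype.linearCombination (TrivSqZeroExt B Y) (P 0).gen
  have hq : Function.Surjective q := fun u => by
    obtain ⟨v, hv⟩ := F.surj u
    exact ⟨v, hv⟩
  have hfin : Module.Finite k (TrivSqZeroExt B Y) := inferInstanceAs (Module.Finite k (B × Y))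
  refine ⟨TrivSqZeroExt B Y, inferInstance, inferInstance, hfin, U 0, inferInstance,
    inferInstance, Module.Finite.of_surjective q hq, fun hP => ?_, fun i hi => ⟨hM i hi, hR i⟩⟩
  obtain ⟨s, hs'⟩ := Module.projective_lifting_property q LinearMap.id hq
  have h0 : ∀ φ : U 0 →ₗ[TrivSqZeroExt B Y] TrivSqZeroExt B Y, φ = 0 := fun φ => by
    have : Subsingleton (Ext (ModuleCat.of (TrivSqZeroExt B Y) (U 0))
      (ModuleCat.of (TrivSqZeroExt B Y) (TrivSqZeroExt B Y)) 0) := hR 0
    have h1 := (Ext.homEquiv₀ (X := ModuleCat.of (TrivSqZeroExt B Y) (U 0))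
      (Y := ModuleCat.of (TrivSqZeroExt B Y) (TrivSqZeroExt B Y))).symm.injective.subsingleton
    exact congr_arg ModuleCat.Hom.hom (h1.elim (ModuleCat.ofHom φ) 0)
  obtain ⟨x, hx⟩ := exists_ne (0 : U 0)
  apply hx
  have h1 : s x = 0 := funext fun j => LinearMap.congr_fun (h0 ((LinearMap.proj j).comp s)) x
  rw [← LinearMap.id_apply (R := TrivSqZeroExt B Y) x, ← hs', LinearMap.comp_apply, h1, map_zero]

end Vale.Agent.P195D
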