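import Vale.Agent.P195D.MutPres

/-!
Acyclicity of `W ⊗_B P` from that of `Hom_B(P, W*)`.
-/

namespace Vale.Agent.P195D

open MulOpposite Matrix

variable {k : Type} [Field k] {B : Type} [Ring B] [Algebra k B]
variable {U : Type} [AddCommGroup U] [Module B U] (P : FreeRes B U)
variable {W : Type} [AddCommGroup W] [Module k W] [Module Bᵐᵒᵖ W] [IsScalarTower k Bᵐᵒᵖ W]
  [SMulCommClass Bᵐᵒᵖ k W]

/-- `v ↦ v D`, linear over the ground field. -/
def rMatK {p q : ℕ} (D : Matrix (Fin p) (Fin q) B) : (Fin p → W) →ₗ[k] (Fin q → W) where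
  toFun := rMat D
  map_add' := rMat_add D
  map_smul' c v := by
    funext j
    show ∑ i, op (D i j) • (c • v i) = c • ∑ i, op (D i j) • v i
    rw [Finset.smul_sum]
    exact Finset.sum_congr rfl fun i _ => smul_comm _ _ _

/-- Evaluation, additive in the functional. -/
def evalHom : RDual k W →+ (W →ₗ[k] k) :=
  AddMonoidHom.mk' (RDual.eval k W) fun _ _ => rfl

/-- Pairing of a vector of functionals with a vector. -/
def pairVec {p : ℕ} (ξ : Fin p → RDual k W) (v : Fin p → W) : k :=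
  ∑ t, RDual.eval k W (ξ t) (v t)

theorem pairVec_lMat {p q : ℕ} (D : Matrix (Fin p) (Fin q) B) (g : Fin q → RDual k W)
    (v : Fin p → W) : pairVec (lMat D g) v = pairVec g (rMat D v) := by
  have e : ∀ s, RDual.eval k W (lMat D g s) (v s) =
      ∑ t, RDual.eval k W (g t) (op (D s t) • v s) := fun s => by
    show evalHom (∑ t, D s t • g t) (v s) = _
    rw [map_sum, LinearMap.sum_apply]
    rfl
  simp only [pairVec, rMat, e, map_sum]
  exact Finset.sum_comm

theorem exists_pairVec {p : ℕ} (F : (Fin p → W) →ₗ[k] k) :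
    ∃ ξ : Fin p → RDual k W, ∀ v, pairVec ξ v = F v := by
  refine ⟨fun t => (F.comp (LinearMap.single k (fun _ => W) t) : W →ₗ[k] k), fun v => ?_⟩
  conv_rhs => rw [← Finset.univ_sum_single v, map_sum]
  rfl

theorem pairVec_eq_zero {p : ℕ} (ξ : Fin p → RDual k W) (h : ∀ v, pairVec ξ v = 0) : ξ = 0 := by
  funext t
  refine LinearMap.ext fun y => ?_
  have := h (Pi.single t y)
  simp only [pairVec] at this
  rw [Finset.sum_eq_single t (fun b _ hb => by simp [Pi.single_eq_of_ne hb])
    (fun h => absurd (Finset.mem_univ t) h), Pi.single_eq_same] at this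
  exact this

theorem tac_of_dual (h : ∀ n, HomExactAt P (RDual k W) n) : TAc P W := by
  have key : ∀ (i : ℕ) (v : Fin (P.n i) → W),
      (∀ ξ, lMat (P.D i) ξ = 0 → pairVec (k := k) ξ v = 0) → ∃ w, rMat (P.D i) w = v := by
    intro i v hv
    by_contra hne
    obtain ⟨F, hFv, hF⟩ := Submodule.exists_le_ker_of_notMem
      (p := LinearMap.range (rMatK (k := k) (W := W) (P.D i))) (v := v)
      (fun hm => hne hm)
    obtain ⟨ξ, hξ⟩ := exists_pairVec F
    refine hFv ((hξ v).symm.trans (hv ξ (pairVec_eq_zero _ fun w => ?_)))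
    rw [pairVec_lMat, hξ]
    exact hF ⟨w, rfl⟩
  refine ⟨fun i v hv => key (i + 1) v fun ξ hξ => ?_, fun v => key 0 v fun ξ hξ => ?_⟩
  · obtain ⟨g, rfl⟩ := h (i + 1) ξ hξ
    rw [pairVec_lMat, hv]
    simp [pairVec]
  · rw [h 0 ξ hξ]
    exact Finset.sum_eq_zero fun t _ => rfl

end Vale.Agent.P195D
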