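import Vale.Agent.P195D.MutExt

/-!
The first step of the mutation: `G` extended by `Ω ⊗ V`, and the classes of extensions by it.
-/

namespace Vale.Agent.P195D

open MulOpposite LinearMap TensorProduct

variable {k : Type} [Field k] {B : Type} [Ring B] [Algebra k B]
variable {U₀ : Type} [AddCommGroup U₀] [Module B U₀] [Module k U₀] [IsScalarTower k B U₀]
variable {F : Type} [AddCommGroup F] [Module B F] [Module k F] [IsScalarTower k B F]
variable {Q : Type} [AddCommGroup Q] [Module B Q] [Module k Q] [IsScalarTower k B Q]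
variable (π : F →ₗ[B] U₀) (d : Q →ₗ[B] F) (hd : Function.Exact d π)
variable {G : Type} [AddCommGroup G] [Module B G] [Module Bᵐᵒᵖ G] [SMulCommClass B Bᵐᵒᵖ G]
  [Module k G] [IsScalarTower k B G] [IsScalarTower k Bᵐᵒᵖ G]
variable {V : Type} [AddCommGroup V] [Module Bᵐᵒᵖ V] [Module k V] [IsScalarTower k Bᵐᵒᵖ V]
variable (w : V →ₗ[k] ker d →ₗ[B] G)
  (hw : ∀ (b : B) ρ x, w (op b • ρ) x = op b • w ρ x)

/-- The differential, into the kernel of the cover. -/
def dbar : Q →ₗ[B] ker π := d.codRestrict _ fun x => hd.apply_apply_eq_zero x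

theorem dbar_surjective : Function.Surjective (dbar π d hd) := fun x => by
  obtain ⟨y, hy⟩ := (hd x.1).1 x.2
  exact ⟨y, Subtype.ext hy⟩

theorem exact_dbar : Function.Exact (ker d).subtype (dbar π d hd) := fun x =>
  ⟨fun hx => ⟨⟨x, congrArg Subtype.val hx⟩, rfl⟩, fun ⟨y, hy⟩ => Subtype.ext (by
    rw [← hy]; exact y.2)⟩

/-- The relations of the first step. -/
noncomputable def fRel : BiMap B (ker d ⊗[k] V) (G × (Q ⊗[k] V)) where
  lin := (tenLift (k := k) w).prod (-tenMap (k := k) V (ker d).subtype)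
  rlin b a := by
    have h1 := tenLift_op (k := k) w hw b a
    have h2 := tenMap_op (k := k) (V := V) (ker d).subtype b a
    simp only [LinearMap.prod_apply, Function.prod, LinearMap.neg_apply, h1, h2, Prod.smul_mk,
      smul_neg]

/-- The first step of the mutation. -/
abbrev FExt : Type := Cok (fRel d w hw)

/-- The inclusion of `G`. -/
noncomputable def fInc : G →ₗ[B] FExt d w hw := (Cok.proj _).comp (LinearMap.inl B _ _)

/-- The class of `q ⊗ ρ`. -/
noncomputable def fTen (ρ : V) : Q →ₗ[B] FExt d w hw :=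
  (Cok.proj _).comp ((LinearMap.inr B _ _).comp (tmulR (k := k) Q V ρ))

theorem fRel_apply (t : ker d ⊗[k] V) :
    (fRel d w hw).lin t = (tenLift (k := k) w t, -(tenMap (k := k) V (ker d).subtype t)) := rfl

theorem fInc_op (b : B) (y : G) : fInc d w hw (op b • y) = op b • fInc d w hw y := by
  show Cok.proj _ (op b • y, (0 : Q ⊗[k] V)) = op b • Cok.proj _ (y, 0)
  rw [Cok.op_smul_proj, Prod.smul_mk, smul_zero]

theorem fInc_injective : Function.Injective (fInc d w hw) := by
  refine (injective_iff_map_eq_zero _).2 fun y hy => ?_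
  have hy' : Cok.proj (fRel d w hw) (y, 0) = 0 := hy
  obtain ⟨t, ht⟩ := (Cok.proj_eq_zero (fRel d w hw) (y, 0)).1 hy'
  rw [fRel_apply] at ht
  have h0 : tenMap (k := k) V (ker d).subtype t = 0 := neg_eq_zero.1 (congrArg Prod.snd ht)
  have : t = 0 := tenMap_injective _ Subtype.val_injective (h0.trans (map_zero _).symm)
  rw [this, map_zero] at ht
  exact (congrArg Prod.fst ht).symm

theorem fTen_ker (ρ : V) (x : ker d) : fTen d w hw ρ x.1 = fInc d w hw (w ρ x) := by
  show Cok.proj (fRel d w hw) (0, x.1 ⊗ₜ[k] ρ) = Cok.proj (fRel d w hw) (w ρ x, 0)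
  refine (Cok.proj_eq_iff _ _ _).2 ⟨-(x ⊗ₜ[k] ρ), ?_⟩
  rw [fRel_apply, map_neg, map_neg, tenLift_tmul, tenMap_tmul, neg_neg]
  simp

/-- The projection of the first step. -/
noncomputable def fQuot : FExt d w hw →ₗ[B] ker π ⊗[k] V :=
  (LinearMap.range (fRel d w hw).lin).liftQ
    ((tenMap (k := k) V (dbar π d hd)).comp (LinearMap.snd B _ _)) (by
      rintro _ ⟨t, rfl⟩
      rw [LinearMap.mem_ker, LinearMap.comp_apply, LinearMap.snd_apply, fRel_apply]
      show tenMap (k := k) V (dbar π d hd) (-(tenMap (k := k) V (ker d).subtype t)) = 0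
      rw [map_neg, neg_eq_zero]
      exact (tenMap_exact (k := k) (V := V) _ _ (exact_dbar π d hd)
        (dbar_surjective π d hd)).apply_apply_eq_zero t)

theorem fQuot_proj (z : G × (Q ⊗[k] V)) :
    fQuot π d hd w hw (Cok.proj _ z) = tenMap (k := k) V (dbar π d hd) z.2 := rfl

theorem fQuot_fTen (ρ : V) (q : Q) :
    fQuot π d hd w hw (fTen d w hw ρ q) = dbar π d hd q ⊗ₜ[k] ρ := rfl

theorem fQuot_op (b : B) (z : FExt d w hw) :
    fQuot π d hd w hw (op b • z) = op b • fQuot π d hd w hw z := by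
  obtain ⟨y, rfl⟩ := Cok.proj_surjective _ z
  rw [Cok.op_smul_proj, fQuot_proj, fQuot_proj]
  exact tenMap_op (k := k) (V := V) _ b y.2

theorem fQuot_surjective : Function.Surjective (fQuot π d hd w hw) := fun z => by
  obtain ⟨t, ht⟩ := tenMap_surjective (k := k) (V := V) _ (dbar_surjective π d hd) z
  exact ⟨Cok.proj _ (0, t), ht⟩

theorem fQuot_exact : Function.Exact (fInc d w hw) (fQuot π d hd w hw) := by
  intro z
  constructor
  · intro hz
    obtain ⟨⟨y, t⟩, rfl⟩ := Cok.proj_surjective _ z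
    obtain ⟨s, hs⟩ := ((tenMap_exact (k := k) (V := V) _ _ (exact_dbar π d hd)
      (dbar_surjective π d hd)) t).1 hz
    refine ⟨y + tenLift (k := k) w s, ?_⟩
    show Cok.proj (fRel d w hw) (_, (0 : Q ⊗[k] V)) = _
    refine (Cok.proj_eq_iff _ _ _).2 ⟨s, ?_⟩
    rw [fRel_apply, hs]
    simp
  · rintro ⟨y, rfl⟩
    exact map_zero (tenMap (k := k) V (dbar π d hd))

/-- The elements whose class lifts. -/
def liftSub : Submodule Bᵐᵒᵖ V where
  carrier := {ρ | ∃ ψ : Q →ₗ[B] G, ∀ x, w ρ x = ψ x.1}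
  add_mem' := by
    rintro a b ⟨ψ, hψ⟩ ⟨χ, hχ⟩
    exact ⟨ψ + χ, fun x => by simp [hψ, hχ]⟩
  zero_mem' := ⟨0, fun x => by simp⟩
  smul_mem' := by
    rintro b ρ ⟨ψ, hψ⟩
    exact ⟨b • ψ, fun x => by
      show w (op (unop b) • ρ) x = _
      rw [hw, hψ]; rfl⟩

variable (P : FreeRes B U₀) (hπ : Function.Surjective π)

include hπ in
theorem coord_exists [Module.Projective B F] (h1 : HomExactAt P F 1)
    (hEnd : ∀ f : U₀ →ₗ[B] U₀, ∃ c : k, ∀ u, f u = c • u) [Module.Finite k V]
    (χ : ker π →ₗ[B] ker π ⊗[k] V) :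
    ∃ (ρ : V) (g : F →ₗ[B] ker π ⊗[k] V), ∀ x, χ x = x ⊗ₜ[k] ρ + g x.1 := by
  obtain ⟨r, bV, e, he, hev⟩ := ten_coord_right (k := k) (B := B) (X := ker π) (V := V)
  have key : ∀ i, ∃ (c : k) (g : F →ₗ[B] ker π), ∀ x, e (χ x) i = c • x + g x.1 := by
    intro i
    obtain ⟨g, hg⟩ := (homExact_one_iff P π hπ).1 h1
      ((ker π).subtype.comp ((LinearMap.proj i).comp (e.comp χ)))
    obtain ⟨η, hη⟩ := exists_factor_surj π hπ (π.comp g) fun x hx => by
      rw [LinearMap.mem_ker, LinearMap.comp_apply, hg ⟨x, hx⟩]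
      exact (e (χ ⟨x, hx⟩) i).2
    obtain ⟨c, hc⟩ := hEnd η
    refine ⟨c, (g - c • LinearMap.id).codRestrict _ fun y => ?_, fun x => Subtype.ext ?_⟩
    · show (e (χ x) i : F) = c • x.1 + (g x.1 - c • x.1)
      rw [add_sub_cancel]
      exact (hg x).symm
    · have := hη y
      rw [hc, LinearMap.comp_apply] at this
      rw [LinearMap.mem_ker, LinearMap.sub_apply, map_sub, LinearMap.smul_apply,
        LinearMap.id_apply, LinearMap.map_smul_of_tower, this, sub_self]
  choose c g hg using key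
  refine ⟨∑ i, c i • bV i, (LinearEquiv.ofBijective e he).symm.toLinearMap.comp
    (LinearMap.pi g), fun x => he.1 (funext fun i => ?_)⟩
  have h2 : e ((LinearEquiv.ofBijective e he).symm (LinearMap.pi g x.1)) = LinearMap.pi g x.1 :=
    (LinearEquiv.ofBijective e he).apply_symm_apply _
  rw [hg, map_add, Pi.add_apply, LinearMap.comp_apply, LinearEquiv.coe_coe, h2, hev,
    LinearMap.pi_apply, map_sum, Finset.sum_apply']
  simp [Module.Basis.repr_self, Finsupp.single_apply]

include hπ in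
theorem coord_unique [Nontrivial U₀] (h0 : HomExactAt P F 0) [Module.Finite k V]
    (ρ : V) (g : F →ₗ[B] ker π ⊗[k] V) (hg : ∀ x : ker π, x ⊗ₜ[k] ρ = g x.1) : ρ = 0 := by
  obtain ⟨r, bV, e, he, hev⟩ := ten_coord_right (k := k) (B := B) (X := ker π) (V := V)
  by_contra hρ
  obtain ⟨i, hi⟩ : ∃ i, bV.repr ρ i ≠ 0 := by
    by_contra hall
    push Not at hall
    exact hρ (bV.ext_elem fun i => by rw [hall i, map_zero]; rfl)
  let g' : F →ₗ[B] F := (bV.repr ρ i)⁻¹ • ((ker π).subtype.comp ((LinearMap.proj i).comp (e.comp g)))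
  obtain ⟨η, hη⟩ := exists_factor_surj π hπ (LinearMap.id - g') fun x hx => by
    have := congrArg (fun z => (e z i : F)) (hg ⟨x, hx⟩)
    rw [hev] at this
    simp only [SetLike.val_smul] at this
    rw [LinearMap.mem_ker, LinearMap.sub_apply, LinearMap.id_apply, sub_eq_zero]
    show x = (bV.repr ρ i)⁻¹ • (e (g x) i : F)
    rw [← this]
    exact (inv_smul_smul₀ hi x).symm
  rw [(homExact_zero_iff P).1 h0 η] at hη
  obtain ⟨u, hu⟩ := exists_ne (0 : U₀)
  obtain ⟨y, rfl⟩ := hπ u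
  refine hu ?_
  have hy : y = g' y := sub_eq_zero.1 (hη y).symm
  rw [hy]
  show π ((bV.repr ρ i)⁻¹ • (e (g y) i : F)) = 0
  rw [LinearMap.map_smul_of_tower, LinearMap.mem_ker.1 (e (g y) i).2, smul_zero]

include hπ hd in
theorem exists_theta [Module.Projective B F] [Module.Projective B Q] [Nontrivial U₀]
    [Module.Finite k V] (h0 : HomExactAt P F 0) (h1 : HomExactAt P F 1)
    (hG1 : HomExactAt P G 1) (hEnd : ∀ f : U₀ →ₗ[B] U₀, ∃ c : k, ∀ u, f u = c • u) :
    ∃ θ : ExtCls π (FExt d w hw) →ₗ[Bᵐᵒᵖ] V,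
      Function.Injective θ ∧ Function.Exact θ (liftSub d w hw).mkQ := by
  let R : (ker π →ₗ[B] FExt d w hw) → V → Prop := fun f ρ =>
    ∃ g : F →ₗ[B] ker π ⊗[k] V, ∀ x, fQuot π d hd w hw (f x) = x ⊗ₜ[k] ρ + g x.1
  have hex : ∀ f, ∃ ρ, R f ρ := fun f => coord_exists π P hπ h1 hEnd ((fQuot π d hd w hw).comp f)
  have huni : ∀ f ρ σ, R f ρ → R f σ → ρ = σ := fun f ρ σ ⟨a, ha⟩ ⟨c, hc⟩ =>
    sub_eq_zero.1 (coord_unique π P hπ h0 (ρ - σ) (c - a) fun x => by
      rw [TensorProduct.tmul_sub, LinearMap.sub_apply, sub_eq_sub_iff_add_eq_add, ← ha, hc,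
        add_comm])
  choose θ₀ hθ₀ using hex
  let θ' : (ker π →ₗ[B] FExt d w hw) →ₗ[Bᵐᵒᵖ] V :=
    { toFun := θ₀
      map_add' := fun f f' => by
        obtain ⟨a, ha⟩ := hθ₀ f
        obtain ⟨c, hc⟩ := hθ₀ f'
        refine huni (f + f') _ _ (hθ₀ _) ⟨a + c, fun x => ?_⟩
        rw [LinearMap.add_apply, map_add, ha, hc, TensorProduct.tmul_add, LinearMap.add_apply]
        abel
      map_smul' := fun b f => by
        obtain ⟨a, ha⟩ := hθ₀ f
        refine huni (b • f) _ _ (hθ₀ _) ⟨b • a, fun x => ?_⟩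
        show fQuot π d hd w hw (op (unop b) • f x) = _
        rw [fQuot_op, ha, smul_add]
        rfl }
  have hres : LinearMap.range (resMap π (FExt d w hw)) ≤ LinearMap.ker θ' := by
    rintro _ ⟨g, rfl⟩
    refine huni _ _ _ (hθ₀ _) ⟨(fQuot π d hd w hw).comp g, fun x => ?_⟩
    rw [TensorProduct.tmul_zero, zero_add]; rfl
  refine ⟨(LinearMap.range (resMap π (FExt d w hw))).liftQ θ' hres, ?_, ?_⟩
  · refine (injective_iff_map_eq_zero _).2 fun z hz => ?_
    obtain ⟨f, rfl⟩ := Submodule.mkQ_surjective _ z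
    obtain ⟨g, hg⟩ := hθ₀ f
    have hz' : θ₀ f = 0 := hz
    rw [hz'] at hg
    obtain ⟨g', hg'⟩ := Module.projective_lifting_property _ g (fQuot_surjective π d hd w hw)
    obtain ⟨φ, hφ⟩ := exists_lift_of_injective _ _ (fInc_injective d w hw)
      (fQuot_exact π d hd w hw) (f - g'.comp (ker π).subtype) (fun x => by
        rw [LinearMap.sub_apply, map_sub, hg, TensorProduct.tmul_zero, zero_add,
          LinearMap.comp_apply, Submodule.subtype_apply,
          show fQuot π d hd w hw (g' x.1) = g x.1 from DFunLike.congr_fun hg' x.1, sub_self])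
    obtain ⟨ψ, hψ⟩ := (homExact_one_iff P π hπ).1 hG1 φ
    refine (Submodule.Quotient.mk_eq_zero _).2 ⟨g' + (fInc d w hw).comp ψ, LinearMap.ext fun x => ?_⟩
    rw [resMap_apply, LinearMap.add_apply, LinearMap.comp_apply, hψ, hφ, LinearMap.sub_apply,
      LinearMap.comp_apply, Submodule.subtype_apply, add_sub_cancel]
  · intro ρ
    constructor
    · intro hρ
      obtain ⟨ψ, hψ⟩ := (Submodule.Quotient.mk_eq_zero (liftSub d w hw)).1 hρ
      obtain ⟨f, hf⟩ := exists_factor_surj (dbar π d hd) (dbar_surjective π d hd)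
        (fTen d w hw ρ - (fInc d w hw).comp ψ) (fun q hq => by
          have hq' : q ∈ ker d := congrArg Subtype.val (LinearMap.mem_ker.1 hq)
          rw [LinearMap.mem_ker, LinearMap.sub_apply, LinearMap.comp_apply, sub_eq_zero,
            ← hψ ⟨q, hq'⟩]
          exact fTen_ker d w hw ρ ⟨q, hq'⟩)
      refine ⟨Submodule.Quotient.mk f, huni f _ _ (hθ₀ f) ⟨0, fun x => ?_⟩⟩
      obtain ⟨q, rfl⟩ := dbar_surjective π d hd x
      rw [hf, LinearMap.sub_apply, map_sub, fQuot_fTen, LinearMap.comp_apply,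
        (fQuot_exact π d hd w hw).apply_apply_eq_zero, sub_zero, LinearMap.zero_apply, add_zero]
    · rintro ⟨z, rfl⟩
      obtain ⟨f, rfl⟩ := Submodule.mkQ_surjective _ z
      refine (Submodule.Quotient.mk_eq_zero (liftSub d w hw)).2 ?_
      show θ₀ f ∈ liftSub d w hw
      obtain ⟨g, hg⟩ := hθ₀ f
      obtain ⟨g', hg'⟩ := Module.projective_lifting_property _ g (fQuot_surjective π d hd w hw)
      obtain ⟨ψ, hψ⟩ := exists_lift_of_injective _ _ (fInc_injective d w hw)
        (fQuot_exact π d hd w hw)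
        (fTen d w hw (θ₀ f) - (f - g'.comp (ker π).subtype).comp (dbar π d hd)) (fun q => by
          rw [LinearMap.sub_apply, map_sub, fQuot_fTen, LinearMap.comp_apply, LinearMap.sub_apply,
            map_sub, hg, LinearMap.comp_apply, Submodule.subtype_apply,
            show fQuot π d hd w hw (g' (dbar π d hd q).1) = g (dbar π d hd q).1 from
              DFunLike.congr_fun hg' _, add_sub_cancel_right, sub_self])
      refine ⟨ψ, fun x => fInc_injective d w hw ?_⟩
      have hx0 : dbar π d hd x.1 = 0 := Subtype.ext x.2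
      rw [hψ, LinearMap.sub_apply, LinearMap.comp_apply, hx0, map_zero, sub_zero, fTen_ker]

include hπ hd in
theorem fExt_homExact_two [Module.Projective B F] [Module.Projective B Q] [Module.Finite k V]
    (hO : HomExactAt P (ker π ⊗[k] V) 2)
    (hW : ∀ φ : ker d →ₗ[B] G, ∃ (ρ : V) (ψ : Q →ₗ[B] G), ∀ x, φ x = w ρ x + ψ x.1) :
    HomExactAt P (FExt d w hw) 2 := by
  refine (homExact_two_iff P π hπ d hd).2 fun f => ?_
  obtain ⟨g, hg⟩ := (homExact_two_iff P π hπ d hd).1 hO ((fQuot π d hd w hw).comp f)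
  obtain ⟨g', hg'⟩ := Module.projective_lifting_property _ g (fQuot_surjective π d hd w hw)
  obtain ⟨φ, hφ⟩ := exists_lift_of_injective _ _ (fInc_injective d w hw)
    (fQuot_exact π d hd w hw) (f - g'.comp (ker d).subtype) (fun x => by
      rw [LinearMap.sub_apply, map_sub, LinearMap.comp_apply, Submodule.subtype_apply,
        show fQuot π d hd w hw (g' x.1) = g x.1 from DFunLike.congr_fun hg' x.1, hg x,
        LinearMap.comp_apply, sub_self])
  obtain ⟨ρ, ψ, hρ⟩ := hW φ
  refine ⟨g' + (fTen d w hw ρ + (fInc d w hw).comp ψ), fun x => ?_⟩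
  rw [LinearMap.add_apply, LinearMap.add_apply, fTen_ker, LinearMap.comp_apply, ← map_add, ← hρ,
    hφ, LinearMap.sub_apply, LinearMap.comp_apply, Submodule.subtype_apply, add_sub_cancel]

end Vale.Agent.P195D
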