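import Vale.Agent.P195D.Homology
import Vale.Agent.P195D.MutFirst
import Vale.Agent.P195D.MutDual

/-!
The mutation `Y` of a bimodule `G` at the first module of the orbit.
-/

namespace Vale.Agent.P195D

open CategoryTheory Abelian MulOpposite Matrix TensorProduct

variable {k : Type} [Field k] {B : Type} [Ring B] [Algebra k B] [Module.Finite k B]

/-- The left ideal `B e`. -/
abbrev col (e : B) : Submodule B B := Submodule.span B {e}

theorem mem_col {e : B} (he : e * e = e) {b : B} : b ∈ col e ↔ b * e = b := by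
  rw [Submodule.mem_span_singleton]
  exact ⟨fun ⟨a, ha⟩ => by rw [← ha, smul_eq_mul, mul_assoc, he], fun hb => ⟨b, hb⟩⟩

theorem col_projective {e : B} (he : e * e = e) : Module.Projective B (col e) :=
  Module.Projective.of_split (col e).subtype
    ((LinearMap.toSpanSingleton B B e).codRestrict (col e) fun b =>
      Submodule.smul_mem _ b (Submodule.mem_span_singleton_self e))
    (LinearMap.ext fun x => Subtype.ext ((mem_col he).1 x.2))

theorem mem_row {h : B} (hh : h * h = h) {b : B} :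
    b ∈ Submodule.span Bᵐᵒᵖ {h} ↔ h * b = b := by
  rw [Submodule.mem_span_singleton]
  exact ⟨fun ⟨a, ha⟩ => by rw [← ha, op_smul_eq_mul' a h, ← mul_assoc, hh],
    fun hb => ⟨op b, hb⟩⟩
  where op_smul_eq_mul' (a : Bᵐᵒᵖ) (x : B) : a • x = x * unop a := rfl

theorem tac_row {h : B} (hh : h * h = h) {U : Type} [AddCommGroup U] [Module B U]
    (hU : ∀ x : U, h • x = 0) (P : FreeRes B U) : TAc P (Submodule.span Bᵐᵒᵖ {h}) := by
  have hfix : ∀ {p : ℕ} (v : Fin p → Submodule.span Bᵐᵒᵖ {h}),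
      h • (fun t => (v t : B)) = fun t => (v t : B) :=
    fun v => funext fun t => (mem_row hh).1 (v t).2
  have hcoe : ∀ {p q : ℕ} (D : Matrix (Fin p) (Fin q) B) (v : Fin p → Submodule.span Bᵐᵒᵖ {h}),
      (fun t => (rMat D v t).1) = (fun t => (v t : B)) ᵥ* D := fun D v => funext fun t => by
    simp [rMat, vecMul, dotProduct]
  have key : ∀ (i : ℕ) (v : Fin (P.n i) → Submodule.span Bᵐᵒᵖ {h}),
      (∃ w, w ᵥ* P.D i = fun t => (v t : B)) → ∃ w, rMat (P.D i) w = v := by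
    rintro i v ⟨w, hw⟩
    refine ⟨fun t => ⟨h * w t, (mem_row hh).2 (by rw [← mul_assoc, hh])⟩,
      funext fun t => Subtype.ext ?_⟩
    refine (congrFun (hcoe (P.D i) _) t).trans ?_
    show ((h • w) ᵥ* P.D i) t = _
    rw [smul_vecMul, hw, hfix]
  refine ⟨fun i v hv => key (i + 1) v ((P.exact_succ i _).1 ?_),
    fun v => key 0 v ((P.exact_zero _).1 ?_)⟩
  · rw [← hcoe, hv]; rfl
  · refine Finset.sum_eq_zero fun t _ => ?_
    rw [← (mem_row hh).1 (v t).2, mul_smul, hU]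

theorem homExact_ker {U U₀ F : Type} [AddCommGroup U] [Module B U] [AddCommGroup U₀] [Module B U₀]
    [AddCommGroup F] [Module B F] (P : FreeRes B U) (π : F →ₗ[B] U₀) (hπ : Function.Surjective π)
    (hF : ∀ n, HomExactAt P F n) (n : ℕ)
    (hU : ∀ i, n = i + 1 → HomExactAt P U₀ i) : HomExactAt P (LinearMap.ker π) n := by
  have hex : Function.Exact (LinearMap.ker π).subtype π := fun x =>
    ⟨fun hx => ⟨⟨x, hx⟩, rfl⟩, fun ⟨w, hw⟩ => hw ▸ w.2⟩
  cases n with
  | zero => exact homExact_left_zero P (LinearMap.ker π).subtype Subtype.val_injective (hF 0)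
  | succ i => exact homExact_left_succ P (LinearMap.ker π).subtype π Subtype.val_injective hex hπ i (hF _) (hU i rfl)

theorem tac_lift (h : B) (hh : h * h = h) (I : Submodule Bᵐᵒᵖ (Submodule.span Bᵐᵒᵖ {h}))
    {U : Type} [AddCommGroup U] [Module B U] (P : FreeRes B U)
    (S : Submodule B (RDual k B))
    (hS : ∀ ξ, ξ ∈ S ↔ (∀ ρ, RDual.eval k B ξ ((1 - h) * ρ) = 0) ∧
      ∀ x ∈ I, RDual.eval k B ξ (x : B) = 0)
    (hH : ∀ n, HomExactAt P S n) :
    TAc P (Submodule.span Bᵐᵒᵖ {h} ⧸ I) := by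
  let E : B →ₗ[k] Submodule.span Bᵐᵒᵖ {h} ⧸ I :=
    { toFun := fun ρ => Submodule.Quotient.mk ⟨h * ρ, (mem_row hh).2 (by rw [← mul_assoc, hh])⟩
      map_add' := fun a b => by
        rw [← Submodule.Quotient.mk_add]
        exact congrArg _ (Subtype.ext (mul_add h a b))
      map_smul' := fun c a => by
        rw [RingHom.id_apply, ← Submodule.Quotient.mk_smul]
        exact congrArg _ (Subtype.ext (mul_smul_comm c h a)) }
  have hE : ∀ x : Submodule.span Bᵐᵒᵖ {h}, E x.1 = Submodule.Quotient.mk x := fun x =>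
    congrArg Submodule.Quotient.mk (Subtype.ext ((mem_row hh).1 x.2))
  let f : RDual k (Submodule.span Bᵐᵒᵖ {h} ⧸ I) →ₗ[B] S :=
    { toFun := fun ξ => ⟨((RDual.eval k _ ξ).comp E : B →ₗ[k] k), (hS _).2 ⟨fun ρ => by
          show RDual.eval k _ ξ (E ((1 - h) * ρ)) = 0
          rw [show E ((1 - h) * ρ) = 0 from (Submodule.Quotient.mk_eq_zero I).2 (by
            convert I.zero_mem
            show h * ((1 - h) * ρ) = 0
            rw [← mul_assoc, mul_sub, mul_one, hh, sub_self, zero_mul]), map_zero],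
        fun x hx => by
          show RDual.eval k _ ξ (E x.1) = 0
          rw [hE, (Submodule.Quotient.mk_eq_zero I).2 hx, map_zero]⟩⟩
      map_add' := fun a b => Subtype.ext (LinearMap.ext fun ρ => rfl)
      map_smul' := fun b a => Subtype.ext (LinearMap.ext fun ρ => by
        show RDual.eval k _ a (op b • E ρ) = RDual.eval k _ a (E (ρ * b))
        congr 1
        exact congrArg Submodule.Quotient.mk (Subtype.ext (mul_assoc h ρ b))) }
  refine tac_of_dual (k := k) P fun n => homExact_pi P (ι := Unit)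
    (LinearMap.pi fun _ => f) ⟨fun a c hac => ?_, fun g => ?_⟩ n (hH n)
  · refine LinearMap.ext fun z => ?_
    obtain ⟨x, rfl⟩ := Submodule.Quotient.mk_surjective I z
    rw [← hE]
    have h1 : RDual.eval k B (f a).1 x.1 = RDual.eval k B (f c).1 x.1 := by
      rw [show f a = f c from congrFun hac ()]
    exact h1
  · obtain ⟨hξ1, hξ2⟩ := (hS _).1 (g ()).2
    let η : Submodule.span Bᵐᵒᵖ {h} ⧸ I →ₗ[k] k :=
      ((I.restrictScalars k).liftQ ((RDual.eval k B (g ()).1).comp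
        ((Submodule.span Bᵐᵒᵖ {h}).subtype.restrictScalars k)) fun x hx => hξ2 x hx).comp
        (Submodule.Quotient.restrictScalarsEquiv k I).symm.toLinearMap
    refine ⟨η, funext fun _ => Subtype.ext (LinearMap.ext fun ρ => ?_)⟩
    show RDual.eval k B (g ()).1 (h * ρ) = RDual.eval k B (g ()).1 ρ
    have := hξ1 ρ
    rw [sub_mul, one_mul, map_sub, sub_eq_zero] at this
    exact this.symm

section core
variable {U₀ : Type} [AddCommGroup U₀] [Module B U₀] [Module k U₀] [IsScalarTower k B U₀]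
  [Nontrivial U₀]
variable {F : Type} [AddCommGroup F] [Module B F] [Module k F] [IsScalarTower k B F]
  [Module.Finite k F] [Module.Projective B F]
variable {Q : Type} [AddCommGroup Q] [Module B Q] [Module k Q] [IsScalarTower k B Q]
  [Module.Finite k Q] [Module.Projective B Q]
variable {G : Type} [AddCommGroup G] [Module B G] [Module Bᵐᵒᵖ G] [SMulCommClass B Bᵐᵒᵖ G]
  [Module k G] [IsScalarTower k B G] [IsScalarTower k Bᵐᵒᵖ G] [Module.Finite k G]
variable {V : Type} [AddCommGroup V] [Module Bᵐᵒᵖ V] [Module k V] [IsScalarTower k Bᵐᵒᵖ V]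
  [Module.Finite k V]
variable (π : F →ₗ[B] U₀) (d : Q →ₗ[B] F) (hd : Function.Exact d π)
  (hπ : Function.Surjective π) (w : V →ₗ[k] LinearMap.ker d →ₗ[B] G)
  (hw : ∀ (b : B) ρ x, w (op b • ρ) x = op b • w ρ x)
  (P₀ : FreeRes B U₀) (hF : ∀ n, HomExactAt P₀ F n)
  (hG : ∀ n, n ≠ 2 → HomExactAt P₀ G n) (hUU : ∀ n, 1 ≤ n → HomExactAt P₀ U₀ n)

include hF hUU hπ in
omit [Nontrivial U₀] [Module.Projective B F] [Module.Finite k F] in
theorem core_omega (n : ℕ) (hn : n ≠ 1) : HomExactAt P₀ (LinearMap.ker π ⊗[k] V) n :=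
  homExact_ten P₀ n (homExact_ker P₀ π hπ hF n fun i hi => hUU i (by omega))

include hF hG hUU hπ hd in
theorem core_homExact_zero : HomExactAt P₀ (FExt d w hw) 0 :=
  homExact_mid_zero P₀ _ _ (fInc_injective d w hw) (fQuot_exact π d hd w hw)
    (hG 0 (by omega)) (core_omega π hπ P₀ hF hUU 0 (by omega))

include hF hG hUU hπ hd in
theorem core_homExact
    (hW : ∀ φ : LinearMap.ker d →ₗ[B] G, ∃ (ρ : V) (ψ : Q →ₗ[B] G), ∀ x, φ x = w ρ x + ψ x.1)
    (hEnd : ∀ f : U₀ →ₗ[B] U₀, ∃ c : k, ∀ u, f u = c • u) (n : ℕ) :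
    HomExactAt P₀ (UExt (k := k) π (FExt d w hw)) n := by
  refine uExt_homExact π (FExt d w hw) P₀ hπ (core_homExact_zero π d hd hπ w hw P₀ hF hG hUU)
    (fun n => ?_) hUU hEnd n
  cases n with
  | zero => exact fExt_homExact_two π d hd w hw P₀ hπ (core_omega π hπ P₀ hF hUU 2 (by omega)) hW
  | succ n =>
    exact homExact_mid P₀ _ _ (fInc_injective d w hw) (fQuot_exact π d hd w hw)
      (fQuot_surjective π d hd w hw) _ (hG _ (by omega))
      (core_omega π hπ P₀ hF hUU _ (by omega))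

include hF hG hUU hπ hd in
theorem core_push (hEnd : ∀ f : U₀ →ₗ[B] U₀, ∃ c : k, ∀ u, f u = c • u)
    {U U' : Type} [AddCommGroup U] [Module B U] [AddCommGroup U'] [Module B U']
    (P : FreeRes B U) (P' : FreeRes B U') (c : Comparison P P' G)
    (hP'F : ∀ n, HomExactAt P' F n) (hP'U : ∀ n, HomExactAt P' U₀ n)
    (hV : TAc P V) (hVI : TAc P (V ⧸ liftSub d w hw)) :
    Nonempty (Comparison P P' (UExt (k := k) π (FExt d w hw))) := by
  have : Module.Finite k (LinearMap.ker π) :=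
    inferInstanceAs (Module.Finite k ((LinearMap.ker π).restrictScalars k))
  have : Module.Finite k U₀ := Module.Finite.of_surjective (π.restrictScalars k) hπ
  obtain ⟨c₁⟩ := c.push P (fInc d w hw) (fQuot π d hd w hw) (fInc_op d w hw)
    (fQuot_op π d hd w hw) (fInc_injective d w hw) (fQuot_exact π d hd w hw)
    (fQuot_surjective π d hd w hw) (tac_ten P hV)
    (fun n => homExact_ten P' n (homExact_ker P' π hπ hP'F n fun i _ => hP'U i))
  obtain ⟨θ, hθ, hθe⟩ := exists_theta π d hd w hw P₀ hπ (hF 0) (hF 1) (hG 1 (by omega)) hEnd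
  have hI : TAc P (ExtCls π (FExt d w hw)) :=
    TAc.left P θ.toAddMonoidHom (liftSub d w hw).mkQ.toAddMonoidHom
      (fun b y => map_smul θ (op b) y) (fun b y => map_smul (liftSub d w hw).mkQ (op b) y)
      hθ hθe (Submodule.mkQ_surjective _) hV hVI
  have : Module.Finite k (ExtCls π (FExt d w hw)) := finite_extCls π (FExt d w hw)
  have h0 := core_homExact_zero π d hd hπ w hw P₀ hF hG hUU
  exact c₁.push P (uInc (k := k) π _) (uQuot (k := k) π _) (uInc_op π _) (uQuot_op π _)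
    (uInc_injective π _ hπ ((homExact_zero_iff P₀).1 h0)) (uQuot_exact π _ hπ)
    (uQuot_surjective π _ hπ) (tac_ten P hI) (fun n => homExact_ten P' n (hP'U n))

end core

theorem exists_mutation (U : ℕ → Type) [∀ m, AddCommGroup (U m)] [∀ m, Module B (U m)]
    [∀ m, Module k (U m)] [∀ m, IsScalarTower k B (U m)] [∀ m, Module.Finite k (U m)]
    (G : Type) [AddCommGroup G] [Module B G] [Module Bᵐᵒᵖ G] [SMulCommClass B Bᵐᵒᵖ G]
    [Module k G] [IsScalarTower k B G] [IsScalarTower k Bᵐᵒᵖ G] [Module.Finite k G]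
    (e h : B) (he : e * e = e) (hh : h * h = h) (hU : ∀ m (x : U m), h • x = 0)
    (u₀ : U 0) (hu₀ : u₀ ≠ 0) (heu : e • u₀ = u₀) (hgen : ∀ u : U 0, ∃ b : B, b • u₀ = u)
    (hcol : ∀ m n, EZ B (U m) (col e) n)
    (hUU : ∀ n, 1 ≤ n → EZ B (U 0) (U 0) n)
    (hEnd : ∀ f : U 0 →ₗ[B] U 0, ∃ c : k, ∀ u, f u = c • u)
    (horth : ∀ m n, EZ B (U (m + 1)) (U 0) n)
    (hG : ∀ n, n ≠ 2 → EZ B (U 0) G n)
    (Q : Type) [AddCommGroup Q] [Module B Q] [Module k Q] [IsScalarTower k B Q]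
    [Module.Finite k Q] [Module.Projective B Q] (p : Q →ₗ[B] B)
    (hp : ∀ b : B, b ∈ LinearMap.range p ↔ b * e = b ∧ b • u₀ = 0)
    (v : LinearMap.ker p →ₗ[B] G) (hv : ∀ x, op h • v x = v x)
    (hW : ∀ φ : LinearMap.ker p →ₗ[B] G, ∃ (ρ : B) (ψ : Q →ₗ[B] G),
      h * ρ = ρ ∧ ∀ x, φ x = op ρ • v x + ψ x.1)
    (hW0 : ∀ S : Submodule B (RDual k B),
      (∀ ξ, ξ ∈ S ↔ (∀ ρ, RDual.eval k B ξ ((1 - h) * ρ) = 0) ∧
        ∀ ρ : B, h * ρ = ρ → (∃ ψ : Q →ₗ[B] G, ∀ x, op ρ • v x = ψ x.1) →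
          RDual.eval k B ξ ρ = 0) →
      ∀ m n, EZ B (U m) S n) :
    ∃ (Y : Type) (_ : AddCommGroup Y) (_ : Module B Y) (_ : Module Bᵐᵒᵖ Y)
      (_ : SMulCommClass B Bᵐᵒᵖ Y) (_ : Module k Y) (_ : IsScalarTower k B Y)
      (_ : IsScalarTower k Bᵐᵒᵖ Y) (_ : Module.Finite k Y),
      (∀ n, EZ B (U 0) Y n) ∧ ∀ m (P : FreeRes B (U m)) (P' : FreeRes B (U (m + 1))),
        Comparison P P' G → Nonempty (Comparison P P' Y) := by
  have : Nontrivial (U 0) := ⟨u₀, 0, hu₀⟩
  have : Module.Finite B (U 0) := Module.Finite.of_restrictScalars_finite k B (U 0)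
  have : Module.Projective B (col e) := col_projective he
  have : Module.Finite k (col e) :=
    inferInstanceAs (Module.Finite k ((col e).restrictScalars k))
  have : Module.Finite k (Submodule.span Bᵐᵒᵖ {h}) :=
    inferInstanceAs (Module.Finite k ((Submodule.span Bᵐᵒᵖ {h}).restrictScalars k))
  obtain ⟨P₀⟩ := exists_freeRes (B := B) k (U 0)
  let π : col e →ₗ[B] U 0 := (LinearMap.toSpanSingleton B (U 0) u₀).comp (col e).subtype
  have hπ : Function.Surjective π := fun u => by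
    obtain ⟨b, rfl⟩ := hgen u
    refine ⟨⟨b * e, (mem_col he).2 (by rw [mul_assoc, he])⟩, ?_⟩
    show (b * e) • u₀ = b • u₀
    rw [mul_smul, heu]
  let d : Q →ₗ[B] col e := p.codRestrict (col e) fun q => (mem_col he).2 ((hp _).1 ⟨q, rfl⟩).1
  have hd : Function.Exact d π := fun b => by
    constructor
    · intro hb
      obtain ⟨q, hq⟩ := (hp b.1).2 ⟨(mem_col he).1 b.2, hb⟩
      exact ⟨q, Subtype.ext hq⟩
    · rintro ⟨q, rfl⟩
      exact ((hp _).1 ⟨q, rfl⟩).2
  have hker : LinearMap.ker d ≤ LinearMap.ker p := fun q hq =>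
    congrArg Subtype.val (LinearMap.mem_ker.1 hq)
  let v' : LinearMap.ker d →ₗ[B] G := v.comp (Submodule.inclusion hker)
  let w : Submodule.span Bᵐᵒᵖ {h} →ₗ[k] LinearMap.ker d →ₗ[B] G :=
    { toFun := fun ρ => op (ρ : B) • v'
      map_add' := fun a b => by
        show op ((a : B) + b) • v' = op (a : B) • v' + op (b : B) • v'
        rw [MulOpposite.op_add, add_smul]
      map_smul' := fun c a => by
        show op (c • (a : B)) • v' = c • (op (a : B) • v')
        rw [MulOpposite.op_smul, smul_assoc] }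
  have hw : ∀ (b : B) ρ x, w (op b • ρ) x = op b • w ρ x := fun b ρ x => by
    show op ((ρ : B) * b) • v' x = op b • op (ρ : B) • v' x
    rw [MulOpposite.op_mul, mul_smul]
  have hUh : ∀ m (P : FreeRes B (U m)), TAc P (Submodule.span Bᵐᵒᵖ {h}) := fun m P =>
    tac_row hh (hU m) P
  have hF : ∀ n, HomExactAt P₀ (col e) n := fun n => (ez_iff_homExactAt P₀ _ n).1 (hcol 0 n)
  have hG' : ∀ n, n ≠ 2 → HomExactAt P₀ G n := fun n hn =>
    (ez_iff_homExactAt P₀ _ n).1 (hG n hn)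
  have hUU' : ∀ n, 1 ≤ n → HomExactAt P₀ (U 0) n := fun n hn =>
    (ez_iff_homExactAt P₀ _ n).1 (hUU n hn)
  have hW' : ∀ φ : LinearMap.ker d →ₗ[B] G, ∃ (ρ : Submodule.span Bᵐᵒᵖ {h})
      (ψ : Q →ₗ[B] G), ∀ x, φ x = w ρ x + ψ x.1 := fun φ => by
    have hker' : LinearMap.ker p ≤ LinearMap.ker d := fun q hq =>
      LinearMap.mem_ker.2 (Subtype.ext (LinearMap.mem_ker.1 hq))
    obtain ⟨ρ, ψ, hρ, hφ⟩ := hW (φ.comp (Submodule.inclusion hker'))
    exact ⟨⟨ρ, (mem_row hh).2 hρ⟩, ψ, fun x => hφ (Submodule.inclusion hker x)⟩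
  have hfin : Module.Finite k (UExt (k := k) π (FExt d w hw)) := finite_uExt π _
  refine ⟨UExt (k := k) π (FExt d w hw), inferInstance, inferInstance, inferInstance,
    inferInstance, inferInstance, inferInstance, inferInstance, hfin,
    fun n => (ez_iff_homExactAt P₀ _ n).2
      (core_homExact π d hd hπ w hw P₀ hF hG' hUU' hW' hEnd n), ?_⟩
  intro m P P' c
  have hP'F : ∀ n, HomExactAt P' (col e) n := fun n =>
    (ez_iff_homExactAt P' _ n).1 (hcol (m + 1) n)
  have hP'U : ∀ n, HomExactAt P' (U 0) n := fun n => (ez_iff_homExactAt P' _ n).1 (horth m n)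
  let S : Submodule B (RDual k B) :=
    { carrier := {ξ | (∀ ρ, RDual.eval k B ξ ((1 - h) * ρ) = 0) ∧
        ∀ ρ : B, h * ρ = ρ → (∃ ψ : Q →ₗ[B] G, ∀ x, op ρ • v x = ψ x.1) →
          RDual.eval k B ξ ρ = 0}
      add_mem' := fun {a b} ha hb => ⟨fun ρ => by
          show RDual.eval k B a _ + RDual.eval k B b _ = 0
          rw [ha.1, hb.1, add_zero],
        fun ρ h1 h2 => by
          show RDual.eval k B a _ + RDual.eval k B b _ = 0
          rw [ha.2 ρ h1 h2, hb.2 ρ h1 h2, add_zero]⟩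
      zero_mem' := ⟨fun ρ => rfl, fun ρ _ _ => rfl⟩
      smul_mem' := fun b ξ hξ => ⟨fun ρ => by
          show RDual.eval k B ξ (((1 - h) * ρ) * b) = 0
          rw [mul_assoc, hξ.1],
        fun ρ h1 ⟨ψ, hψ⟩ => hξ.2 (ρ * b) (by rw [← mul_assoc, h1]) ⟨op b • ψ, fun x => by
          rw [op_mul, mul_smul, hψ]; rfl⟩⟩ }
  have hS : ∀ ξ, ξ ∈ S ↔ (∀ ρ, RDual.eval k B ξ ((1 - h) * ρ) = 0) ∧
      ∀ x ∈ liftSub d w hw, RDual.eval k B ξ (x : B) = 0 := fun ξ => by
    have hker' : LinearMap.ker p ≤ LinearMap.ker d := fun q hq =>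
      LinearMap.mem_ker.2 (Subtype.ext (LinearMap.mem_ker.1 hq))
    refine and_congr_right fun _ => ⟨fun h2 x ⟨ψ, hψ⟩ => h2 x.1 ((mem_row hh).1 x.2)
      ⟨ψ, fun q => hψ (Submodule.inclusion hker' q)⟩,
      fun h2 ρ h1 ⟨ψ, hψ⟩ => h2 ⟨ρ, (mem_row hh).2 h1⟩ ⟨ψ, fun q => hψ _⟩⟩
  exact core_push π d hd hπ w hw P₀ hF hG' hUU' hEnd P P' c hP'F hP'U (hUh m P)
    (tac_lift h hh _ P S hS fun n =>
      (ez_iff_homExactAt P _ n).1 (hW0 S (fun ξ => Iff.rfl) m n))

end Vale.Agent.P195D
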