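import Vale.Agent.P195D.HomFacts
import Vale.Agent.P195D.Homology
import Vale.Agent.P195D.ResKoszul

/-!
No extensions from any `U m` into the columns of layer `0`: downward induction along the exact
sequences of columns `0 → Col c → Col (c + 1) ^ 2 → Col (c + 2) → 0`.
-/

namespace Vale.Agent.P195D

open CategoryTheory Abelian MulOpposite

noncomputable section

namespace OrthProj

section general

variable {B : Type} [Ring B] {U X Y Z : Type} [AddCommGroup U] [Module B U] [AddCommGroup X]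
  [Module B X] [AddCommGroup Y] [Module B Y] [AddCommGroup Z] [Module B Z]

/-- The kernel of an epimorphism has no `Ext` from `U` when middle and end have none. -/
theorem ez_of_ses (f : X →ₗ[B] Y) (g : Y →ₗ[B] Z) (hf : Function.Injective f)
    (hfg : Function.Exact f g) (hg : Function.Surjective g) (hY : ∀ n, EZ B U Y n)
    (hZ : ∀ n, EZ B U Z n) (n : ℕ) : EZ B U X n := by
  let S : ShortComplex (ModuleCat B) := ShortComplex.mk (ModuleCat.ofHom f) (ModuleCat.ofHom g)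
    (ModuleCat.hom_ext (LinearMap.ext fun x => hfg.apply_apply_eq_zero x))
  have hS : S.ShortExact :=
    { exact := (ShortComplex.ShortExact.moduleCat_exact_iff_function_exact S).2 hfg
      mono_f := (ModuleCat.mono_iff_injective _).2 hf
      epi_g := (ModuleCat.epi_iff_surjective _).2 hg }
  refine subsingleton_of_forall_eq 0 fun x => ?_
  rcases n with _ | n
  · obtain ⟨φ, rfl⟩ := (Ext.mk₀_bijective (ModuleCat.of B U) (ModuleCat.of B X)).2 x
    have h : Ext.mk₀ (φ ≫ S.f) = 0 := (hY 0).elim _ _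
    have h' : φ ≫ S.f = 0 :=
      (Ext.mk₀_bijective (ModuleCat.of B U) S.X₂).1 (by rw [h, Ext.mk₀_zero])
    have hφ : φ = 0 := by
      ext u
      exact hf (by simpa [S] using congrArg (fun q => q.hom u) h')
    rw [hφ, Ext.mk₀_zero]
  · obtain ⟨x₃, hx₃⟩ := Ext.covariant_sequence_exact₁ _ hS x
      ((hY (n + 1)).elim _ _) (rfl : n + 1 = n + 1)
    rw [← hx₃, (hZ n).elim x₃ 0, Ext.zero_comp]

theorem ez_prod_right {n : ℕ} (hX : EZ B U X n) (hY : EZ B U Y n) : EZ B U (X × Y) n := by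
  refine subsingleton_of_forall_eq 0 fun x => ?_
  have hid : (𝟙 (ModuleCat.of B (X × Y)) : _ ⟶ _) =
      ModuleCat.ofHom (LinearMap.fst B X Y) ≫ ModuleCat.ofHom (LinearMap.inl B X Y) +
      ModuleCat.ofHom (LinearMap.snd B X Y) ≫ ModuleCat.ofHom (LinearMap.inr B X Y) := by
    ext m <;> simp
  have e1 : x.comp (Ext.mk₀ (ModuleCat.ofHom (LinearMap.fst B X Y))) (add_zero n) = 0 :=
    hX.elim _ _
  have e2 : x.comp (Ext.mk₀ (ModuleCat.ofHom (LinearMap.snd B X Y))) (add_zero n) = 0 :=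
    hY.elim _ _
  rw [← Ext.comp_mk₀_id x, hid, Ext.mk₀_add, Ext.comp_add]
  rw [← Ext.mk₀_comp_mk₀, ← Ext.mk₀_comp_mk₀,
    ← Ext.comp_assoc_of_second_deg_zero, ← Ext.comp_assoc_of_second_deg_zero, e1, e2,
    Ext.zero_comp, Ext.zero_comp, add_zero]

end general

variable {k : Type} [Field k]

/-- The middle of the sequence of `x₁, x₂` on all bounded operators. -/
theorem exists_xx_mid_Sp {δ β : ℤ} {a b : W k} (ha : a ∈ Sp k δ β) (hb : b ∈ Sp k δ β)
    (h : a * Res.xx 0 + b * Res.xx 1 = 0) :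
    ∃ c ∈ Sp k (δ - 1) β, c * Res.xx 1 = a ∧ -(c * Res.xx 0) = b := by
  refine ⟨a * Res.xi 1, fun η => ?_, by rw [mul_assoc, Res.xi_mul_xx, mul_one], ?_⟩
  · rw [Res.cf_mul_xi]
    have hb' : cf b (η + Res.ee 0) = -cf a (η + Res.ee 1) := by
      have := congrArg (fun z => cf z (η + Res.ee 0 + Res.ee 1)) h
      simp only [cf_add, Res.cf_mul_xx, cf_zero, add_sub_cancel_right] at this
      rw [show η + Res.ee 0 + Res.ee 1 - Res.ee 0 = η + Res.ee 1 by abel] at this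
      exact eq_neg_of_add_eq_zero_right this
    rcases ha (η + Res.ee 1) with h0 | ⟨⟨h1, h2, -, h4⟩, h5⟩
    · exact Or.inl h0
    rcases hb (η + Res.ee 0) with h0 | ⟨⟨-, -, h3, -⟩, -⟩
    · rw [hb', neg_eq_zero] at h0
      exact Or.inl h0
    refine Or.inr ⟨⟨?_, ?_, ?_, h4⟩, h5⟩ <;> simp [Res.ee] at h1 h2 h3 ⊢ <;> omega
  · have h' := congrArg (fun z => z * Res.xi 1) h
    simp only [add_mul, mul_assoc, Res.xx_mul_xi, mul_one, zero_mul, Res.xx_xi_comm 0 1] at h'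
    rw [mul_assoc]
    exact neg_eq_of_add_eq_zero_right h'

/-- Surjectivity of `x₁, x₂` on all bounded operators of positive degree. -/
theorem exists_xx_Sp {δ β : ℤ} (hδ : 1 ≤ δ) {w : W k} (hw : w ∈ Sp k δ β) :
    ∃ a b, a ∈ Sp k (δ - 1) β ∧ b ∈ Sp k (δ - 1) β ∧ a * Res.xx 0 + b * Res.xx 1 = w := by
  suffices H : w ∈ ((Sp k (δ - 1) β).prod (Sp k (δ - 1) β)).map
      ((LinearMap.mulRight k (Res.xx 0)).coprod (LinearMap.mulRight k (Res.xx 1))) by
    obtain ⟨⟨a, b⟩, ⟨ha, hb⟩, hab⟩ := H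
    exact ⟨a, b, ha, hb, hab⟩
  refine Res.mem_of_components fun γ => ?_
  rcases hw γ with h0 | ⟨⟨h1, h2, h3, h4⟩, h5⟩
  · rw [h0, mon_zero]; exact Submodule.zero_mem _
  have hmk : ∀ i, mon (γ - Res.ee i) (cf w γ) * Res.xx i = mon γ (cf w γ) := fun i => by
    rw [Res.xx, mon_mul_mon, map_one, mul_one, sub_add_cancel]
  rcases le_or_gt 1 γ.1 with h | h
  · refine ⟨(mon (γ - Res.ee 0) (cf w γ), 0), ⟨?_, Submodule.zero_mem _⟩, ?_⟩
    · refine mon_mem_Sp (Or.inr ⟨⟨?_, ?_, ?_, h4⟩, h5⟩) <;> simp [Res.ee] <;> omega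
    · simpa using hmk 0
  · refine ⟨(0, mon (γ - Res.ee 1) (cf w γ)), ⟨Submodule.zero_mem _, ?_⟩, ?_⟩
    · refine mon_mem_Sp (Or.inr ⟨⟨?_, ?_, ?_, h4⟩, h5⟩) <;> simp [Res.ee] <;> omega
    · simpa using hmk 1

theorem xW_eq (i : Fin 2) : xW k i = Res.xx i := by fin_cases i <;> rfl

variable {d : Ob}

/-- Into the first middle term. -/
def colIn (k : Type) [Field k] (d : Ob) :
    Col k d →ₗ[Alg k] Col k (d.sh 1) × Col k (d.sh 1) :=
  (Col.rmul (xHom k d 1)).prod (-Col.rmul (xHom k d 0))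

/-- Onto the last term. -/
def colOut (k : Type) [Field k] (d : Ob) :
    Col k (d.sh 1) × Col k (d.sh 1) →ₗ[Alg k] Col k ((d.sh 1).sh 1) :=
  (Col.rmul (xHom k (d.sh 1) 0)).coprod (Col.rmul (xHom k (d.sh 1) 1))

theorem rmul_x_val (hl : d.lay = 0) (i : Fin 2) (x : Col k d) (u : Ix) :
    (Col.rmul (xHom k d i) x u).1 = ((x u).1.1 * Res.xx i, (x u).1.2 * Res.xx i) := by
  rw [Col.rmul_apply, comp_val]
  show mulP _ _ _ _ (xW k i, 0) = _
  rw [Ob.sh_lay, hl, mulP, if_neg (by simp), if_neg (by simp), pd_xW, xW_eq]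
  simp

theorem col_mem (hl : d.lay = 0) (x : Col k d) (u : Ix) :
    (x u).1.1 ∈ Sp0 k (d.a - (ob u).a) (d.b - (ob u).b) ∧
      (x u).1.2 ∈ Sp k (d.a - (ob u).a) (d.b - (ob u).b) :=
  (mem_Hm_E (by simp [hl])).1 (x u).2

theorem colIn_injective (hl : d.lay = 0) : Function.Injective (colIn k d) := by
  refine (injective_iff_map_eq_zero _).2 fun x hx => Col.ext fun u => Subtype.ext ?_
  have h : (Col.rmul (xHom k d 1) x u).1 = 0 := by
    have := congrArg Prod.fst hx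
    simp [colIn] at this
    rw [this]
    rfl
  rw [rmul_x_val hl, Prod.ext_iff] at h
  exact Prod.ext (Res.mul_xx_eq_zero h.1) (Res.mul_xx_eq_zero h.2)

theorem col_exact [CharZero k] (hl : d.lay = 0) : Function.Exact (colIn k d) (colOut k d) := by
  intro y
  constructor
  · intro hy
    have hl1 : (d.sh 1).lay = 0 := hl
    have H : ∀ u, ∃ z : Hom' k (ob u) d,
        z.1.1 * Res.xx 1 = (y.1 u).1.1 ∧ -(z.1.1 * Res.xx 0) = (y.2 u).1.1 ∧
        z.1.2 * Res.xx 1 = (y.1 u).1.2 ∧ -(z.1.2 * Res.xx 0) = (y.2 u).1.2 := fun u => by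
      have h : (Col.rmul (xHom k (d.sh 1) 0) y.1 u).1 +
          (Col.rmul (xHom k (d.sh 1) 1) y.2 u).1 = 0 := by
        have := congrArg (fun z : Col k ((d.sh 1).sh 1) => (z u).1) hy
        simpa [colOut] using this
      rw [rmul_x_val hl1, rmul_x_val hl1, Prod.mk_add_mk, Prod.mk_eq_zero] at h
      obtain ⟨a1, a2⟩ := col_mem hl1 y.1 u
      obtain ⟨b1, b2⟩ := col_mem hl1 y.2 u
      obtain ⟨c, hc, hc1, hc2⟩ := Res.exists_xx_mid a1 b1 h.1
      obtain ⟨p, hp, hp1, hp2⟩ := exists_xx_mid_Sp a2 b2 h.2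
      have e : d.a + 1 - (ob u).a - 1 = d.a - (ob u).a := by ring
      simp only [Ob.sh_a, Ob.sh_b, e] at hc hp
      exact ⟨⟨(c, p), (mem_Hm_E (by simp [hl])).2 ⟨hc, hp⟩⟩, hc1, hc2, hp1, hp2⟩
    choose z hz1 hz2 hz3 hz4 using H
    let x : Col k d := z
    refine ⟨x, Prod.ext (Col.ext fun u => Subtype.ext ?_) (Col.ext fun u => Subtype.ext ?_)⟩
    · show (Col.rmul (xHom k d 1) x u).1 = _
      rw [rmul_x_val hl]
      exact Prod.ext (hz1 u) (hz3 u)
    · show -(Col.rmul (xHom k d 0) x u).1 = _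
      rw [rmul_x_val hl]
      exact Prod.ext (hz2 u) (hz4 u)
  · rintro ⟨x, rfl⟩
    have hl1 : (d.sh 1).lay = 0 := hl
    have e : colOut k d (colIn k d x) = Col.rmul (xHom k (d.sh 1) 0) (Col.rmul (xHom k d 1) x)
        - Col.rmul (xHom k (d.sh 1) 1) (Col.rmul (xHom k d 0) x) := by
      simp [colOut, colIn, sub_eq_add_neg]
    rw [e]
    refine Col.ext fun u => Subtype.ext ?_
    show (Col.rmul _ (Col.rmul _ x) u).1 - (Col.rmul _ (Col.rmul _ x) u).1 = (0 : Pr k)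
    rw [rmul_x_val hl1, rmul_x_val hl1, rmul_x_val hl, rmul_x_val hl]
    refine sub_eq_zero.2 ?_
    simp [mul_assoc, Res.xx_comm 0 1]

theorem colOut_surjective [CharZero k] (hl : d.lay = 0) (hd : 0 ≤ d.a) :
    Function.Surjective (colOut k d) := fun y => by
  have hl1 : (d.sh 1).lay = 0 := hl
  have hl2 : ((d.sh 1).sh 1).lay = 0 := hl
  have H : ∀ u, ∃ z : Hom' k (ob u) (d.sh 1) × Hom' k (ob u) (d.sh 1),
      z.1.1.1 * Res.xx 0 + z.2.1.1 * Res.xx 1 = (y u).1.1 ∧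
      z.1.1.2 * Res.xx 0 + z.2.1.2 * Res.xx 1 = (y u).1.2 := fun u => by
    obtain ⟨h1, h2⟩ := col_mem hl2 y u
    have hδ : 1 ≤ ((d.sh 1).sh 1).a - (ob u).a := by
      have := u.2.1.isLt
      simp
      omega
    obtain ⟨a, b, ha, hb, hab⟩ := Res.exists_xx hδ h1
    obtain ⟨p, q, hp, hq, hpq⟩ := exists_xx_Sp hδ h2
    have e : d.a + 1 + 1 - (ob u).a - 1 = d.a + 1 - (ob u).a := by ring
    simp only [Ob.sh_a, Ob.sh_b, e] at ha hb hp hq
    exact ⟨(⟨(a, p), (mem_Hm_E (by simp [hl])).2 ⟨by simpa using ha, by simpa using hp⟩⟩,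
      ⟨(b, q), (mem_Hm_E (by simp [hl])).2 ⟨by simpa using hb, by simpa using hq⟩⟩), hab, hpq⟩
  choose z hz1 hz2 using H
  let a : Col k (d.sh 1) := fun u => (z u).1
  let b : Col k (d.sh 1) := fun u => (z u).2
  refine ⟨(a, b), Col.ext fun u => Subtype.ext ?_⟩
  show (Col.rmul (xHom k (d.sh 1) 0) a u).1 + (Col.rmul (xHom k (d.sh 1) 1) b u).1 = _
  rw [rmul_x_val hl1, rmul_x_val hl1]
  exact Prod.ext (hz1 u) (hz2 u)

theorem ez_U_proj0_aux [CharZero k] (m : ℕ) (j : ℕ) :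
    ∀ (d : Ob), d.lay = 0 → 0 ≤ d.a → (m : ℤ) ≤ d.a + j →
      ∀ n, EZ (Alg k) (Um k m) (Col k d) n := by
  induction j with
  | zero => exact fun d hl _ h n => ez_U_col0 m n d hl (by simpa using h)
  | succ j ih =>
    intro d hl hd h n
    have h1 := ih (d.sh 1) hl (by simp; omega) (by simp; omega)
    have h2 := ih ((d.sh 1).sh 1) hl (by simp; omega) (by simp; omega)
    exact ez_of_ses (colIn k d) (colOut k d) (colIn_injective hl) (col_exact hl)
      (colOut_surjective hl hd) (fun n => ez_prod_right (h1 n) (h1 n)) h2 n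

/-- No extensions from any `U m` into the projective columns of layer `0`. -/
theorem ez_U_proj0 [CharZero k] (m n : ℕ) (d : Ob) (hl : d.lay = 0) (hd : 0 ≤ d.a) :
    EZ (Alg k) (Um k m) (Col k d) n :=
  ez_U_proj0_aux m m d hl hd (by omega) n

end OrthProj

end

end Vale.Agent.P195D
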