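import Vale.Agent.P195D.Homology
import Vale.Agent.P195D.ColFacts
import Vale.Agent.P195D.ResFacts
import Vale.Agent.P195D.OrthLau

/-!
`U m` has no `Ext` into the Laurent modules of another degree.
-/

namespace Vale.Agent.P195D

set_option linter.unusedSimpArgs false

open Res

noncomputable section

variable {k : Type} [Field k]

namespace Orth

/-- The value space of a slot. -/
abbrev Val (k : Type) [Field k] (m : ℕ) (i : Fin 2) (S : Dom) (N : ℤ) (t : Slot) :
    Submodule k (Lau k) := sps k i S N (qob m t)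

/-- The degree of the values at a generator. -/
def qdeg (e : ℤ) (q : Fin 6) : ℤ := e - qa q

theorem mem_Val_self {m : ℕ} {i : Fin 2} {S : Dom} {N : ℤ} {q : Fin 6} {x : Lau k} :
    x ∈ Val k m i S N (i, q) ↔ x ∈ MS k S (qdeg (N - m) q) := by
  rw [Val, sps, if_pos (show (qob m (i, q)).lay = i from rfl),
    show N - (qob m (i, q)).a = qdeg (N - m) q by simp [qob, qdeg]; ring]

theorem eq_zero_of_mem_Val {m : ℕ} {i : Fin 2} {S : Dom} {N : ℤ} {t : Slot} {x : Lau k}
    (hx : x ∈ Val k m i S N t) (h : t.1 ≠ i) : x = 0 := by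
  rw [Val, sps, if_neg (show ¬ (qob m t).lay = i from h)] at hx
  simpa using hx

/-- The sign of a layer. -/
def sgn (k : Type) [Field k] (i : Fin 2) : k := if i = 0 then 1 else -1

theorem sgn_mul_self (i : Fin 2) : sgn k i * sgn k i = 1 := by unfold sgn; split <;> simp

/-- The differential on the values of one layer, in target degree `n`. -/
def dl (k : Type) [Field k] (n : ℕ) (w : Fin 6 → Lau k) (q : Fin 6) : Lau k :=
  ∑ q', act (Dq k n q q') (w q')

theorem dl_0 (n : ℕ) (w : Fin 6 → Lau k) : dl k n w 0 = 0 := by simp [dl, Fin.sum_univ_six, Dq]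

theorem dl_1 (n : ℕ) (w : Fin 6 → Lau k) : dl k n w 1 = D 0 (w 0) := by
  simp [dl, Fin.sum_univ_six, Dq, D]

theorem dl_2 (n : ℕ) (w : Fin 6 → Lau k) : dl k n w 2 = D 1 (w 0) := by
  simp [dl, Fin.sum_univ_six, Dq, D]

theorem dl_3 (n : ℕ) (w : Fin 6 → Lau k) :
    dl k n w 3 = X 0 (D 1 (w 1) - D 0 (w 2)) := by
  simp [dl, Fin.sum_univ_six, Dq, D, X, act_mul, sub_eq_add_neg]

theorem dl_4 (n : ℕ) (w : Fin 6 → Lau k) :
    dl k n w 4 = X 1 (D 1 (w 1) - D 0 (w 2)) := by
  simp [dl, Fin.sum_univ_six, Dq, D, X, act_mul, sub_eq_add_neg]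

theorem dl_5 (n : ℕ) (w : Fin 6 → Lau k) :
    dl k n w 5 = (-((n / 2 : ℕ) : k)) • w 0 + (X 1 (w 3) - X 0 (w 4)) := by
  simp [dl, Fin.sum_univ_six, Dq, X, act_one, sub_eq_add_neg, add_assoc]

/-- Values of the slots of a degree, extended by zero. -/
def ext0 {m : ℕ} {i : Fin 2} {S : Dom} {N : ℤ} {n : ℕ} (y : ∀ t : T n, ↥(Val k m i S N t.1))
    (t : Slot) : Lau k :=
  if h : Pres' n t then (y ⟨t, h⟩).1 else 0

theorem ext0_mem {m : ℕ} {i : Fin 2} {S : Dom} {N : ℤ} {n : ℕ}
    (y : ∀ t : T n, ↥(Val k m i S N t.1)) (t : Slot) : ext0 y t ∈ Val k m i S N t := by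
  unfold ext0
  split
  · next h => exact (y ⟨t, h⟩).2
  · exact Submodule.zero_mem _

theorem ext0_absent {m : ℕ} {i : Fin 2} {S : Dom} {N : ℤ} {n : ℕ}
    (y : ∀ t : T n, ↥(Val k m i S N t.1)) {t : Slot} (h : ¬ Pres' n t) : ext0 y t = 0 := dif_neg h

/-- The differential between the values. -/
def dY {m : ℕ} {i : Fin 2} {S : Dom} {N : ℤ} {n : ℕ} (y : ∀ t : T n, ↥(Val k m i S N t.1))
    (t : T (n + 1)) : ↥(Val k m i S N t.1) :=
  ∑ t' : T n, actHom i S N (qob m t.1) (qob m t'.1) (ent m n t.1 t'.1) (y t')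

theorem dY_val {m : ℕ} {i : Fin 2} {S : Dom} {N : ℤ} {n : ℕ}
    (y : ∀ t : T n, ↥(Val k m i S N t.1)) {q : Fin 6} (h : Pres' (n + 1) (i, q)) :
    (dY y ⟨(i, q), h⟩).1 = sgn k i • dl k n (fun q' => ext0 y (i, q')) q := by
  have e1 : (dY y ⟨(i, q), h⟩).1 = ∑ t' : Slot,
      act (opOf (k := k) i (ent m n (i, q) t')) (ext0 y t') := by
    rw [dY, Submodule.coe_sum, ← Finset.sum_subset (Finset.subset_univ
      (Finset.univ.filter fun t' : Slot => Pres' n t')) (fun t' _ ht => by
        rw [ext0_absent y (by simpa using ht), map_zero]),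
      ← Finset.sum_subtype_eq_sum_filter]
    refine Finset.sum_congr (by ext; simp) fun t' _ => ?_
    rw [actHom_val, ext0, dif_pos t'.2]
  rw [e1, dl, Finset.smul_sum, ← Finset.univ_product_univ, Finset.sum_product,
    Finset.sum_eq_single i]
  · refine Finset.sum_congr rfl fun q' _ => ?_
    unfold opOf
    rw [if_pos ⟨rfl, rfl⟩, ent_val, entP, if_pos rfl]
    unfold sgn
    split <;> simp
  · intro r _ hr
    exact Finset.sum_eq_zero fun q' _ => by
      rw [eq_zero_of_mem_Val (ext0_mem y (r, q')) hr, map_zero]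
  · simp

theorem dY_val_ne {m : ℕ} {i : Fin 2} {S : Dom} {N : ℤ} {n : ℕ}
    (y : ∀ t : T n, ↥(Val k m i S N t.1)) (t : T (n + 1)) (h : t.1.1 ≠ i) : dY y t = 0 :=
  Subtype.ext (eq_zero_of_mem_Val (dY y t).2 h)

theorem cocycle_dl {m : ℕ} {i : Fin 2} {S : Dom} {N : ℤ} {n : ℕ}
    {y : ∀ t : T n, ↥(Val k m i S N t.1)} (hy : dY y = 0) (q : Fin 6)
    (h : Pres' (n + 1) (i, q)) :
    dl k n (fun q' => ext0 y (i, q')) q = 0 := by
  have e : (dY y ⟨(i, q), h⟩).1 = 0 := by rw [hy]; rfl
  rw [dY_val] at e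
  have := congrArg (sgn k i • ·) e
  simpa [smul_smul, sgn_mul_self] using this

/-- A solution on one layer gives a preimage. -/
theorem preimage_of {m : ℕ} {i : Fin 2} {S : Dom} {N : ℤ} {n : ℕ}
    (y : ∀ t : T (n + 1), ↥(Val k m i S N t.1)) (w : Fin 6 → Lau k)
    (hw : ∀ q, w q ∈ MS k S (qdeg (N - m) q)) (hw0 : ∀ q, ¬ Pres' n (i, q) → w q = 0)
    (he : ∀ q, Pres' (n + 1) (i, q) → dl k n w q = sgn k i • ext0 y (i, q)) :
    ∃ z, dY z = y := by
  classical
  let z : ∀ t : T n, ↥(Val k m i S N t.1) := fun t =>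
    ⟨if t.1.1 = i then w t.1.2 else 0, by
      split
      · next h =>
        obtain ⟨⟨r, q⟩, _⟩ := t
        simp only at h ⊢
        subst h
        exact mem_Val_self.2 (hw q)
      · exact Submodule.zero_mem _⟩
  have hz : (fun q' => ext0 z (i, q')) = w := by
    funext q
    unfold ext0
    split
    · simp [z]
    · next h => exact (hw0 q h).symm
  refine ⟨z, funext fun t => ?_⟩
  obtain ⟨⟨r, q⟩, ht⟩ := t
  by_cases hr : r = i
  · subst hr
    refine Subtype.ext ?_
    rw [dY_val, hz, he q ht, smul_smul, sgn_mul_self, one_smul, ext0, dif_pos ht]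
  · exact (dY_val_ne z _ hr).trans (Subtype.ext (eq_zero_of_mem_Val (y _).2 hr).symm)

theorem cocycle_zero [CharZero k] {m : ℕ} {i : Fin 2} {S : Dom} {N : ℤ} (hN : N ≠ m)
    (y : ∀ t : T 0, ↥(Val k m i S N t.1)) (hy : dY y = 0) : y = 0 := by
  funext t
  rw [T_zero_eq t]
  refine Subtype.ext ?_
  fin_cases i
  · have h1 := cocycle_dl hy 1 (by decide)
    have h2 := cocycle_dl hy 2 (by decide)
    rw [dl_1] at h1
    rw [dl_2] at h2
    have hd : qdeg (N - (m : ℤ)) 0 ≠ 0 := by simp [qdeg, qa]; omega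
    have e : ext0 y ((0 : Fin 2), (0 : Fin 6)) = (y t0).1 := dif_pos t0.2
    exact e.symm.trans (eq_zero_of_D hd (mem_Val_self.1 (ext0_mem y (0, 0))) h1 h2)
  · exact eq_zero_of_mem_Val (y t0).2 (by decide)

theorem cocycle_succ [CharZero k] {m : ℕ} {i : Fin 2} {S : Dom} (hS : S ≠ .reg) {N : ℤ}
    (hN : N ≠ m) {n : ℕ} (y : ∀ t : T (n + 1), ↥(Val k m i S N t.1)) (hy : dY y = 0) :
    ∃ z, dY z = y := by
  have hd : N - (m : ℤ) ≠ 0 := by omega
  set d : ℤ := N - m with hddef
  set Y : Fin 6 → Lau k := fun q => sgn k i • ext0 y (i, q) with hYdef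
  have hY : ∀ q, Y q ∈ MS k S (qdeg d q) := fun q =>
    Submodule.smul_mem _ _ (mem_Val_self.1 (ext0_mem y (i, q)))
  have hY0 : ∀ q, ¬ Pres' (n + 1) (i, q) → Y q = 0 := fun q h => by
    simp [hYdef, ext0_absent y h]
  have hc : ∀ q, lev q + i.val ≤ n + 2 → (lev q + i.val) % 2 = n % 2 →
      dl k (n + 1) Y q = 0 := fun q h1 h2 => by
    have := cocycle_dl hy q ⟨by show lev q + i.val ≤ _; omega,
      by show (lev q + i.val) % 2 = _; omega⟩
    simp only [dl] at this ⊢
    simp only [hYdef, map_smul, ← Finset.smul_sum, this, smul_zero]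
  have hP : ∀ n' q, Pres' n' (i, q) ↔ lev q + i.val ≤ n' ∧ (lev q + i.val) % 2 = n' % 2 :=
    fun n' q => Iff.rfl
  have l0 : lev 0 = 0 := rfl
  have l1 : lev 1 = 1 := rfl
  have l2 : lev 2 = 1 := rfl
  have l3 : lev 3 = 2 := rfl
  have l4 : lev 4 = 2 := rfl
  have l5 : lev 5 = 3 := rfl
  have hv : i.val ≤ 1 := by omega
  by_cases hpar : i.val % 2 = (n + 1) % 2
  · -- even levels
    have hw0 : Y 0 = 0 := by
      have h1 := hc 1 (by omega) (by omega)
      have h2 := hc 2 (by omega) (by omega)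
      rw [dl_1] at h1
      rw [dl_2] at h2
      exact eq_zero_of_D hd (by simpa [qdeg, qa] using hY 0) h1 h2
    by_cases hbig : 1 + i.val ≤ n
    · have h5 := hc 5 (by omega) (by omega)
      rw [dl_5, hw0, smul_zero, zero_add, sub_eq_zero] at h5
      obtain ⟨g, hg, g', hg', e3, e4⟩ := exists_curl hS hd (by simpa [qdeg, qa] using hY 3)
        (by simpa [qdeg, qa] using hY 4) h5
      refine preimage_of y ![0, g, g', 0, 0, 0] ?_ ?_ ?_
      · intro q; fin_cases q <;> simp [qdeg, qa, ← hddef, hg, hg']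
      · intro q hq; fin_cases q <;> simp [hP, l1, l2] at hq ⊢ <;> omega
      · intro q hq
        fin_cases q <;>
          simp [hP, l0, l1, l2, l3, l4, l5] at hq ⊢ <;>
          first
            | (exfalso; omega)
            | (rw [dl_0]; exact hw0.symm)
            | (rw [dl_3]; simpa using e3)
            | (rw [dl_4]; simpa using e4)
    · refine preimage_of y 0 (fun q => Submodule.zero_mem _) (fun q _ => rfl) fun q hq => ?_
      fin_cases q <;>
        simp [hP, l0, l1, l2, l3, l4, l5] at hq ⊢ <;>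
        first
          | (exfalso; omega)
          | (rw [show sgn k i • ext0 y (i, 0) = 0 from hw0]; simp [dl])
  · -- odd levels
    by_cases hlow : i.val ≤ n
    · have h3 := hc 3 (by omega) (by omega)
      rw [dl_3] at h3
      have hcurl : D 1 (Y 1) - D 0 (Y 2) = 0 := X_injective 0 (by rw [h3, map_zero])
      obtain ⟨g, hg, e1, e2⟩ := exists_primitive hd (by simpa [qdeg, qa] using hY 1)
        (by simpa [qdeg, qa] using hY 2) (sub_eq_zero.1 hcurl)
      by_cases hbig : 2 + i.val ≤ n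
      · obtain ⟨u, hu, v, hv', e5⟩ := exists_koszul hS (y := Y 5 - (-((n / 2 : ℕ) : k)) • g)
          (d := d) (Submodule.sub_mem _ (by simpa [qdeg, qa] using hY 5) (Submodule.smul_mem _ _ hg))
        refine preimage_of y ![g, 0, 0, u, v, 0] ?_ ?_ ?_
        · intro q; fin_cases q <;> simp [qdeg, qa, ← hddef, hg, hu, hv']
        · intro q hq; fin_cases q <;> simp [hP, l0, l3, l4] at hq ⊢ <;> omega
        · intro q hq
          fin_cases q <;>
            simp [hP, l0, l1, l2, l3, l4, l5] at hq ⊢ <;>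
            first
              | (exfalso; omega)
              | (rw [dl_1]; simpa using e1)
              | (rw [dl_2]; simpa using e2)
              | (rw [dl_5]; simp [e5, hYdef])
      · refine preimage_of y ![g, 0, 0, 0, 0, 0] ?_ ?_ ?_
        · intro q; fin_cases q <;> simp [qdeg, qa, ← hddef, hg]
        · intro q hq; fin_cases q <;> simp [hP, l0] at hq ⊢ <;> omega
        · intro q hq
          fin_cases q <;>
            simp [hP, l0, l1, l2, l3, l4, l5] at hq ⊢ <;>
            first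
              | (exfalso; omega)
              | (rw [dl_1]; simpa using e1)
              | (rw [dl_2]; simpa using e2)
    · refine preimage_of y 0 (fun q => Submodule.zero_mem _) (fun q _ => rfl) fun q hq => ?_
      fin_cases q <;>
        simp [hP, l0, l1, l2, l3, l4, l5] at hq ⊢ <;>
        exfalso <;> omega

theorem lmod_sum_apply {i : Fin 2} {S : Dom} {N : ℤ} {ι : Type} (s : Finset ι)
    (f : ι → LMod k i S N) (u : Ix) : (∑ a ∈ s, f a) u = ∑ a ∈ s, f a u := by
  classical
  induction s using Finset.induction_on with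
  | empty => simp
  | insert a s ha ih => simp [Finset.sum_insert ha, ih]

/-- A family of values as a map out of the complex. -/
def toHom {m : ℕ} {i : Fin 2} {S : Dom} {N : ℤ} {n : ℕ} (y : ∀ t : T n, ↥(Val k m i S N t.1)) :
    QT k m n →ₗ[Alg k] LMod k i S N :=
  ∑ t, (evalL (y t)).comp (LinearMap.proj t)

theorem toHom_single {m : ℕ} {i : Fin 2} {S : Dom} {N : ℤ} {n : ℕ}
    (y : ∀ t : T n, ↥(Val k m i S N t.1)) (t : T n) (x : Col k (qob m t.1)) :
    toHom y (Pi.single t x) = evalL (y t) x := by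
  rw [toHom, LinearMap.sum_apply, Finset.sum_eq_single t]
  · simp
  · intro t' _ h; simp [Pi.single_eq_of_ne h]
  · simp

theorem toHom_comp_qd {m : ℕ} {i : Fin 2} {S : Dom} {N : ℤ} {n : ℕ}
    (y : ∀ t : T n, ↥(Val k m i S N t.1)) : toHom y ∘ₗ qd k m n = toHom (dY y) := by
  refine LinearMap.pi_ext fun t x => ?_
  rw [toHom_single, LinearMap.comp_apply, toHom, LinearMap.sum_apply]
  refine LMod.ext fun u => ?_
  rw [lmod_sum_apply, evalL_apply, dY, map_sum]
  refine Finset.sum_congr rfl fun t' _ => ?_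
  rw [LinearMap.comp_apply, LinearMap.proj_apply, evalL_apply, d_apply,
    Finset.sum_eq_single t]
  · rw [Pi.single_eq_same, Col.rmul_apply, actHom_comp]
  · intro s _ h; rw [Pi.single_eq_of_ne h, map_zero]
  · simp

theorem qob_bounds (m : ℕ) (t : Slot) :
    0 ≤ (qob m t).a ∧ 0 ≤ (qob m t).b ∧ (qob m t).b ≤ 2 := by
  obtain ⟨r, q⟩ := t
  fin_cases q <;> simp [qob, qa, qb] <;> omega

theorem exists_toHom {m : ℕ} {i : Fin 2} {S : Dom} (hS : S ≠ .reg) {N : ℤ} {n : ℕ}
    (f : QT k m n →ₗ[Alg k] LMod k i S N) : ∃ y, toHom y = f := by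
  classical
  choose y hy using fun t : T n =>
    (evalL_bijective (k := k) (qob m t.1) (qob_bounds m t.1).1 (qob_bounds m t.1).2.1
      (qob_bounds m t.1).2.2 i S hS N).2 (f ∘ₗ LinearMap.single (Alg k) (fun t : T n => Col k (qob m t.1)) t)
  exact ⟨y, LinearMap.pi_ext fun t x => by rw [toHom_single, hy]; rfl⟩

theorem toHom_eq_zero {m : ℕ} {i : Fin 2} {S : Dom} (hS : S ≠ .reg) {N : ℤ} {n : ℕ}
    {y : ∀ t : T n, ↥(Val k m i S N t.1)} (h : toHom y = 0) : y = 0 := funext fun t => by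
  refine (evalL_bijective (k := k) (qob m t.1) (qob_bounds m t.1).1 (qob_bounds m t.1).2.1
    (qob_bounds m t.1).2.2 i S hS N).1 (LinearMap.ext fun x => ?_)
  rw [← toHom_single y t x, h, LinearMap.zero_apply]
  refine LMod.ext fun u => ?_
  simp

end Orth

open Orth

/-- No extensions from `U m` into the Laurent modules of another degree. -/
theorem ez_U_lmod [CharZero k] (m j : ℕ) (i : Fin 2) (S : Dom) (hS : S ≠ .reg) (N : ℤ)
    (hN : N ≠ m) : EZ (Alg k) (Um k m) (LMod k i S N) j := by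
  obtain ⟨h0, h1⟩ := ez_iff_of_acyclic (fun n => ModuleCat.of (Alg k) (QT k m n))
    (fun n => qd k m n) (qaug k m) (qaug_surjective m) (qd_exact_zero m) (qd_exact_succ m)
    (LMod k i S N) fun n j hj => ez_of_sum (A := fun t : T n => Col k (qob m t.1))
      (fun t => LinearMap.proj t) (fun t => LinearMap.single (Alg k) (fun t : T n => Col k (qob m t.1)) t)
      (fun x => by simpa using Finset.univ_sum_single x) fun t =>
        ez_col_lmod (qob m t.1) (qob_bounds m t.1).1 (qob_bounds m t.1).2.1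
          (qob_bounds m t.1).2.2 i S hS N j hj
  cases j with
  | zero =>
    refine h0.2 fun f hf => ?_
    obtain ⟨y, rfl⟩ := exists_toHom hS f
    rw [toHom_comp_qd] at hf
    rw [cocycle_zero hN y (toHom_eq_zero hS hf)]
    exact LinearMap.ext fun x => LMod.ext fun u => by simp [toHom, lmod_sum_apply]
  | succ j =>
    refine (h1 j).2 fun f hf => ?_
    obtain ⟨y, rfl⟩ := exists_toHom hS f
    rw [toHom_comp_qd] at hf
    obtain ⟨z, hz⟩ := cocycle_succ hS hN y (toHom_eq_zero hS hf)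
    exact ⟨toHom z, by rw [toHom_comp_qd, hz]⟩

end

end Vale.Agent.P195D
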