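import Vale.Agent.P195D.Maps
import Vale.Agent.P195D.Homology
import Vale.Agent.P195D.OrthLmod

/-!
Orthogonality to the first module: the module of polynomials is the kernel of the sum map from
the two half Laurent modules onto the Laurent module, in degree at least `-1`.
-/

namespace Vale.Agent.P195D

open CategoryTheory Abelian

noncomputable section

/-- A module which is the kernel of a surjection between modules without `Ext` from `U` has no
`Ext` from `U` either. -/
theorem ez_of_ses {B : Type} [Ring B] {U X₁ X₂ X₂' X₃ : Type} [AddCommGroup U] [Module B U]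
    [AddCommGroup X₁] [Module B X₁] [AddCommGroup X₂] [Module B X₂] [AddCommGroup X₂']
    [Module B X₂'] [AddCommGroup X₃] [Module B X₃] (f : X₁ →ₗ[B] X₂ × X₂') (g : X₂ × X₂' →ₗ[B] X₃)
    (hf : Function.Injective f) (hfg : Function.Exact f g) (hg : Function.Surjective g)
    (h₂ : ∀ n, EZ B U X₂ n) (h₂' : ∀ n, EZ B U X₂' n) (h₃ : ∀ n, EZ B U X₃ n) (n : ℕ) :
    EZ B U X₁ n := by
  have hid : (𝟙 (ModuleCat.of B (X₂ × X₂')) : _ ⟶ _) =
      ModuleCat.ofHom (LinearMap.fst B X₂ X₂') ≫ ModuleCat.ofHom (LinearMap.inl B X₂ X₂') +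
      ModuleCat.ofHom (LinearMap.snd B X₂ X₂') ≫ ModuleCat.ofHom (LinearMap.inr B X₂ X₂') := by
    ext m <;> simp
  have hp : ∀ (j : ℕ) (x : Ext (ModuleCat.of B U) (ModuleCat.of B (X₂ × X₂')) j), x = 0 := by
    intro j x
    calc x = x.comp (Ext.mk₀ (𝟙 _)) (add_zero j) := (Ext.comp_mk₀_id x).symm
      _ = 0 := by
        rw [hid, Ext.mk₀_add, Ext.comp_add, ← Ext.mk₀_comp_mk₀, ← Ext.mk₀_comp_mk₀,
          ← Ext.comp_assoc_of_third_deg_zero, ← Ext.comp_assoc_of_third_deg_zero,
          (h₂ j).elim (x.comp _ _) 0, (h₂' j).elim (x.comp (Ext.mk₀ _) _) 0, Ext.zero_comp,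
          Ext.zero_comp, add_zero]
  have hcomp : g.comp f = 0 := LinearMap.ext fun x => (hfg (f x)).2 ⟨x, rfl⟩
  let S := ShortComplex.moduleCatMk f g hcomp
  have hmono : Mono S.f := (ModuleCat.mono_iff_injective _).2 hf
  have hepi : Epi S.g := (ModuleCat.epi_iff_surjective _).2 hg
  have hS : S.ShortExact :=
    { exact := S.moduleCat_exact_iff.2 fun x hx => (hfg x).1 hx }
  cases n with
  | zero =>
    refine (ez_zero_iff X₁).2 fun φ => LinearMap.ext fun u => hf ?_
    have h0 := LinearMap.congr_fun ((ez_zero_iff X₂).1 (h₂ 0) ((LinearMap.fst B _ _).comp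
      (f.comp φ))) u
    have h1 := LinearMap.congr_fun ((ez_zero_iff X₂').1 (h₂' 0) ((LinearMap.snd B _ _).comp
      (f.comp φ))) u
    rw [LinearMap.zero_apply, map_zero]
    exact Prod.ext h0 h1
  | succ j =>
    refine subsingleton_of_forall_eq 0 fun x => ?_
    obtain ⟨y, hy⟩ := Ext.covariant_sequence_exact₁ (ModuleCat.of B U) hS x (hp _ _) rfl
    rw [← hy, show y = 0 from (h₃ j).elim y 0]
    apply Ext.zero_comp

variable {k : Type} [Field k]

/-- The inclusion of the Laurent module of a smaller domain. -/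
def domIncl (i : Fin 2) (S S' : Dom) (hS : ∀ p, S.Mem p → S'.Mem p) (n : ℤ) :
    LMod k i S n →ₗ[Alg k] LMod k i S' n where
  toFun x u := ⟨(x u).1, by
    have h := (x u).2
    unfold sps at h ⊢
    split at h <;> rename_i hl
    · rw [if_pos hl]
      exact Finsupp.supported_mono (fun p hp => by exact ⟨hS p hp.1, hp.2⟩) h
    · rw [if_neg hl]; exact h⟩
  map_add' x y := LMod.ext fun u => Subtype.ext rfl
  map_smul' b x := LMod.ext fun u => Subtype.ext (by
    show ((b • x) u).1 = (∑ v, actHom i S' n (ob u) (ob v) (b u v) ⟨(x v).1, _⟩ :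
      ↥(sps k i S' n (ob u))).1
    rw [LMod.act_apply, Submodule.coe_sum, Submodule.coe_sum]
    rfl)

@[simp] theorem domIncl_val (i : Fin 2) (S S' : Dom) (hS : ∀ p, S.Mem p → S'.Mem p) (n : ℤ)
    (x : LMod k i S n) (u : Ix) : (domIncl i S S' hS n x u).1 = (x u).1 := rfl

/-- `Ext` into the module of polynomials vanishes as soon as it does for the Laurent modules. -/
theorem ez_reg_of_laurent {U : Type} [AddCommGroup U] [Module (Alg k) U]
    (hL : ∀ (S : Dom) (j : ℕ), S ≠ .reg → EZ (Alg k) U (LMod k 0 S 0) j) (j : ℕ) :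
    EZ (Alg k) U (LMod k 0 .reg 0) j := by
  let f1 := domIncl (k := k) 0 .reg .fst (fun p h => h.2) 0
  let f2 := domIncl (k := k) 0 .reg .snd (fun p h => h.1) 0
  let g1 := domIncl (k := k) 0 .fst .all (fun _ _ => trivial) 0
  let g2 := domIncl (k := k) 0 .snd .all (fun _ _ => trivial) 0
  refine ez_of_ses (f1.prod f2) (g1.coprod (-g2)) ?_ ?_ ?_ (fun n => hL .fst n (by decide))
    (fun n => hL .snd n (by decide)) (fun n => hL .all n (by decide)) j
  · intro x y h
    refine LMod.ext fun u => Subtype.ext ?_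
    exact congrArg (fun z => (z.1 u).1) h
  · intro z
    constructor
    · intro hz
      have hval : ∀ u, (z.1 u).1 = (z.2 u).1 := fun u => by
        have h : g1 z.1 = g2 z.2 := by
          rw [LinearMap.coprod_apply, LinearMap.neg_apply, ← sub_eq_add_neg, sub_eq_zero] at hz
          exact hz
        exact congrArg (fun w => (w u).1) h
      refine ⟨fun u => ⟨(z.1 u).1, ?_⟩, ?_⟩
      · have h1 := (z.1 u).2
        have h2 : (z.1 u).1 ∈ sps k 0 .snd 0 (ob u) := hval u ▸ (z.2 u).2
        unfold sps at h1 h2 ⊢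
        split at h1 <;> rename_i hl
        · rw [if_pos hl] at h2 ⊢
          simp only [MS, Finsupp.mem_supported] at h1 h2 ⊢
          exact fun p hp => ⟨⟨(h2 hp).1, (h1 hp).1⟩, (h1 hp).2⟩
        · rw [if_neg hl]; exact h1
      · exact Prod.ext (LMod.ext fun u => Subtype.ext rfl)
          (LMod.ext fun u => Subtype.ext (hval u))
    · rintro ⟨x, rfl⟩
      rw [LinearMap.coprod_apply, LinearMap.neg_apply, ← sub_eq_add_neg, sub_eq_zero]
      exact LMod.ext fun u => Subtype.ext rfl
  · intro w
    classical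
    let a : LMod k 0 .fst 0 := fun u => ⟨(w u).1.filter fun p => 0 ≤ p.2, by
      have h := (w u).2
      unfold sps at h ⊢
      split at h <;> rename_i hl
      · rw [if_pos hl]
        simp only [MS, Finsupp.mem_supported] at h ⊢
        intro p hp
        rw [Finset.mem_coe, Finsupp.support_filter, Finset.mem_filter] at hp
        exact ⟨hp.2, (h hp.1).2⟩
      · rw [if_neg hl, Submodule.mem_bot]
        rw [(Submodule.mem_bot k).1 h, Finsupp.filter_zero]⟩
    let b : LMod k 0 .snd 0 := fun u => ⟨-((w u).1.filter fun p => ¬ 0 ≤ p.2), by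
      refine Submodule.neg_mem _ ?_
      have h := (w u).2
      unfold sps at h ⊢
      split at h <;> rename_i hl
      · rw [if_pos hl]
        simp only [MS, Finsupp.mem_supported] at h ⊢
        intro p hp
        rw [Finset.mem_coe, Finsupp.support_filter, Finset.mem_filter] at hp
        refine ⟨?_, (h hp.1).2⟩
        have hn := (h hp.1).2
        have ha : ((ob u).a : ℤ) ≤ 1 := by
          rw [ob_a]; have := u.2.1.isLt; omega
        show 0 ≤ p.1
        have := hp.2
        omega
      · rw [if_neg hl, Submodule.mem_bot]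
        rw [(Submodule.mem_bot k).1 h, Finsupp.filter_zero]⟩
    refine ⟨(a, b), LMod.ext fun u => Subtype.ext ?_⟩
    show ((w u).1.filter fun p => 0 ≤ p.2) + -(-((w u).1.filter fun p => ¬ 0 ≤ p.2)) = (w u).1
    rw [neg_neg, Finsupp.filter_add_filter_not]

/-- No extensions from the later modules of the orbit into the first one. -/
theorem ez_U_U0 [CharZero k] (m n : ℕ) : EZ (Alg k) (Um k (m + 1)) (Um k 0) n :=
  ez_reg_of_laurent (fun S j hS => ez_U_lmod (m + 1) j 0 S hS 0 (by omega)) n

end

end Vale.Agent.P195D
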