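import Vale.Agent.P195D.Interface

/-!
Vanishing of `Ext` into sums, kernels and quotients.
-/

namespace Vale.Agent.P195D

open CategoryTheory Abelian

variable {B : Type} [Ring B] {U : Type} [AddCommGroup U] [Module B U]

/-- A module whose identity is a sum of two maps through modules without `Ext` from `U`. -/
theorem ez_into_pair {M A C : Type} [AddCommGroup M] [Module B M] [AddCommGroup A] [Module B A]
    [AddCommGroup C] [Module B C] (p : M →ₗ[B] A) (q : M →ₗ[B] C) (e : A →ₗ[B] M) (e' : C →ₗ[B] M)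
    (h : ∀ m, e (p m) + e' (q m) = m) {j : ℕ} (hA : EZ B U A j) (hC : EZ B U C j) :
    EZ B U M j := by
  refine subsingleton_of_forall_eq 0 fun x => ?_
  have hid : (𝟙 (ModuleCat.of B M) : _ ⟶ _) =
      ModuleCat.ofHom p ≫ ModuleCat.ofHom e + ModuleCat.ofHom q ≫ ModuleCat.ofHom e' := by
    ext m
    simp [h]
  rw [← Ext.comp_mk₀_id x, hid, Ext.mk₀_add, Ext.comp_add, ← Ext.mk₀_comp_mk₀,
    ← Ext.mk₀_comp_mk₀, ← Ext.comp_assoc_of_second_deg_zero, ← Ext.comp_assoc_of_second_deg_zero,
    hA.elim (x.comp (Ext.mk₀ (ModuleCat.ofHom p)) (add_zero j)) 0,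
    hC.elim (x.comp (Ext.mk₀ (ModuleCat.ofHom q)) (add_zero j)) 0, Ext.zero_comp, Ext.zero_comp,
    add_zero]

/-- The target of a surjection has no `Ext` in a degree if its source and kernel have none. -/
theorem ez_of_surjective {C S : Type} [AddCommGroup C] [Module B C] [AddCommGroup S] [Module B S]
    (π : C →ₗ[B] S) (hπ : Function.Surjective π) {j : ℕ} (hC : EZ B U C j)
    (hK : EZ B U (LinearMap.ker π) (j + 1)) : EZ B U S j := by
  have hS := LinearMap.shortExact_shortComplexKer hπ
  refine subsingleton_of_forall_eq 0 fun x => ?_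
  obtain ⟨x₂, rfl⟩ := Ext.covariant_sequence_exact₃ (ModuleCat.of B U) hS x rfl (hK.elim _ _)
  rw [hC.elim x₂ 0, Ext.zero_comp]

end Vale.Agent.P195D
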