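import Vale.Agent.P195D.OrthLmod
import Vale.Agent.P195D.OrthExt

/-!
No extensions from any `U m` into the dual of `W`.

That dual is the quotient of the Laurent module of layer `1` and degree `-1` by the monomials with
a nonnegative exponent.
-/

namespace Vale.Agent.P195D

set_option linter.unusedSimpArgs false

open MulOpposite

noncomputable section

variable {k : Type} [Field k]

namespace WD

/-- The scalar by which a morphism acts at `x^(-1, -1)`. -/
def e0 (w : W k) : k := ev (-1, -1) (cf w 0)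

theorem act_at {δ β : ℤ} {w : W k} (hw : w ∈ Sp0 k δ β) (hδ : δ ≤ 0) (x : Lau k) :
    act w x (-1, -1) = e0 w * x (-1, -1) := by
  have hv : ∀ γ : Gam, γ ≠ 0 → ev (-1, -1) (cf w γ) = 0 := fun γ hγ => by
    rcases Sp0_le_Sp δ β hw γ with h | ⟨⟨h1, -⟩, -⟩
    · rw [h, map_zero]
    have hγ' : γ.1 ≤ -1 ∨ γ.2 ≤ -1 := by
      by_contra hc
      exact hγ (Prod.ext (by simp; omega) (by simp; omega))
    rcases hγ' with h2 | h2
    · exact hw.2.2 γ _ (by simp [Dom.Mem]) (by simp [Dom.Mem]; omega)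
    · exact hw.1.2 γ _ (by simp [Dom.Mem]) (by simp [Dom.Mem]; omega)
  conv_lhs => rw [W_eq_sum w]
  simp only [map_sum, LinearMap.sum_apply, Finsupp.finsetSum_apply, Orth.act_mon_apply]
  rw [Finset.sum_eq_single (Multiplicative.ofAdd (0 : Gam))]
  · simp [e0]
  · intro g _ hg
    rw [hv _ fun h => hg (by rw [← h, ofAdd_toAdd]), zero_mul]
  · intro h
    have : cf w 0 = 0 := SkewMonoidAlgebra.notMem_support_iff.1 h
    simp [this]

theorem e0_mul {δ β δ' β' : ℤ} {f g : W k} (hf : f ∈ Sp0 k δ β) (hδ : δ ≤ 0)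
    (hg : g ∈ Sp0 k δ' β') (hδ' : δ' ≤ 0) (hs : f * g ∈ Sp0 k (δ + δ') (β + β')) :
    e0 (f * g) = e0 f * e0 g := by
  have h1 := act_at hs (by omega) (Finsupp.single (-1, -1) 1)
  rw [act_mul, act_at hf hδ, act_at hg hδ', Finsupp.single_eq_same, mul_one, mul_one] at h1
  exact h1.symm

theorem e0_of_deg {δ β : ℤ} {w : W k} (hw : w ∈ Sp k δ β) (hδ : δ ≠ 0) : e0 w = 0 := by
  rcases hw 0 with h | ⟨⟨h, -⟩, -⟩
  · simp [e0, h]
  · simp at h; omega

/-- The vertices supporting the dual of `W`. -/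
def vx (b : Fin 3) : Ix := (1, 1, b)

/-- Entries of the undeformed component. -/
def coef (β : Alg k) (u v : Ix) : k := e0 (opOf 1 (β u v))

theorem wc_eq (b : Fin 3) (ρ : Alg k) : wc k b ρ = coef ρ hIx (vx b) := by
  simp [wc, coef, e0, opOf, vx, hIx]

theorem opOf_mem {u v : Ob} (h : Hom' k u v) :
    opOf 1 h ∈ Sp0 k (v.a - u.a) (v.b - u.b) := by
  unfold opOf
  split
  · next hl => exact ((mem_Hm_E (by omega)).1 h.2).1
  · exact Submodule.zero_mem _

theorem coef_mul (ρ β : Alg k) (u : Ix) (hu : u.2.1 = 1) (b : Fin 3) :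
    coef (ρ * β) u (vx b) = ∑ b', coef ρ u (vx b') * coef β (vx b') (vx b) := by
  have hop : ∀ (t : Finset Ix) (f : Ix → Hom' k (ob u) (ob (vx b))),
      opOf 1 (∑ v ∈ t, f v) = ∑ v ∈ t, opOf 1 (f v) := fun t f =>
    map_sum (AddMonoidHom.mk' (fun h : Hom' k (ob u) (ob (vx b)) => opOf 1 h) (opOf_add 1)) f t
  have he : ∀ (t : Finset Ix) (f : Ix → W k), e0 (∑ v ∈ t, f v) = ∑ v ∈ t, e0 (f v) := fun t f =>
    map_sum (AddMonoidHom.mk' (fun w : W k => e0 w) (fun a c => by simp [e0])) f t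
  rw [coef, Alg.mul_apply, hop, he]
  simp only [opOf_comp]
  rw [show (Finset.univ : Finset Ix) = Finset.univ ×ˢ (Finset.univ ×ˢ Finset.univ) by simp,
    Finset.sum_product, Fin.sum_univ_two]
  have h0 : ∀ w : Fin 2 × Fin 3,
      e0 (opOf 1 (ρ u (0, w)) * opOf 1 (β (0, w) (vx b))) = 0 := fun w => by
    have : opOf 1 (ρ u (0, w)) = 0 := if_neg (by simp [ob])
    simp [this, e0]
  rw [Finset.sum_congr rfl fun w _ => h0 w, Finset.sum_const_zero, zero_add, Finset.sum_product,
    Fin.sum_univ_two, Finset.sum_eq_zero (s := Finset.univ) fun c _ => ?_, zero_add]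
  · refine Finset.sum_congr rfl fun c _ => ?_
    exact e0_mul (opOf_mem _) (by simp [ob, hu]) (opOf_mem _) (by simp [ob, vx])
      (mul_mem_Sp0 (opOf_mem _) (opOf_mem _))
  · have hm := mul_mem_Sp0 (opOf_mem (ρ u (1, 0, c))) (opOf_mem (β (1, 0, c) (vx b)))
    have e1 : e0 (opOf 1 (ρ u (1, 0, c))) = 0 :=
      e0_of_deg (Sp0_le_Sp _ _ (opOf_mem _)) (by simp [ob, hu])
    have hx : e0 (opOf 1 (ρ u (1, 0, c)) * opOf 1 (β (1, 0, c) (vx b))) = 0 := by
      have h1 := act_at hm (by simp [ob, hu, vx]) (Finsupp.single (-1, -1) 1)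
      rw [act_mul, act_at (opOf_mem (ρ u (1, 0, c))) (by simp [ob, hu]), e1, zero_mul,
        Finsupp.single_eq_same, mul_one] at h1
      exact h1.symm
    exact hx

theorem coef_single (b b' : Fin 3) (x : Hom' k (ob hIx) (ob (vx b))) :
    wc k b' (Alg.single hIx (vx b) x) = if b' = b then e0 x.1.1 else 0 := by
  rw [wc_eq, coef]
  have h : Alg.single (k := k) hIx (vx b) x hIx (vx b') =
      Pi.single (M := fun v => Hom' k (ob hIx) (ob v)) (vx b) x (vx b') := by
    simp [Alg.single]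
  rw [h]
  by_cases hb : b' = b
  · subst hb; rw [Pi.single_eq_same]; simp [opOf, vx, hIx]
  · rw [Pi.single_eq_of_ne (by simp [vx, hb]), if_neg hb]
    have : opOf 1 (0 : Hom' k (ob hIx) (ob (vx b'))) = 0 := by unfold opOf; split <;> rfl
    simp [this, e0]

/-- An element on which the classes are dual. -/
def rho (k : Type) [Field k] (b : Fin 3) : Alg k :=
  Alg.single hIx (vx b) (mkE (by simp [hIx]) 1
    (by simpa [vx, hIx] using one_mem_Sp0' (k := k) (β := ((b : ℕ) : ℤ)) (by omega)))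

theorem wc_rho (b b' : Fin 3) : wc k b' (rho k b) = if b' = b then 1 else 0 := by
  rw [rho, coef_single]
  simp [e0, one_eq_mon, cf_mon]

theorem e_mul_apply (ρ : Alg k) (u v : Ix) :
    (Alg.e hIx * ρ : Alg k) u v = if u = hIx then ρ u v else 0 := by
  rw [Alg.mul_apply]
  split
  · next h =>
    subst h
    rw [Finset.sum_eq_single hIx]
    · simp [Alg.e]
    · intro w _ hw; simp [Alg.e, hw]
    · simp
  · next h => exact Finset.sum_eq_zero fun w _ => by simp [Alg.e, h]

theorem wc_e_mul (b : Fin 3) (ρ : Alg k) : wc k b (Alg.e hIx * ρ) = wc k b ρ := by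
  rw [wc_eq, wc_eq, coef, coef, e_mul_apply, if_pos rfl]

theorem e_mul_self : Alg.e (k := k) hIx * Alg.e hIx = Alg.e hIx := Alg.ext fun u v => by
  rw [e_mul_apply]
  split
  · rfl
  · next h => simp [Alg.e, h]

theorem e_mul_rho (b : Fin 3) : Alg.e hIx * rho k b = rho k b := Alg.ext fun u v => by
  rw [e_mul_apply]
  split
  · rfl
  · next h => simp [rho, Alg.single, Pi.single_eq_of_ne h]

/-- The Laurent module covering the dual of `W`. -/
abbrev All (k : Type) [Field k] : Type := LMod k 1 .all (-1)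

/-- The coefficient of `x^(-1, -1)`. -/
def top (x : All k) (b : Fin 3) : k := (x (vx b)).1 (-1, -1)

theorem top_smul (β : Alg k) (x : All k) (b : Fin 3) :
    top (β • x) b = ∑ b', coef β (vx b) (vx b') * top x b' := by
  rw [top, LMod.act_apply, Submodule.coe_sum, Finsupp.finsetSum_apply,
    show (Finset.univ : Finset Ix) = Finset.univ ×ˢ (Finset.univ ×ˢ Finset.univ) by simp,
    Finset.sum_product, Fin.sum_univ_two]
  have h0 : ∀ w : Fin 2 × Fin 3, (actHom (k := k) 1 Dom.all (-1) (ob (vx b)) (ob (0, w))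
      (β (vx b) (0, w)) (x (0, w))).1 (-1, -1) = 0 := fun w => by
    have : opOf 1 (β (vx b) (0, w)) = 0 := if_neg (by simp [ob])
    simp [this]
  rw [Finset.sum_congr rfl fun w _ => h0 w, Finset.sum_const_zero, zero_add, Finset.sum_product,
    Fin.sum_univ_two, Finset.sum_eq_zero (s := Finset.univ) fun c _ => ?_, zero_add]
  · refine Finset.sum_congr rfl fun c _ => ?_
    rw [actHom_val, act_at (opOf_mem _) (by simp [ob, vx])]
    rfl
  · rw [actHom_val, act_at (opOf_mem _) (by simp [ob, vx]),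
      e0_of_deg (Sp0_le_Sp _ _ (opOf_mem _)) (by simp [ob, vx]), zero_mul]

/-- The functional attached to an element. -/
def fn (x : All k) : RDual k (Alg k) :=
  (∑ b, top x b • wc k b : Alg k →ₗ[k] k)

theorem fn_apply (x : All k) (ρ : Alg k) :
    RDual.eval k (Alg k) (fn x) ρ = ∑ b, top x b * wc k b ρ := by
  show (∑ b, top x b • wc k b : Alg k →ₗ[k] k) ρ = _
  simp [LinearMap.sum_apply]

variable {S : Submodule (Alg k) (RDual k (Alg k))}
  (hS : ∀ ξ, ξ ∈ S ↔ (∀ ρ, RDual.eval k (Alg k) ξ ((1 - Alg.e hIx) * ρ) = 0) ∧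
    ∀ ρ : Alg k, Alg.e hIx * ρ = ρ → (∀ b, wc k b ρ = 0) → RDual.eval k (Alg k) ξ ρ = 0)

include hS in
theorem fn_mem (x : All k) : fn x ∈ S := by
  refine (hS _).2 ⟨fun ρ => ?_, fun ρ _ h => ?_⟩
  · rw [fn_apply]
    exact Finset.sum_eq_zero fun b _ => by rw [sub_mul, one_mul, map_sub, wc_e_mul, sub_self,
      mul_zero]
  · rw [fn_apply]
    exact Finset.sum_eq_zero fun b _ => by rw [h b, mul_zero]

/-- The surjection onto the dual of `W`. -/
def proj : All k →ₗ[Alg k] S where
  toFun x := ⟨fn x, fn_mem hS x⟩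
  map_add' x y := Subtype.ext (LinearMap.ext fun ρ => by
    show RDual.eval k (Alg k) (fn (x + y)) ρ =
      RDual.eval k (Alg k) (fn x) ρ + RDual.eval k (Alg k) (fn y) ρ
    simp [fn_apply, top, add_mul, Finset.sum_add_distrib])
  map_smul' β x := Subtype.ext (LinearMap.ext fun ρ => by
    show RDual.eval k (Alg k) (fn (β • x)) ρ = RDual.eval k (Alg k) (β • fn x) ρ
    rw [RDual.smul_apply, fn_apply, fn_apply, op_smul_eq_mul]
    simp only [top_smul, wc_eq, coef_mul _ _ hIx rfl, Finset.sum_mul, Finset.mul_sum]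
    rw [Finset.sum_comm]
    exact Finset.sum_congr rfl fun b _ => Finset.sum_congr rfl fun b' _ => by ring)

theorem mem_sps {u : Ix} {x : Lau k} (hu : u.1 = 1) :
    x ∈ sps k 1 .all (-1) (ob u) ↔ x ∈ MS k .all (-1 - (u.2.1 : ℕ)) := by
  rw [sps, if_pos (show (ob u).lay = 1 from hu), ob_a]

theorem val_mem {D : Dom} {u : Ix} (hu : u.1 = 1) (h : ↥(sps k 1 D (-1) (ob u))) :
    h.1 ∈ MS k D (-1 - (u.2.1 : ℕ)) := by
  obtain ⟨h, hh⟩ := h
  rwa [sps, if_pos (show (ob u).lay = 1 from hu), ob_a] at hh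

theorem val_zero {D : Dom} {u : Ix} (hu : ¬ u.1 = 1) (h : ↥(sps k 1 D (-1) (ob u))) :
    h.1 = 0 := by
  obtain ⟨h, hh⟩ := h
  rw [sps, if_neg (show ¬ (ob u).lay = 1 from hu)] at hh
  simpa using hh

theorem smul_val {D : Dom} (β : Alg k) (x : LMod k 1 D (-1)) (y : All k)
    (h : ∀ v, (y v).1 = (x v).1) (u : Ix) : ((β • x) u).1 = ((β • y) u).1 := by
  simp only [LMod.act_apply, Submodule.coe_sum, actHom_val, h]

/-- An element with prescribed top coefficients. -/
def lift (c : Fin 3 → k) : All k := fun u =>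
  if h : u.1 = 1 ∧ u.2.1 = 1 then
    ⟨Finsupp.single (-1, -1) (c u.2.2), (mem_sps h.1).2 (Finsupp.single_mem_supported k _
      ⟨trivial, by simp [h.2]⟩)⟩
  else 0

theorem top_lift (c : Fin 3 → k) (b : Fin 3) : top (lift c) b = c b := by
  have h : (vx b).1 = 1 ∧ (vx b).2.1 = 1 := ⟨rfl, rfl⟩
  simp only [top, lift, dif_pos h]
  simp [vx]

theorem proj_surjective : Function.Surjective (proj (k := k) hS) := by
  rintro ⟨ξ, hξ⟩
  obtain ⟨h1, h2⟩ := (hS ξ).1 hξ
  refine ⟨lift fun b => RDual.eval k (Alg k) ξ (rho k b), Subtype.ext (LinearMap.ext fun ρ => ?_)⟩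
  show RDual.eval k (Alg k) (fn _) ρ = RDual.eval k (Alg k) ξ ρ
  have h3 := h2 (Alg.e hIx * ρ - ∑ b, wc k b ρ • rho k b)
    (by rw [mul_sub, ← mul_assoc, e_mul_self, Finset.mul_sum]
        simp [mul_smul_comm, e_mul_rho])
    (fun b => by simp [map_sub, map_sum, wc_e_mul, wc_rho, Finset.sum_ite_eq])
  have h4 : RDual.eval k (Alg k) ξ ρ = RDual.eval k (Alg k) ξ (Alg.e hIx * ρ) := by
    have := h1 ρ
    rwa [sub_mul, one_mul, map_sub, sub_eq_zero] at this
  rw [map_sub, sub_eq_zero] at h3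
  rw [h4, h3, fn_apply, map_sum]
  exact Finset.sum_congr rfl fun b _ => by rw [top_lift, map_smul, smul_eq_mul, mul_comm]

/-- Inclusion of a Laurent submodule. -/
def incl (D : Dom) : LMod k 1 D (-1) →ₗ[Alg k] All k where
  toFun x u := ⟨(x u).1, by
    by_cases hu : u.1 = 1
    · exact (mem_sps hu).2 ((Finsupp.mem_supported k _).2 fun p hp =>
        ⟨trivial, ((Finsupp.mem_supported k _).1 (val_mem hu (x u)) hp).2⟩)
    · rw [val_zero hu (x u)]; exact Submodule.zero_mem _⟩
  map_add' x y := LMod.ext fun u => Subtype.ext rfl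
  map_smul' β x := LMod.ext fun u => Subtype.ext (smul_val β x _ (fun _ => rfl) u)

/-- The map from the two half planes onto the kernel. -/
def half : LMod k 1 .fst (-1) × LMod k 1 .snd (-1) →ₗ[Alg k] LinearMap.ker (proj (k := k) hS) :=
  LinearMap.codRestrict _ ((incl .fst).coprod (incl .snd)) fun z => by
    rw [LinearMap.mem_ker]
    refine Subtype.ext (LinearMap.ext fun ρ => ?_)
    show RDual.eval k (Alg k) (fn _) ρ = 0
    rw [fn_apply]
    refine Finset.sum_eq_zero fun b _ => ?_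
    have e : top ((incl .fst).coprod (incl .snd) z) b = 0 := by
      have key : ∀ (D : Dom), ¬ D.Mem (-1, -1) → ∀ x : LMod k 1 D (-1),
          top (incl D x) b = 0 := by
        intro D hD x
        by_contra hne
        have hx := val_mem (u := vx b) rfl (x (vx b))
        exact hD ((Finsupp.mem_supported k _).1 hx (Finsupp.mem_support_iff.2 hne)).1
      show top (incl .fst z.1 + incl .snd z.2) b = 0
      rw [top, LMod.add_apply, Submodule.coe_add, Finsupp.add_apply]
      exact (congrArg₂ (· + ·) (key _ (by simp [Dom.Mem]) _) (key _ (by simp [Dom.Mem]) _)).trans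
        (add_zero 0)
    rw [e, zero_mul]

theorem half_injective : Function.Injective (half (k := k) hS) := by
  rw [← LinearMap.ker_eq_bot, LinearMap.ker_eq_bot']
  rintro ⟨x, y⟩ h
  have h' : incl .fst x + incl .snd y = 0 := congrArg Subtype.val h
  have key : ∀ u p, (x u).1 p = 0 ∧ (y u).1 p = 0 := fun u p => by
    have h0 : (x u).1 p + (y u).1 p = 0 :=
      DFunLike.congr_fun (congrArg (fun z : All k => (z u).1) h') p
    by_cases hu : u.1 = 1
    · have hx := val_mem hu (x u)
      have hy := val_mem hu (y u)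
      by_cases h1 : (x u).1 p = 0
      · exact ⟨h1, by simpa [h1] using h0⟩
      · exfalso
        have h2 : (y u).1 p ≠ 0 := fun h2 => h1 (by simpa [h2] using h0)
        have m1 := (Finsupp.mem_supported k _).1 hx (Finsupp.mem_support_iff.2 h1)
        have m2 := (Finsupp.mem_supported k _).1 hy (Finsupp.mem_support_iff.2 h2)
        simp [Dom.Mem] at m1 m2
        omega
    · simp [val_zero hu (x u), val_zero hu (y u)]
  refine Prod.ext (LMod.ext fun u => Subtype.ext (Finsupp.ext fun p => ?_))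
    (LMod.ext fun u => Subtype.ext (Finsupp.ext fun p => ?_))
  · simpa using (key u p).1
  · simpa using (key u p).2

theorem half_surjective : Function.Surjective (half (k := k) hS) := by
  classical
  rintro ⟨z, hz⟩
  have htop : ∀ b, top z b = 0 := fun b => by
    have h1 : RDual.eval k (Alg k) (fn z) (rho k b) = 0 :=
      LinearMap.congr_fun (congrArg Subtype.val (show proj hS z = 0 from hz)) (rho k b)
    rw [fn_apply] at h1
    simpa [wc_rho, Finset.sum_ite_eq'] using h1
  have hz0 : ∀ u, ¬ u.1 = 1 → (z u).1 = 0 := fun u hu => val_zero hu (z u)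
  let x : LMod k 1 .fst (-1) := fun u =>
    ⟨Finsupp.filter (fun p : Gam => 0 ≤ p.2) (z u).1, by
      by_cases hu : u.1 = 1
      · have hz' := val_mem hu (z u)
        rw [sps, if_pos (show (ob u).lay = 1 from hu), ob_a]
        refine (Finsupp.mem_supported k _).2 fun p hp => ?_
        simp only [Finset.mem_coe, Finsupp.support_filter, Finset.mem_filter] at hp
        exact ⟨hp.2, ((Finsupp.mem_supported k _).1 hz' hp.1).2⟩
      · rw [hz0 u hu, Finsupp.filter_zero]; exact Submodule.zero_mem _⟩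
  let y : LMod k 1 .snd (-1) := fun u =>
    ⟨Finsupp.filter (fun p : Gam => ¬ 0 ≤ p.2) (z u).1, by
      by_cases hu : u.1 = 1
      · have hz' := val_mem hu (z u)
        rw [sps, if_pos (show (ob u).lay = 1 from hu), ob_a]
        refine (Finsupp.mem_supported k _).2 fun p hp => ?_
        simp only [Finset.mem_coe, Finsupp.support_filter, Finset.mem_filter] at hp
        have hd := ((Finsupp.mem_supported k _).1 hz' hp.1).2
        refine ⟨?_, hd⟩
        show 0 ≤ p.1
        by_contra hn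
        obtain ⟨i, a, b⟩ := u
        simp only at hu
        subst hu
        simp at hd
        have ha : a = 1 ∧ p = (-1, -1) := ⟨Fin.ext (by omega), Prod.ext (by simp; omega) (by
          simp; omega)⟩
        obtain ⟨rfl, rfl⟩ := ha
        exact Finsupp.mem_support_iff.1 hp.1 (htop b)
      · rw [hz0 u hu, Finsupp.filter_zero]; exact Submodule.zero_mem _⟩
  refine ⟨(x, y), Subtype.ext ?_⟩
  show incl .fst x + incl .snd y = z
  exact LMod.ext fun u => Subtype.ext (Finsupp.filter_add_filter_not _ _)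

end WD

open WD

/-- No extensions from any `U m` into the dual of `W`. -/
theorem ez_U_wDual [CharZero k] (S : Submodule (Alg k) (RDual k (Alg k)))
    (hS : ∀ ξ, ξ ∈ S ↔ (∀ ρ, RDual.eval k (Alg k) ξ ((1 - Alg.e hIx) * ρ) = 0) ∧
      ∀ ρ : Alg k, Alg.e hIx * ρ = ρ → (∀ b, wc k b ρ = 0) → RDual.eval k (Alg k) ξ ρ = 0)
    (m n : ℕ) : EZ (Alg k) (Um k m) S n := by
  have hm : (-1 : ℤ) ≠ m := by omega
  refine ez_of_surjective (proj hS) (proj_surjective hS)
    (ez_U_lmod m n 1 .all (by simp) (-1) hm) ?_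
  let E := LinearEquiv.ofBijective (half hS) ⟨half_injective hS, half_surjective hS⟩
  refine ez_into_pair ((LinearMap.fst _ _ _).comp E.symm.toLinearMap)
    ((LinearMap.snd _ _ _).comp E.symm.toLinearMap)
    (E.toLinearMap.comp (LinearMap.inl _ _ _)) (E.toLinearMap.comp (LinearMap.inr _ _ _))
    (fun z => ?_) (ez_U_lmod m (n + 1) 1 .fst (by simp) (-1) hm)
    (ez_U_lmod m (n + 1) 1 .snd (by simp) (-1) hm)
  show E ((E.symm z).1, 0) + E (0, (E.symm z).2) = z
  rw [← map_add]
  simp

end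

end Vale.Agent.P195D
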