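import Vale.Agent.P195D.Maps
import Vale.Agent.P195D.Interface
import Vale.Agent.P195D.WDual
import Vale.Agent.P195D.OrthU0
import Vale.Agent.P195D.OrthProj

/-!
Orthogonality of the orbit.
-/

namespace Vale.Agent.P195D

open MulOpposite

noncomputable section

variable {k : Type} [Field k]

/-- No extensions from any `U m` into the projective columns of layer `0`. -/
theorem ez_U_proj0 [CharZero k] (m n : ℕ) (d : Ob) (hl : d.lay = 0) (hd : 0 ≤ d.a) :
    EZ (Alg k) (Um k m) (Col k d) n :=
  OrthProj.ez_U_proj0 m n d hl hd

end

end Vale.Agent.P195D
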