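import Vale.Agent.P195D.Homology
import Vale.Agent.P195D.Lift
import Vale.Agent.P195D.Mutation
import Vale.Agent.P195D.ColFacts
import Vale.Agent.P195D.ShiftFacts
import Vale.Agent.P195D.ResFacts
import Vale.Agent.P195D.HomFacts
import Vale.Agent.P195D.OrthFacts
import Vale.Agent.P195D.BimodFacts

/-!
Assembly of the counterexample.
-/

namespace Vale.Agent.P195D

set_option linter.unusedSimpArgs false

open MulOpposite CategoryTheory Abelian

noncomputable section

variable {k : Type} [Field k]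

/-- The inclusion of a column in the algebra. -/
def colToAlg {c : Ob} (v : Ix) (hc : ob v = c) : Col k c →ₗ[Alg k] Alg k where
  toFun x := fun u w => if h : w = v then
      (Submodule.inclusion (le_of_eq (by rw [h, hc])) : Hom' k (ob u) c →ₗ[k] _) (x u)
    else 0
  map_add' x y := Alg.ext fun u w => by
    show (dite _ _ _ : Hom' k (ob u) (ob w)) = dite _ _ _ + dite _ _ _
    split <;> simp
  map_smul' b x := Alg.ext fun u w => by
    subst hc
    show (dite _ _ _ : Hom' k (ob u) (ob w))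
      = ∑ z, comp (ob u) (ob z) (ob w) (b u z) (dite _ _ _)
    by_cases h : w = v
    · subst h
      simp only [dif_pos]
      rw [Col.act_apply, map_sum]
      rfl
    · simp [h]

theorem colToAlg_apply (v u w : Ix) (x : Col k (ob v)) :
    colToAlg v rfl x u w = if h : w = v then h ▸ x u else 0 := by
  show (dite _ _ _ : Hom' k (ob u) (ob w)) = _
  by_cases h : w = v
  · subst h; simp only [dif_pos]; rfl
  · simp [h]

/-- The projection of the algebra onto a column. -/
def algToCol (v : Ix) : Alg k →ₗ[Alg k] Col k (ob v) where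
  toFun b u := b u v
  map_add' x y := rfl
  map_smul' b x := Col.ext fun u => by
    show (b * x) u v = ∑ z, comp (ob u) (ob z) (ob v) (b u z) (x z v)
    rw [Alg.mul_apply]

theorem algToCol_colToAlg (v : Ix) (x : Col k (ob v)) : algToCol v (colToAlg v rfl x) = x :=
  Col.ext fun u => by
    show colToAlg v rfl x u v = x u
    rw [colToAlg_apply, dif_pos rfl]

theorem projective_col {c : Ob} (h : ∃ v, ob v = c) : Module.Projective (Alg k) (Col k c) := by
  obtain ⟨v, rfl⟩ := h
  exact Module.Projective.of_split (colToAlg v rfl) (algToCol v)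
    (LinearMap.ext fun x => algToCol_colToAlg v x)

theorem colToAlg_algToCol_apply (v : Ix) (b : Alg k) :
    colToAlg v rfl (algToCol v b) = b * Alg.e v := Alg.ext fun u w => by
  rw [colToAlg_apply, Alg.mul_apply]
  by_cases h : w = v
  · subst h
    rw [dif_pos rfl, Finset.sum_eq_single w]
    · show b u w = _
      simp [Alg.e]
    · intro z _ hz
      simp [Alg.e, hz]
    · simp
  · rw [dif_neg h]
    symm
    refine Finset.sum_eq_zero fun z _ => ?_
    simp [Alg.e, h]

theorem algToCol_e (v : Ix) (x : Col k (ob v)) : colToAlg v rfl x * Alg.e v = colToAlg v rfl x := by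
  rw [← colToAlg_algToCol_apply, algToCol_colToAlg]

theorem e_mul_e (v : Ix) : (Alg.e v : Alg k) * Alg.e v = Alg.e v := by
  rw [← colToAlg_algToCol_apply]
  refine Alg.ext fun u w => ?_
  rw [colToAlg_apply]
  by_cases h : w = v
  · subst h; rw [dif_pos rfl]; rfl
  · rw [dif_neg h]; simp [Alg.e, h]

/-- A column is isomorphic to the left ideal of its idempotent. -/
def colEquiv (v : Ix) : Col k (ob v) ≃ₗ[Alg k] col (Alg.e v : Alg k) :=
  LinearEquiv.ofBijective
    ((colToAlg v rfl).codRestrict _ fun x =>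
      Submodule.mem_span_singleton.2 ⟨colToAlg v rfl x, by rw [smul_eq_mul, algToCol_e]⟩)
    ⟨fun x y h => by
      have h' : colToAlg v rfl x = colToAlg v rfl y := congrArg Subtype.val h
      rw [← algToCol_colToAlg v x, h', algToCol_colToAlg],
    fun z => by
      obtain ⟨b, hb⟩ := Submodule.mem_span_singleton.1 z.2
      refine ⟨algToCol v z.1, Subtype.ext ?_⟩
      show colToAlg v rfl (algToCol v z.1) = z.1
      rw [colToAlg_algToCol_apply, ← hb, smul_eq_mul, mul_assoc, e_mul_e]⟩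

theorem ez_of_equiv {B : Type} [Ring B] {M N N' : Type} [AddCommGroup M] [Module B M]
    [AddCommGroup N] [Module B N] [AddCommGroup N'] [Module B N'] (e : N ≃ₗ[B] N') {n : ℕ}
    (h : EZ B M N n) : EZ B M N' n := by
  refine subsingleton_of_forall_eq 0 fun x => ?_
  have he : ModuleCat.ofHom e.symm.toLinearMap ≫ ModuleCat.ofHom e.toLinearMap
      = 𝟙 (ModuleCat.of B N') := by
    ext y; simp
  have h0 : x.comp (Ext.mk₀ (ModuleCat.ofHom e.symm.toLinearMap)) (add_zero n) = 0 :=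
    @Subsingleton.elim _ h _ 0
  calc x = x.comp (Ext.mk₀ (𝟙 _)) (add_zero n) := (Ext.comp_mk₀_id x).symm
    _ = 0 := by
      rw [← he, ← Ext.mk₀_comp_mk₀, ← Ext.comp_assoc_of_third_deg_zero, h0, Ext.zero_comp]

theorem qob_t0 : ob gIx = Res.qob 0 (Res.t0).1 := by
  simp [ob, gIx, Res.qob, Res.t0, Res.qa, Res.qb]

theorem qob_window (t : Res.Slot) : ∃ v, ob v = Res.qob 0 t := by
  obtain ⟨r, q⟩ := t
  refine ⟨(r, ⟨(Res.qa q).toNat, by fin_cases q <;> simp [Res.qa]⟩,
    ⟨(Res.qb q).toNat, by fin_cases q <;> simp [Res.qb]⟩), ?_⟩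
  fin_cases q <;> simp [ob, Res.qob, Res.qa, Res.qb]

instance (t : Res.Slot) : Module.Projective (Alg k) (Col k (Res.qob 0 t)) :=
  projective_col (qob_window t)

/-- The presentation map of the syzygy of `U 0` inside the algebra. -/
def pQ (k : Type) [Field k] : QT k 0 1 →ₗ[Alg k] Alg k :=
  (colToAlg gIx qob_t0).comp ((LinearMap.proj Res.t0).comp (qd k 0 0))

theorem colToAlg_injective {c : Ob} (v : Ix) (hc : ob v = c) :
    Function.Injective (colToAlg (k := k) v hc) := by
  subst hc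
  exact Function.LeftInverse.injective (algToCol_colToAlg v)

theorem ker_pQ [CharZero k] : LinearMap.ker (pQ k) = LinearMap.range (qd k 0 1) := by
  ext x
  rw [LinearMap.mem_ker, LinearMap.mem_range]
  have h : pQ k x = 0 ↔ qd k 0 0 x = 0 := by
    constructor
    · intro h
      have h' : qd k 0 0 x Res.t0 = 0 :=
        colToAlg_injective gIx qob_t0 (h.trans (map_zero _).symm)
      funext t
      rw [Res.T_zero_eq t]
      exact h'
    · intro h
      show colToAlg gIx qob_t0 (qd k 0 0 x Res.t0) = 0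
      rw [h]
      exact map_zero _
  rw [h]
  exact (qd_exact_succ 0 0 x).trans Iff.rfl

theorem smul_u0 (b : Alg k) (u : Ix) :
    (b • u0 k) u = actHom 0 .reg (0 : ℕ) (ob u) (ob gIx) (b u gIx) (u0 k gIx) := by
  rw [LMod.act_apply, Finset.sum_eq_single gIx]
  · intro z _ hz
    have hz0 : u0 k z = 0 := Pi.single_eq_of_ne hz _
    rw [hz0, map_zero]
  · simp

theorem colToAlg_mul_e {c : Ob} (v : Ix) (hc : ob v = c) (x : Col k c) :
    colToAlg v hc x * Alg.e v = colToAlg v hc x := by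
  subst hc
  exact algToCol_e v x

theorem exists_colToAlg {c : Ob} (v : Ix) (hc : ob v = c) (b : Alg k) (hb : b * Alg.e v = b) :
    ∃ x : Col k c, colToAlg v hc x = b := by
  subst hc
  exact ⟨algToCol v b, by rw [colToAlg_algToCol_apply, hb]⟩

instance projective_QT (n : ℕ) : Module.Projective (Alg k) (QT k 0 n) :=
  Module.Projective.of_equiv (DFinsupp.linearEquivFunOnFintype (R := Alg k)
    (M := fun t : Res.T n => Col k (Res.qob 0 t.1)))

theorem range_pQ [CharZero k] (b : Alg k) :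
    b ∈ LinearMap.range (pQ k) ↔ b * Alg.e gIx = b ∧ b • u0 k = 0 := by
  have key : ∀ (c : Ob) (hc : ob gIx = c) (y : ↥(sps k 0 .reg ((0 : ℕ) : ℤ) c))
      (hy : y.1 = Finsupp.single 0 1) (x : Col k c),
      evalL y x = colToAlg gIx hc x • u0 k := by
    rintro c rfl y hy x
    refine LMod.ext fun u => Subtype.ext ?_
    rw [smul_u0, colToAlg_apply, dif_pos rfl, evalL_apply, actHom_val, actHom_val, hy]
    simp [u0]
  constructor
  · rintro ⟨x, rfl⟩
    refine ⟨?_, ?_⟩
    · exact colToAlg_mul_e gIx qob_t0 _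
    · show colToAlg gIx qob_t0 _ • u0 k = 0
      rw [← key _ qob_t0 (topVal k 0) rfl]
      exact (qd_exact_zero 0).apply_apply_eq_zero x
  · rintro ⟨h1, h2⟩
    obtain ⟨z, hz⟩ := exists_colToAlg gIx qob_t0 b h1
    let y : QT k 0 0 := fun t => (Res.T_zero_eq t).symm ▸ z
    have hy : y Res.t0 = z := rfl
    have h0 : qaug k 0 y = 0 := by
      show evalL (topVal k 0) (y Res.t0) = 0
      rw [key _ qob_t0 (topVal k 0) rfl, hy, hz, h2]
    obtain ⟨x, hx⟩ := (qd_exact_zero 0 y).1 h0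
    exact ⟨x, by
      show colToAlg gIx qob_t0 (qd k 0 0 x Res.t0) = b
      rw [hx, hy, hz]⟩

theorem op_e_smul (v : Ix) (g : Shift k) (hg : ∀ w, w ≠ v → g w = 0) :
    op (Alg.e v : Alg k) • g = g := Shift.ext fun w => Col.ext fun u => by
  rw [Shift.op_smul_apply, Shift.col_sum_apply, Finset.sum_eq_single v]
  · rw [Col.rmul_apply, unop_op]
    by_cases h : w = v
    · subst h
      simp [Alg.e, shHom_idm]
    · simp [Alg.e, h, hg w h]
  · intro z _ hz
    simp [hg z hz]
  · simp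

theorem h_smul_U (m : ℕ) (x : Um k m) : (Alg.e hIx : Alg k) • x = 0 :=
  LMod.ext fun u => by
    rw [LMod.act_apply]
    refine Finset.sum_eq_zero fun v _ => Subtype.ext ?_
    by_cases h : u = hIx ∧ v = hIx
    · obtain ⟨rfl, rfl⟩ := h
      have h0 : opOf 0 ((Alg.e hIx : Alg k) hIx hIx) = 0 := if_neg (by simp [hIx])
      rw [actHom_val, h0]
      simp
    · have : (Alg.e hIx : Alg k) u v = 0 := if_neg h
      rw [this]
      simp

theorem e_smul_u0 : (Alg.e gIx : Alg k) • u0 k = u0 k := LMod.ext fun u => by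
  rw [smul_u0]
  by_cases h : u = gIx
  · subst h
    simp [Alg.e, actHom_idm]
  · have : (Alg.e gIx : Alg k) u gIx = 0 := if_neg (fun h' => h h'.1)
    rw [this]
    simp [u0, h]

theorem u0_ne_zero : u0 k ≠ 0 := fun h => by
  have := congrArg (fun x : Um k 0 => (x gIx).1 (0 : Gam)) h
  simp [u0] at this

theorem u0_generates (x : Um k 0) : ∃ b : Alg k, b • u0 k = x := by
  classical
  have hmem : ∀ u : Ix, u.1 = 0 → (x u).1 0 • idP k ∈ Hm k (ob u) (ob gIx) ∨ u.2.1 ≠ 0 := by
    intro u hu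
    by_cases ha : u.2.1 = 0
    · left
      refine Submodule.smul_mem _ _ ?_
      rw [mem_Hm_E (by simp [gIx])]
      refine ⟨?_, Submodule.zero_mem _⟩
      rw [show (ob gIx).a - (ob u).a = 0 by simp [gIx, ha]]
      exact one_mem_Sp0' (by simp [gIx]; omega)
    · exact Or.inr ha
  let b : Alg k := fun u w => if h : (x u).1 0 • idP k ∈ Hm k (ob u) (ob w) ∧ w = gIx then
    ⟨(x u).1 0 • idP k, h.1⟩ else 0
  refine ⟨b, LMod.ext fun u => Subtype.ext ?_⟩
  rw [smul_u0, actHom_val]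
  have hsupp : ∀ p, (x u).1 p ≠ 0 → u.1 = 0 ∧ p = 0 ∧ u.2.1 = 0 := by
    intro p hp
    have hm : (x u).1 ∈ (if (ob u).lay = 0 then MS k .reg (((0 : ℕ) : ℤ) - (ob u).a) else ⊥) :=
      (x u).2
    by_cases hu : u.1 = 0
    · rw [if_pos (show (ob u).lay = 0 from hu)] at hm
      obtain ⟨⟨h1, h2⟩, h3⟩ := (Finsupp.mem_supported k _).1 hm (Finsupp.mem_support_iff.2 hp)
      simp at h3
      refine ⟨hu, Prod.ext ?_ ?_, Fin.ext ?_⟩ <;> simp <;> omega
    · rw [if_neg (show (ob u).lay ≠ 0 from hu), Submodule.mem_bot] at hm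
      rw [hm] at hp
      exact absurd rfl hp
  have hx : (x u).1 = Finsupp.single 0 ((x u).1 0) := Finsupp.ext fun p => by
    by_cases hp : p = 0
    · simp [hp]
    · rw [Finsupp.single_eq_of_ne hp]
      by_contra h
      exact hp (hsupp p h).2.1
  by_cases h0 : (x u).1 0 = 0
  · have hb : b u gIx = 0 := by
      refine Subtype.ext ?_
      simp only [b]
      split <;> simp [h0]
    rw [hb, hx, h0]
    have hz : opOf 0 (0 : Hom' k (ob u) (ob gIx)) = 0 := ite_self _
    simp [hz]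
  · obtain ⟨hu, -, ha⟩ := hsupp 0 h0
    have hm := (hmem u hu).resolve_right (fun h => h ha)
    have hb : b u gIx = ⟨(x u).1 0 • idP k, hm⟩ := dif_pos ⟨hm, rfl⟩
    rw [hb]
    conv_rhs => rw [hx]
    simp [opOf, idP, u0, gIx, hu, act_one]

instance (k : Type) [Field k] (m : ℕ) : Module.Finite (Alg k) (Um k m) :=
  Module.Finite.of_restrictScalars_finite k (Alg k) (Um k m)

theorem counterexample [CharZero k] : ARCounterexample k := by
  have hle : LinearMap.ker (qd k 0 1) ≤ LinearMap.ker (vQ k) := fun x hx => by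
    obtain ⟨y, rfl⟩ := (qd_exact_succ 0 1 x).1 hx
    exact LinearMap.congr_fun vQ_cocycle y
  let v : LinearMap.ker (pQ k) →ₗ[Alg k] Shift k :=
    ((Submodule.liftQ _ (vQ k) hle).comp (qd k 0 1).quotKerEquivRange.symm.toLinearMap).comp
      (Submodule.inclusion (le_of_eq ker_pQ))
  have hv_d : ∀ y, ∀ hy : qd k 0 1 y ∈ LinearMap.ker (pQ k), v ⟨_, hy⟩ = vQ k y := by
    intro y hy
    have : (qd k 0 1).quotKerEquivRange.symm ⟨qd k 0 1 y, LinearMap.mem_range_self _ y⟩
        = Submodule.Quotient.mk y := LinearMap.quotKerEquivRange_symm_apply_image _ y _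
    show Submodule.liftQ _ (vQ k) hle
      ((qd k 0 1).quotKerEquivRange.symm ⟨qd k 0 1 y, LinearMap.mem_range_self _ y⟩) = _
    rw [this]
    rfl
  have hrep : ∀ x : LinearMap.ker (pQ k),
      ∃ (y : QT k 0 2) (hy : qd k 0 1 y ∈ LinearMap.ker (pQ k)), x = ⟨_, hy⟩ := by
    rintro ⟨x, hx⟩
    obtain ⟨y, rfl⟩ : ∃ y, qd k 0 1 y = x := by rwa [ker_pQ] at hx
    exact ⟨y, hx, rfl⟩
  have hmem : ∀ y : QT k 0 2, qd k 0 1 y ∈ LinearMap.ker (pQ k) := fun y => by
    rw [ker_pQ]; exact LinearMap.mem_range_self _ y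
  have hv : ∀ x, op (Alg.e hIx : Alg k) • v x = v x := by
    intro x
    obtain ⟨y, hy, rfl⟩ := hrep x
    rw [hv_d y hy]
    exact op_e_smul hIx _ fun w hw => Pi.single_eq_of_ne hw _
  have hW : ∀ φ : LinearMap.ker (pQ k) →ₗ[Alg k] Shift k,
      ∃ (ρ : Alg k) (ψ : QT k 0 1 →ₗ[Alg k] Shift k),
        Alg.e hIx * ρ = ρ ∧ ∀ x, φ x = op ρ • v x + ψ x.1 := by
    intro φ
    let f : QT k 0 2 →ₗ[Alg k] Shift k := φ.comp ((qd k 0 1).codRestrict _ hmem)
    have hf : f ∘ₗ qd k 0 2 = 0 := LinearMap.ext fun z => by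
      show φ ⟨qd k 0 1 (qd k 0 2 z), _⟩ = 0
      have h0 : qd k 0 1 (qd k 0 2 z) = 0 := (qd_exact_succ 0 1).apply_apply_eq_zero z
      exact (congrArg φ (Subtype.ext h0 :
        (⟨qd k 0 1 (qd k 0 2 z), hmem _⟩ : LinearMap.ker (pQ k)) = 0)).trans (map_zero φ)
    obtain ⟨ρ, g, hρ, hg⟩ := cocycle_two f hf
    refine ⟨ρ, g, hρ, fun x => ?_⟩
    obtain ⟨y, hy, rfl⟩ := hrep x
    rw [hv_d y hy]
    exact hg y
  have hS : ∀ S : Submodule (Alg k) (RDual k (Alg k)),
      (∀ ξ, ξ ∈ S ↔ (∀ ρ, RDual.eval k (Alg k) ξ ((1 - Alg.e hIx) * ρ) = 0) ∧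
        ∀ ρ : Alg k, Alg.e hIx * ρ = ρ →
          (∃ ψ : QT k 0 1 →ₗ[Alg k] Shift k, ∀ x, op ρ • v x = ψ x.1) →
          RDual.eval k (Alg k) ξ ρ = 0) → ∀ m n, EZ (Alg k) (Um k m) S n := by
    intro S h m n
    refine ez_U_wDual S (fun ξ => (h ξ).trans (and_congr_right fun _ => ?_)) m n
    refine forall_congr' fun ρ => forall_congr' fun hρ => imp_congr ?_ Iff.rfl
    rw [← vQ_coboundary_iff ρ hρ]
    constructor
    · rintro ⟨ψ, hψ⟩
      exact ⟨ψ, fun y => by rw [← hv_d y (hmem y)]; exact hψ _⟩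
    · rintro ⟨g, hg⟩
      refine ⟨g, fun x => ?_⟩
      obtain ⟨y, hy, rfl⟩ := hrep x
      rw [hv_d y hy]
      exact hg y
  have hcol : ∀ m n, EZ (Alg k) (Um k m) (col (Alg.e gIx : Alg k)) n := fun m n =>
    ez_of_equiv (colEquiv gIx) (ez_U_proj0 m n _ rfl (by simp [gIx]))
  obtain ⟨Y, i1, i2, i3, i4, i5, i6, i7, i8, hY, hC⟩ :=
    exists_mutation (k := k) (fun m => Um k m) (Shift k) (Alg.e gIx) (Alg.e hIx)
      (e_mul_e gIx) (e_mul_e hIx) h_smul_U (u0 k) u0_ne_zero e_smul_u0 u0_generates hcol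
      ez_U0_self end_U0 ez_U_U0 ez_U0_shift (QT k 0 1) (pQ k) range_pQ v hv hW hS
  have hres : ∀ m, Nonempty (FreeRes (Alg k) (Um k m)) := fun m => exists_freeRes k _
  let P := fun m => (hres m).some
  have : Nontrivial (Um k 0) := ⟨⟨u0 k, 0, u0_ne_zero⟩⟩
  exact lift_counterexample Y (fun m => Um k m) P
    (fun m => (hC m (P m) (P (m + 1)) (comparison_shift m (P m) (P (m + 1))).some).some)
    hY ez_U_U0 ez_U0_self

end

end Vale.Agent.P195D
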