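import Vale.Agent.P195D.Maps

/-!
Left multiplication by the two variables: the Koszul facts for the spaces of morphisms and for
homogeneous polynomials.
-/

namespace Vale.Agent.P195D

open MvPolynomial

noncomputable section

variable {k : Type} [Field k]

theorem wmul_neg (a b : W k) : a * -b = -(a * b) := mul_neg a b

theorem wneg_mul (a b : W k) : -a * b = -(a * b) := neg_mul a b

theorem cf_mon_mul (γ : Gam) (f : Pl k) (w : W k) (δ : Gam) :
    cf (mon γ f * w) δ = f * tau γ (cf w (δ - γ)) := by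
  induction w using W_induction with
  | hmon γ' g =>
    rw [mon_mul_mon, cf_mon, cf_mon]
    by_cases h : γ + γ' = δ
    · rw [if_pos h, if_pos (by rw [← h]; abel)]
    · rw [if_neg h, if_neg (fun h' => h (by rw [h']; abel)), map_zero, mul_zero]
  | hadd u v h h' => rw [mul_add, cf_add, cf_add, map_add, h, h', mul_add]

theorem xInv_mul_xW (i : Fin 2) : xInv k i * xW k i = 1 := by
  rw [xInv, xW, mon_mul_mon, map_one, mul_one, neg_add_cancel, one_eq_mon]

theorem xW_mul_xInv (i : Fin 2) : xW k i * xInv k i = 1 := by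
  rw [xInv, xW, mon_mul_mon, map_one, mul_one, add_neg_cancel, one_eq_mon]

theorem xW_cancel (i : Fin 2) {u v : W k} (h : xW k i * u = xW k i * v) : u = v := by
  simpa [← mul_assoc, xInv_mul_xW] using congrArg (xInv k i * ·) h

theorem xInv0_pres : xInv k 0 ∈ Pres k .fst := (xInv0_mem (k := k) (β := 1) le_rfl).2

theorem xInv1_pres : xInv k 1 ∈ Pres k .snd := (xInv1_mem (k := k) (β := 1) le_rfl).2

theorem xW_pres (i : Fin 2) (S : Dom) : xW k i ∈ Pres k S := Sp0_le_Pres S (xW_mem i le_rfl)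

theorem xW_mul_Sp (i : Fin 2) {δ β : ℤ} {w : W k} (h : w ∈ Sp k δ β) :
    xW k i * w ∈ Sp k (1 + δ) β := by
  simpa using mul_mem_Sp (Sp0_le_Sp _ _ (xW_mem (k := k) i (β := 0) le_rfl)) h

/-- A space of operators with domain conditions switched on or off. -/
def TT (k : Type) [Field k] (s t : Prop) (δ β : ℤ) : Submodule k (W k) where
  carrier := {w | w ∈ Sp k δ β ∧ (s → w ∈ Pres k .fst) ∧ (t → w ∈ Pres k .snd)}
  add_mem' := fun ⟨a, b, c⟩ ⟨a', b', c'⟩ =>
    ⟨Submodule.add_mem _ a a', fun h => Submodule.add_mem _ (b h) (b' h),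
      fun h => Submodule.add_mem _ (c h) (c' h)⟩
  zero_mem' := ⟨Submodule.zero_mem _, fun _ => Submodule.zero_mem _, fun _ => Submodule.zero_mem _⟩
  smul_mem' := fun r _ ⟨a, b, c⟩ =>
    ⟨Submodule.smul_mem _ r a, fun h => Submodule.smul_mem _ r (b h),
      fun h => Submodule.smul_mem _ r (c h)⟩

theorem mem_TT {s t : Prop} {δ β : ℤ} {w : W k} :
    w ∈ TT k s t δ β ↔ w ∈ Sp k δ β ∧ (s → w ∈ Pres k .fst) ∧ (t → w ∈ Pres k .snd) := Iff.rfl

theorem mem_Hm_TT {u v : Ob} {x : Pr k} :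
    x ∈ Hm k u v ↔
      x.1 ∈ TT k True (¬ (u.lay = 0 ∧ v.lay = 1)) (v.a - u.a) (v.b - u.b) ∧
        x.2 ∈ TT k False (u.lay = 0 ∧ v.lay = 1) (v.a - u.a) (v.b - u.b) := by
  by_cases h : u.lay = 0 ∧ v.lay = 1
  · rw [mem_Hm_L h]
    simp only [mem_TT, h, Sp1, Sp2, Submodule.mem_inf, not_true_eq_false, and_self,
      false_implies, true_implies, and_true, true_and]
  · rw [mem_Hm_E h]
    simp only [mem_TT, h, Sp0, Sp1, Sp2, Submodule.mem_inf, not_false_eq_true,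
      false_implies, true_implies, and_true]
    tauto

theorem xInv_mul_mem (i : Fin 2) {δ β : ℤ} {γ : Gam} {f : Pl k}
    (hs : f = 0 ∨ γ.1 + γ.2 = δ + 1 ∧ -β ≤ γ.1 ∧ -β ≤ γ.2 ∧ 0 ≤ β ∧ 1 ≤ crd γ i ∧
      (f.totalDegree : ℤ) ≤ β) :
    xInv k i * mon γ f ∈ Sp k δ β := by
  rw [xInv, mon_mul_mon, one_mul]
  refine mon_mem_Sp ?_
  rcases hs with rfl | ⟨h1, h2, h3, h4, h5, h6⟩
  · exact Or.inl (map_zero _)
  refine Or.inr ⟨?_, le_trans (by exact_mod_cast totalDegree_tau_le _ f) h6⟩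
  fin_cases i <;> simp [Inside, unitG, crd] at h5 ⊢ <;> omega

/-- Every operator of relative degree `δ + 1 ≥ 1` is `x₀ y₀ + x₁ y₁`. -/
theorem TT_split {s t : Prop} {δ β : ℤ} (hδ : 0 ≤ δ) {w : W k} (hw : w ∈ TT k s t (δ + 1) β) :
    ∃ y0 y1, y0 ∈ TT k s t δ β ∧ y1 ∈ TT k s t δ β ∧ xW k 0 * y0 + xW k 1 * y1 = w := by
  rw [W_eq_sum w]
  refine Finset.sum_induction _ (fun z => ∃ y0 y1, y0 ∈ TT k s t δ β ∧ y1 ∈ TT k s t δ β ∧
    xW k 0 * y0 + xW k 1 * y1 = z) ?_ ?_ fun g _ => ?_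
  · rintro _ _ ⟨a, b, ha, hb, rfl⟩ ⟨a', b', ha', hb', rfl⟩
    exact ⟨a + a', b + b', Submodule.add_mem _ ha ha', Submodule.add_mem _ hb hb', by
      simp only [mul_add]; abel⟩
  · exact ⟨0, 0, Submodule.zero_mem _, Submodule.zero_mem _, by simp⟩
  generalize g.toAdd = γ
  obtain ⟨h, hs, ht⟩ := mem_TT.1 hw
  rcases h γ with h0 | ⟨⟨h1, h2, h3, h4⟩, h5⟩
  · exact ⟨0, 0, Submodule.zero_mem _, Submodule.zero_mem _, by simp [h0]⟩
  have key : ∀ i : Fin 2, 1 ≤ crd γ i → xInv k i * mon γ (cf w γ) ∈ TT k s t δ β := by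
    intro i hi
    refine mem_TT.2 ⟨xInv_mul_mem i (Or.inr ⟨h1, h2, h3, h4, hi, h5⟩), fun h' => ?_, fun h' => ?_⟩
    · rcases (show i = 0 ∨ i = 1 by omega) with rfl | rfl
      · exact mul_mem_Pres xInv0_pres (Pres_component (hs h') γ)
      · rw [xInv, mon_mul_mon, one_mul]
        refine mon_mem_Pres fun q hq hq' => ?_
        simp [Dom.Mem, unitG, crd] at hq hq' hi
        omega
    · rcases (show i = 0 ∨ i = 1 by omega) with rfl | rfl
      · rw [xInv, mon_mul_mon, one_mul]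
        refine mon_mem_Pres fun q hq hq' => ?_
        simp [Dom.Mem, unitG, crd] at hq hq' hi
        omega
      · exact mul_mem_Pres xInv1_pres (Pres_component (ht h') γ)
  by_cases hγ : 1 ≤ γ.1
  · exact ⟨_, 0, key 0 (by simpa [crd] using hγ), Submodule.zero_mem _, by
      rw [← mul_assoc, xW_mul_xInv, one_mul, mul_zero, add_zero]⟩
  · exact ⟨0, _, Submodule.zero_mem _, key 1 (by simp [crd]; omega), by
      rw [← mul_assoc, xW_mul_xInv, one_mul, mul_zero, zero_add]⟩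

/-- The kernel of `(y₀, y₁) ↦ x₀ y₀ + x₁ y₁`. -/
theorem TT_ker {s t : Prop} {δ β : ℤ} {y0 y1 : W k} (h0 : y0 ∈ TT k s t δ β)
    (h1 : y1 ∈ TT k s t δ β) (h : xW k 0 * y0 + xW k 1 * y1 = 0) :
    ∃ z ∈ TT k s t (δ - 1) β, xW k 1 * z = y0 ∧ -(xW k 0 * z) = y1 := by
  set z := xInv k 1 * y0 with hz
  have e0 : xW k 1 * z = y0 := by rw [hz, ← mul_assoc, xW_mul_xInv, one_mul]
  have e1 : -(xW k 0 * z) = y1 := by
    refine xW_cancel 1 ?_
    rw [wmul_neg, ← mul_assoc, ← xW_comm, mul_assoc, e0]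
    exact neg_eq_of_add_eq_zero_right h
  have e2 : z = -(xInv k 0 * y1) := by
    rw [← e1, wmul_neg, neg_neg, ← mul_assoc, xInv_mul_xW, one_mul]
  refine ⟨z, mem_TT.2 ⟨fun γ => ?_, fun hs => ?_, fun ht => ?_⟩, e0, e1⟩
  · by_cases hzγ : cf z γ = 0
    · exact Or.inl hzγ
    have c0 : cf z γ = tau (-unitG 1) (cf y0 (γ + unitG 1)) := by
      rw [hz, xInv, cf_mon_mul, one_mul, sub_neg_eq_add]
    have c1 : cf z γ = -tau (-unitG 0) (cf y1 (γ + unitG 0)) := by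
      rw [e2, xInv, show -(mon (-unitG 0) (1 : Pl k) * y1) = mon (-unitG 0) 1 * (-y1) by
        rw [wmul_neg], cf_mon_mul, one_mul, sub_neg_eq_add,
        show cf (-y1) (γ + unitG 0) = -cf y1 (γ + unitG 0) by
          rw [eq_neg_iff_add_eq_zero, ← cf_add, neg_add_cancel, cf_zero], map_neg]
    rcases h0.1 (γ + unitG 1) with b | ⟨⟨a1, a2, a3, a4⟩, a5⟩
    · exact absurd (by rw [c0, b, map_zero]) hzγ
    rcases h1.1 (γ + unitG 0) with b | ⟨⟨b1, b2, b3, b4⟩, b5⟩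
    · exact absurd (by rw [c1, b, map_zero, neg_zero]) hzγ
    refine Or.inr ⟨?_, by rw [c0]; exact le_trans (by exact_mod_cast totalDegree_tau_le _ _) a5⟩
    simp [Inside, unitG] at a1 a2 a3 b1 b2 b3 ⊢
    omega
  · rw [e2]; exact Submodule.neg_mem _ (mul_mem_Pres xInv0_pres (h1.2.1 hs))
  · exact mul_mem_Pres xInv1_pres (h0.2.2 ht)

/-! ### Composition with a multiplication -/

theorem mulP_x_left (i l : Fin 2) (j : Fin 2) (y : Pr k) :
    mulP i i l ((xW k j, 0) : Pr k) y = (xW k j * y.1, xW k j * y.2) := by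
  fin_cases i <;> fin_cases l <;> simp [mulP]

theorem mulP_neg_x_left (i l : Fin 2) (j : Fin 2) (y : Pr k) :
    mulP i i l ((-xW k j, 0) : Pr k) y = (-(xW k j * y.1), -(xW k j * y.2)) := by
  fin_cases i <;> fin_cases l <;> simp [mulP, wneg_mul]

theorem mulP_idP_left (i l : Fin 2) (y : Pr k) : mulP i i l (idP k) y = y := by
  fin_cases i <;> fin_cases l <;> simp [mulP, idP]

/-! ### Polynomials -/

theorem act_xW_single (i : Fin 2) (p : Gam) (c : k) :
    act (xW k i) (Finsupp.single p c) = Finsupp.single (p + unitG i) c := by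
  rw [xW, act_mon_single, map_one, one_mul]

theorem act_xW_MS (i : Fin 2) {S : Dom} {n : ℤ} {x : Lau k} (h : x ∈ MS k S n) :
    act (xW k i) x ∈ MS k S (1 + n) :=
  act_mem_MS (Sp0_le_Sp _ _ (xW_mem (k := k) i (β := 0) le_rfl)) (xW_pres i S) h

theorem act_xW_cancel (i : Fin 2) {x : Lau k} (h : act (xW k i) x = 0) : x = 0 := by
  rw [← act_one x, ← xInv_mul_xW i, act_mul, h, map_zero]

/-- A homogeneous polynomial of positive degree is `x₀ y₀ + x₁ y₁`. -/
theorem MS_split {n : ℤ} (hn : 0 ≤ n) {x : Lau k} (hx : x ∈ MS k .reg (n + 1)) :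
    ∃ y0 y1, y0 ∈ MS k .reg n ∧ y1 ∈ MS k .reg n ∧
      act (xW k 0) y0 + act (xW k 1) y1 = x := by
  classical
  rw [← Finsupp.sum_single x, Finsupp.sum]
  refine Finset.sum_induction _ (fun z => ∃ y0 y1, y0 ∈ MS k .reg n ∧ y1 ∈ MS k .reg n ∧
    act (xW k 0) y0 + act (xW k 1) y1 = z) ?_ ?_ fun p hp => ?_
  · rintro _ _ ⟨a, b, ha, hb, rfl⟩ ⟨a', b', ha', hb', rfl⟩
    exact ⟨a + a', b + b', Submodule.add_mem _ ha ha', Submodule.add_mem _ hb hb', by
      simp only [map_add]; abel⟩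
  · exact ⟨0, 0, Submodule.zero_mem _, Submodule.zero_mem _, by simp⟩
  obtain ⟨⟨p1, p2⟩, p3⟩ := (Finsupp.mem_supported k x).1 hx hp
  by_cases hγ : 1 ≤ p.1
  · refine ⟨Finsupp.single (p - unitG 0) (x p), 0, Finsupp.single_mem_supported k _ ?_,
      Submodule.zero_mem _, ?_⟩
    · simp [Dom.Mem, unitG]; omega
    · rw [act_xW_single, sub_add_cancel, map_zero, add_zero]
  · refine ⟨0, Finsupp.single (p - unitG 1) (x p), Submodule.zero_mem _,
      Finsupp.single_mem_supported k _ ?_, ?_⟩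
    · simp [Dom.Mem, unitG]; omega
    · rw [act_xW_single, sub_add_cancel, map_zero, zero_add]

/-- The kernel on homogeneous polynomials. -/
theorem MS_ker {n : ℤ} {y0 y1 : Lau k} (h0 : y0 ∈ MS k .reg n) (h1 : y1 ∈ MS k .reg n)
    (h : act (xW k 0) y0 + act (xW k 1) y1 = 0) :
    ∃ z ∈ MS k .reg (n - 1), act (xW k 1) z = y0 ∧ -act (xW k 0) z = y1 := by
  set z := act (xInv k 1) y0 with hz
  have e0 : act (xW k 1) z = y0 := by rw [hz, ← act_mul, xW_mul_xInv, act_one]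
  have e1 : -act (xW k 0) z = y1 := by
    rw [← sub_eq_zero]
    refine act_xW_cancel 1 ?_
    rw [map_sub, map_neg, ← act_mul, ← xW_comm, act_mul, e0, sub_eq_add_neg, ← neg_add, h,
      neg_zero]
  have e2 : z = -act (xInv k 0) y1 := by
    rw [← e1, map_neg, neg_neg, ← act_mul, xInv_mul_xW, act_one]
  refine ⟨z, ?_, e0, e1⟩
  have a : z ∈ MS k .snd (n - 1) := by
    have hy : y0 ∈ MS k .snd n :=
      Finsupp.supported_mono (R := k) (M := k) (s := {p : Gam | Dom.reg.Mem p ∧ p.1 + p.2 = n})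
        (t := {p : Gam | Dom.snd.Mem p ∧ p.1 + p.2 = n})
        (fun p (hp : Dom.reg.Mem p ∧ p.1 + p.2 = n) => ⟨hp.1.1, hp.2⟩) h0
    rw [hz, show n - 1 = -1 + n by ring]
    exact act_mem_MS (Sp2_le_Sp _ _ (xInv1_mem (k := k) (β := 1) le_rfl)) xInv1_pres hy
  have b : z ∈ MS k .fst (n - 1) := by
    have hy : y1 ∈ MS k .fst n :=
      Finsupp.supported_mono (R := k) (M := k) (s := {p : Gam | Dom.reg.Mem p ∧ p.1 + p.2 = n})
        (t := {p : Gam | Dom.fst.Mem p ∧ p.1 + p.2 = n})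
        (fun p (hp : Dom.reg.Mem p ∧ p.1 + p.2 = n) => ⟨hp.1.2, hp.2⟩) h1
    rw [e2, show n - 1 = -1 + n by ring]
    exact Submodule.neg_mem _
      (act_mem_MS (Sp1_le_Sp _ _ (xInv0_mem (k := k) (β := 1) le_rfl)) xInv0_pres hy)
  rw [MS, Finsupp.mem_supported] at a b ⊢
  exact fun p hp => ⟨⟨(a hp).1, (b hp).1⟩, (a hp).2⟩

end

end Vale.Agent.P195D
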