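import Vale.Agent.P195D.Spaces

/-!
The category of translated vertices, the algebra `B` and the shift bimodule `G`.

An object is `(layer, a, b)`. A morphism is a pair of operators: `(p₁, p₂) ∈ P₁ × P₂` from layer
`0` to layer `1`, and `(λ, p) ∈ Λ × P` otherwise.
-/

namespace Vale.Agent.P195D

set_option linter.unusedSimpArgs false
set_option linter.unusedVariables false

open MulOpposite

noncomputable section

/-- Objects. -/
structure Ob where
  lay : Fin 2
  a : ℤ
  b : ℤ
  deriving DecidableEq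

/-- Translation in the `a` direction. -/
def Ob.sh (u : Ob) (n : ℤ) : Ob := ⟨u.lay, u.a + n, u.b⟩

@[simp] theorem Ob.sh_lay (u : Ob) (n : ℤ) : (u.sh n).lay = u.lay := rfl
@[simp] theorem Ob.sh_a (u : Ob) (n : ℤ) : (u.sh n).a = u.a + n := rfl
@[simp] theorem Ob.sh_b (u : Ob) (n : ℤ) : (u.sh n).b = u.b := rfl
@[simp] theorem Ob.sh_zero (u : Ob) : u.sh 0 = u := by cases u; simp [Ob.sh]
theorem Ob.sh_sh (u : Ob) (m n : ℤ) : (u.sh m).sh n = u.sh (m + n) := by
  cases u; simp [Ob.sh, add_assoc]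

/-- The twelve vertices of `B`. -/
abbrev Ix : Type := Fin 2 × Fin 2 × Fin 3

/-- The object of a vertex. -/
def ob (v : Ix) : Ob := ⟨v.1, (v.2.1 : ℕ), (v.2.2 : ℕ)⟩

@[simp] theorem ob_lay (v : Ix) : (ob v).lay = v.1 := rfl
@[simp] theorem ob_a (v : Ix) : (ob v).a = ((v.2.1 : ℕ) : ℤ) := rfl
@[simp] theorem ob_b (v : Ix) : (ob v).b = ((v.2.2 : ℕ) : ℤ) := rfl

theorem ob_injective : Function.Injective ob := by
  rintro ⟨i, a, b⟩ ⟨i', a', b'⟩ h
  have h2 := congrArg Ob.a h
  have h3 := congrArg Ob.b h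
  simp only [ob_a, ob_b] at h2 h3
  obtain rfl : i = i' := congrArg Ob.lay h
  obtain rfl : a = a' := Fin.ext (by exact_mod_cast h2)
  obtain rfl : b = b' := Fin.ext (by exact_mod_cast h3)
  rfl

variable {k : Type} [Field k]

/-- Pairs of operators. -/
abbrev Pr (k : Type) [Field k] : Type := W k × W k

/-- Composition of pairs, as a function of the three layers. -/
def mulP (i j l : Fin 2) (x y : Pr k) : Pr k :=
  if i = 0 ∧ j = 1 then
    (if l = 1 then (x.1 * y.1, x.2 * y.1) else (0, (x.1 + x.2) * y.1))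
  else if j = 0 ∧ l = 1 then
    (if i = 0 then (x.1 * y.1, x.1 * y.2) else (0, x.1 * (y.1 + y.2)))
  else (x.1 * y.1, x.1 * y.2 + x.2 * y.1 + pd 1 x.1 * pd 0 y.1)

theorem mulP_assoc (i j l m : Fin 2) (x y z : Pr k) :
    mulP i l m (mulP i j l x y) z = mulP i j m x (mulP j l m y z) := by
  fin_cases i <;> fin_cases j <;> fin_cases l <;> fin_cases m <;>
    simp only [mulP] <;> simp [pd_mul, mul_assoc, add_mul, mul_add] <;> abel

theorem mulP_add_left (i j l : Fin 2) (x x' y : Pr k) :
    mulP i j l (x + x') y = mulP i j l x y + mulP i j l x' y := by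
  fin_cases i <;> fin_cases j <;> fin_cases l <;>
    simp only [mulP] <;> simp [add_mul, mul_add] <;> abel

theorem mulP_add_right (i j l : Fin 2) (x y y' : Pr k) :
    mulP i j l x (y + y') = mulP i j l x y + mulP i j l x y' := by
  fin_cases i <;> fin_cases j <;> fin_cases l <;>
    simp only [mulP] <;> simp [add_mul, mul_add] <;> abel

theorem mulP_smul_left (i j l : Fin 2) (c : k) (x y : Pr k) :
    mulP i j l (c • x) y = c • mulP i j l x y := by
  fin_cases i <;> fin_cases j <;> fin_cases l <;>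
    simp only [mulP] <;> simp [smul_add, ← smul_add, smul_mul_assoc, mul_smul_comm]

theorem mulP_smul_right (i j l : Fin 2) (c : k) (x y : Pr k) :
    mulP i j l x (c • y) = c • mulP i j l x y := by
  fin_cases i <;> fin_cases j <;> fin_cases l <;>
    simp only [mulP] <;> simp [smul_add, ← smul_add, smul_mul_assoc, mul_smul_comm]

/-- The space of morphisms between two objects. -/
def Hm (k : Type) [Field k] (u v : Ob) : Submodule k (Pr k) :=
  if u.lay = 0 ∧ v.lay = 1 then (Sp1 k (v.a - u.a) (v.b - u.b)).prod (Sp2 k (v.a - u.a) (v.b - u.b))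
  else (Sp0 k (v.a - u.a) (v.b - u.b)).prod (Sp k (v.a - u.a) (v.b - u.b))

theorem mem_Hm_L {u v : Ob} (h : u.lay = 0 ∧ v.lay = 1) {x : Pr k} :
    x ∈ Hm k u v ↔ x.1 ∈ Sp1 k (v.a - u.a) (v.b - u.b) ∧ x.2 ∈ Sp2 k (v.a - u.a) (v.b - u.b) := by
  simp [Hm, h, Submodule.mem_prod]

theorem mem_Hm_E {u v : Ob} (h : ¬ (u.lay = 0 ∧ v.lay = 1)) {x : Pr k} :
    x ∈ Hm k u v ↔ x.1 ∈ Sp0 k (v.a - u.a) (v.b - u.b) ∧ x.2 ∈ Sp k (v.a - u.a) (v.b - u.b) := by
  simp [Hm, h, Submodule.mem_prod]

theorem Hm_fst_mem {u v : Ob} {x : Pr k} (hx : x ∈ Hm k u v) :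
    x.1 ∈ Sp k (v.a - u.a) (v.b - u.b) := by
  by_cases h : u.lay = 0 ∧ v.lay = 1
  · exact Sp1_le_Sp _ _ ((mem_Hm_L h).1 hx).1
  · exact Sp0_le_Sp _ _ ((mem_Hm_E h).1 hx).1

theorem Hm_snd_mem {u v : Ob} {x : Pr k} (hx : x ∈ Hm k u v) :
    x.2 ∈ Sp k (v.a - u.a) (v.b - u.b) := by
  by_cases h : u.lay = 0 ∧ v.lay = 1
  · exact Sp2_le_Sp _ _ ((mem_Hm_L h).1 hx).2
  · exact ((mem_Hm_E h).1 hx).2

theorem mulP_mem {u v w : Ob} {x y : Pr k} (hx : x ∈ Hm k u v) (hy : y ∈ Hm k v w) :
    mulP u.lay v.lay w.lay x y ∈ Hm k u w := by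
  have ea : w.a - u.a = (v.a - u.a) + (w.a - v.a) := by ring
  have eb : w.b - u.b = (v.b - u.b) + (w.b - v.b) := by ring
  have x1 := Hm_fst_mem hx
  have x2 := Hm_snd_mem hx
  have y1 := Hm_fst_mem hy
  have y2 := Hm_snd_mem hy
  by_cases hL : u.lay = 0 ∧ v.lay = 1
  · obtain ⟨hx1, hx2⟩ := (mem_Hm_L hL).1 hx
    have hy' := ((mem_Hm_E (by simp [hL.2])).1 hy).1
    rw [mulP, if_pos hL]
    by_cases hl : w.lay = 1
    · rw [if_pos hl, mem_Hm_L ⟨hL.1, hl⟩, ea, eb]
      exact ⟨mul_mem_Sp1 hx1 (Sp0_le_Sp1 _ _ hy'), mul_mem_Sp2 hx2 (Sp0_le_Sp2 _ _ hy')⟩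
    · rw [if_neg hl, mem_Hm_E (by simp [hl]), ea, eb]
      exact ⟨Submodule.zero_mem _, mul_mem_Sp (Submodule.add_mem _ x1 x2) y1⟩
  · have hx' := ((mem_Hm_E hL).1 hx).1
    rw [mulP, if_neg hL]
    by_cases hR : v.lay = 0 ∧ w.lay = 1
    · obtain ⟨hy1, hy2⟩ := (mem_Hm_L hR).1 hy
      rw [if_pos hR]
      by_cases hi : u.lay = 0
      · rw [if_pos hi, mem_Hm_L ⟨hi, hR.2⟩, ea, eb]
        exact ⟨mul_mem_Sp1 (Sp0_le_Sp1 _ _ hx') hy1, mul_mem_Sp2 (Sp0_le_Sp2 _ _ hx') hy2⟩
      · rw [if_neg hi, mem_Hm_E (by simp [hi]), ea, eb]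
        exact ⟨Submodule.zero_mem _, mul_mem_Sp x1 (Submodule.add_mem _ y1 y2)⟩
    · have hy' := ((mem_Hm_E hR).1 hy).1
      have hnot : ¬ (u.lay = 0 ∧ w.lay = 1) := by
        rintro ⟨h1, h2⟩
        have h3 : v.lay ≠ 1 := fun h => hL ⟨h1, h⟩
        exact hR ⟨by omega, h2⟩
      rw [if_neg hR, mem_Hm_E hnot, ea, eb]
      exact ⟨mul_mem_Sp0 hx' hy', Submodule.add_mem _ (Submodule.add_mem _ (mul_mem_Sp x1 y2)
        (mul_mem_Sp x2 y1)) (mul_mem_Sp (pd_mem_Sp 1 x1) (pd_mem_Sp 0 y1))⟩

instance finite_Hm (u v : Ob) : Module.Finite k (Hm k u v) := by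
  have h : Module.Finite k ↥((Sp k (v.a - u.a) (v.b - u.b)).prod (Sp k (v.a - u.a) (v.b - u.b))) :=
    Module.Finite.iff_fg.2
      ((Module.Finite.iff_fg.1 inferInstance).prod (Module.Finite.iff_fg.1 inferInstance))
  exact Submodule.finiteDimensional_of_le
    (S₂ := (Sp k (v.a - u.a) (v.b - u.b)).prod (Sp k (v.a - u.a) (v.b - u.b)))
    fun x hx => ⟨Hm_fst_mem hx, Hm_snd_mem hx⟩

/-- Morphisms. -/
abbrev Hom' (k : Type) [Field k] (u v : Ob) : Type := ↥(Hm k u v)

/-- Composition. -/
def comp (u v w : Ob) : Hom' k u v →ₗ[k] Hom' k v w →ₗ[k] Hom' k u w :=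
  LinearMap.mk₂ k (fun x y => ⟨mulP u.lay v.lay w.lay x.1 y.1, mulP_mem x.2 y.2⟩)
    (fun x x' y => Subtype.ext (mulP_add_left _ _ _ _ _ _))
    (fun c x y => Subtype.ext (mulP_smul_left _ _ _ _ _ _))
    (fun x y y' => Subtype.ext (mulP_add_right _ _ _ _ _ _))
    (fun c x y => Subtype.ext (mulP_smul_right _ _ _ _ _ _))

@[simp] theorem comp_val (u v w : Ob) (x : Hom' k u v) (y : Hom' k v w) :
    (comp u v w x y).1 = mulP u.lay v.lay w.lay x.1 y.1 := rfl

theorem comp_assoc (u v w z : Ob) (x : Hom' k u v) (y : Hom' k v w) (t : Hom' k w z) :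
    comp u w z (comp u v w x y) t = comp u v z x (comp v w z y t) :=
  Subtype.ext (mulP_assoc _ _ _ _ _ _ _)

/-- The pair of the identity. -/
def idP (k : Type) [Field k] : Pr k := (1, 0)

/-- The identity, and zero off the diagonal. -/
def idm (u v : Ob) : Hom' k u v :=
  ⟨if u = v then idP k else 0, by
    split
    · next h =>
      subst h
      rw [mem_Hm_E (by omega), sub_self, sub_self]
      exact ⟨one_mem_Sp0, Submodule.zero_mem _⟩
    · exact Submodule.zero_mem _⟩

theorem idm_of_ne {u v : Ob} (h : u ≠ v) : idm (k := k) u v = 0 := Subtype.ext (if_neg h)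

@[simp] theorem idm_self_val (u : Ob) : (idm (k := k) u u).1 = idP k := if_pos rfl

@[simp] theorem idm_comp (u v : Ob) (x : Hom' k u v) : comp u u v (idm u u) x = x := by
  refine Subtype.ext ?_
  rw [comp_val, idm_self_val]
  generalize x.1 = p
  obtain ⟨i, a, b⟩ := u
  obtain ⟨j, c, d⟩ := v
  fin_cases i <;> fin_cases j <;> simp [mulP, idP]

@[simp] theorem comp_idm (u v : Ob) (x : Hom' k u v) : comp u v v x (idm v v) = x := by
  refine Subtype.ext ?_
  rw [comp_val, idm_self_val]
  generalize x.1 = p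
  obtain ⟨i, a, b⟩ := u
  obtain ⟨j, c, d⟩ := v
  fin_cases i <;> fin_cases j <;> simp [mulP, idP]

/-! ### The algebra -/

/-- The algebra `B`. -/
def Alg (k : Type) [Field k] : Type := ∀ u v : Ix, Hom' k (ob u) (ob v)

namespace Alg

instance : AddCommGroup (Alg k) := inferInstanceAs (AddCommGroup (∀ u v : Ix, Hom' k (ob u) (ob v)))
instance : Module k (Alg k) := inferInstanceAs (Module k (∀ u v : Ix, Hom' k (ob u) (ob v)))
instance : Module.Finite k (Alg k) :=
  inferInstanceAs (Module.Finite k (∀ u v : Ix, Hom' k (ob u) (ob v)))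

@[ext] theorem ext {x y : Alg k} (h : ∀ u v, x u v = y u v) : x = y :=
  funext fun u => funext fun v => h u v

@[simp] theorem add_apply (x y : Alg k) (u v : Ix) : (x + y) u v = x u v + y u v := rfl
@[simp] theorem zero_apply (u v : Ix) : (0 : Alg k) u v = 0 := rfl
@[simp] theorem smul_apply (c : k) (x : Alg k) (u v : Ix) : (c • x) u v = c • x u v := rfl

instance : Mul (Alg k) := ⟨fun x y u w => ∑ v, comp (ob u) (ob v) (ob w) (x u v) (y v w)⟩
instance : One (Alg k) := ⟨fun u v => idm (ob u) (ob v)⟩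

theorem mul_apply (x y : Alg k) (u w : Ix) :
    (x * y) u w = ∑ v, comp (ob u) (ob v) (ob w) (x u v) (y v w) := rfl

theorem one_apply (u v : Ix) : (1 : Alg k) u v = idm (ob u) (ob v) := rfl

instance : Ring (Alg k) where
  mul_assoc x y z := ext fun u z' => by
    simp only [mul_apply, map_sum, LinearMap.sum_apply, comp_assoc]
    exact Finset.sum_comm
  one_mul x := ext fun u w => by
    rw [mul_apply, Finset.sum_eq_single u]
    · simp [one_apply]
    · intro v _ hv
      rw [one_apply, idm_of_ne (fun h => hv (ob_injective h).symm), map_zero, LinearMap.zero_apply]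
    · simp
  mul_one x := ext fun u w => by
    rw [mul_apply, Finset.sum_eq_single w]
    · simp [one_apply]
    · intro v _ hv
      rw [one_apply, idm_of_ne (fun h => hv (ob_injective h)), map_zero]
    · simp
  left_distrib x y z := ext fun u w => by simp [mul_apply, Finset.sum_add_distrib]
  right_distrib x y z := ext fun u w => by simp [mul_apply, Finset.sum_add_distrib]
  zero_mul x := ext fun u w => by simp [mul_apply]
  mul_zero x := ext fun u w => by simp [mul_apply]

instance : Algebra k (Alg k) :=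
  Algebra.ofModule (fun c x y => ext fun u w => by simp [mul_apply, Finset.smul_sum])
    (fun c x y => ext fun u w => by simp [mul_apply, Finset.smul_sum])

/-- The vertex idempotents. -/
def e (v : Ix) : Alg k := fun u w => if u = v ∧ w = v then idm (ob u) (ob w) else 0

/-- The element with a single nonzero entry. -/
def single (u v : Ix) (x : Hom' k (ob u) (ob v)) : Alg k :=
  Pi.single u (Pi.single v x)

end Alg

/-! ### Columns -/

/-- The column module of an object. -/
def Col (k : Type) [Field k] (c : Ob) : Type := ∀ u : Ix, Hom' k (ob u) c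

namespace Col

variable {c d : Ob}

instance : AddCommGroup (Col k c) := inferInstanceAs (AddCommGroup (∀ u : Ix, Hom' k (ob u) c))
instance : Module k (Col k c) := inferInstanceAs (Module k (∀ u : Ix, Hom' k (ob u) c))
instance : Module.Finite k (Col k c) :=
  inferInstanceAs (Module.Finite k (∀ u : Ix, Hom' k (ob u) c))

@[ext] theorem ext {x y : Col k c} (h : ∀ u, x u = y u) : x = y := funext h

@[simp] theorem add_apply (x y : Col k c) (u : Ix) : (x + y) u = x u + y u := rfl
@[simp] theorem zero_apply (u : Ix) : (0 : Col k c) u = 0 := rfl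
@[simp] theorem smul_apply (r : k) (x : Col k c) (u : Ix) : (r • x) u = r • x u := rfl

instance : SMul (Alg k) (Col k c) := ⟨fun b x u => ∑ v, comp (ob u) (ob v) c (b u v) (x v)⟩

theorem act_apply (b : Alg k) (x : Col k c) (u : Ix) :
    (b • x) u = ∑ v, comp (ob u) (ob v) c (b u v) (x v) := rfl

instance : Module (Alg k) (Col k c) where
  one_smul x := ext fun u => by
    rw [act_apply, Finset.sum_eq_single u]
    · simp [Alg.one_apply]
    · intro v _ hv
      rw [Alg.one_apply, idm_of_ne (fun h => hv (ob_injective h).symm), map_zero,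
        LinearMap.zero_apply]
    · simp
  mul_smul a b x := ext fun u => by
    simp only [act_apply, Alg.mul_apply, map_sum, LinearMap.sum_apply, comp_assoc]
    exact Finset.sum_comm
  smul_zero b := ext fun u => by simp [act_apply]
  smul_add b x y := ext fun u => by simp [act_apply, Finset.sum_add_distrib]
  add_smul a b x := ext fun u => by simp [act_apply, Finset.sum_add_distrib]
  zero_smul x := ext fun u => by simp [act_apply]

instance : IsScalarTower k (Alg k) (Col k c) :=
  ⟨fun r b x => ext fun u => by simp [act_apply, Finset.smul_sum]⟩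

/-- Right multiplication by a morphism. -/
def rmul (h : Hom' k c d) : Col k c →ₗ[Alg k] Col k d where
  toFun x u := comp (ob u) c d (x u) h
  map_add' x y := ext fun u => by
    show comp (ob u) c d ((x + y) u) h = comp (ob u) c d (x u) h + comp (ob u) c d (y u) h
    simp
  map_smul' b x := ext fun u => by
    show comp (ob u) c d ((b • x) u) h
      = ∑ v, comp (ob u) (ob v) d (b u v) (comp (ob v) c d (x v) h)
    simp [act_apply, map_sum, LinearMap.sum_apply, comp_assoc]

@[simp] theorem rmul_apply (h : Hom' k c d) (x : Col k c) (u : Ix) :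
    rmul h x u = comp (ob u) c d (x u) h := rfl

theorem rmul_comp {e : Ob} (h : Hom' k c d) (h' : Hom' k d e) (x : Col k c) :
    rmul h' (rmul h x) = rmul (comp c d e h h') x := ext fun u => by simp [comp_assoc]

/-- The generator of the column of a vertex. -/
def gen (v : Ix) : Col k (ob v) := fun u => idm (ob u) (ob v)

end Col

/-! ### The shift bimodule -/

/-- A morphism between translated objects. -/
def shHom {u v : Ob} (n : ℤ) : Hom' k u v →ₗ[k] Hom' k (u.sh n) (v.sh n) :=
  Submodule.inclusion (le_of_eq (by simp [Hm]))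

@[simp] theorem shHom_val {u v : Ob} (n : ℤ) (x : Hom' k u v) : (shHom n x).1 = x.1 := rfl

theorem shHom_comp {u v w : Ob} (n : ℤ) (x : Hom' k u v) (y : Hom' k v w) :
    shHom n (comp u v w x y) = comp (u.sh n) (v.sh n) (w.sh n) (shHom n x) (shHom n y) :=
  Subtype.ext (by simp)

theorem shHom_idm (u v : Ob) (n : ℤ) :
    shHom n (idm (k := k) u v) = idm (u.sh n) (v.sh n) := by
  refine Subtype.ext ?_
  simp only [shHom_val, idm]
  refine if_congr ⟨fun h => by rw [h], fun h => ?_⟩ rfl rfl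
  have := congrArg (fun o => o.sh (-n)) h
  simpa [Ob.sh_sh] using this

/-- The bimodule `G`: all columns translated by one. -/
def Shift (k : Type) [Field k] : Type := ∀ v : Ix, Col k ((ob v).sh 1)

namespace Shift

instance : AddCommGroup (Shift k) := inferInstanceAs (AddCommGroup (∀ v : Ix, Col k ((ob v).sh 1)))
instance : Module k (Shift k) := inferInstanceAs (Module k (∀ v : Ix, Col k ((ob v).sh 1)))
instance : Module.Finite k (Shift k) :=
  inferInstanceAs (Module.Finite k (∀ v : Ix, Col k ((ob v).sh 1)))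
instance : Module (Alg k) (Shift k) :=
  inferInstanceAs (Module (Alg k) (∀ v : Ix, Col k ((ob v).sh 1)))
instance : IsScalarTower k (Alg k) (Shift k) :=
  inferInstanceAs (IsScalarTower k (Alg k) (∀ v : Ix, Col k ((ob v).sh 1)))

@[ext] theorem ext {x y : Shift k} (h : ∀ v, x v = y v) : x = y := funext h

@[simp] theorem add_apply (x y : Shift k) (v : Ix) : (x + y) v = x v + y v := rfl
@[simp] theorem zero_apply (v : Ix) : (0 : Shift k) v = 0 := rfl
@[simp] theorem smul_apply (r : k) (x : Shift k) (v : Ix) : (r • x) v = r • x v := rfl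
@[simp] theorem bsmul_apply (b : Alg k) (x : Shift k) (v : Ix) : (b • x) v = b • x v := rfl

instance : SMul (Alg k)ᵐᵒᵖ (Shift k) :=
  ⟨fun b g w => ∑ v, Col.rmul (shHom 1 (b.unop v w)) (g v)⟩

theorem op_smul_apply (b : (Alg k)ᵐᵒᵖ) (g : Shift k) (w : Ix) :
    (b • g) w = ∑ v, Col.rmul (shHom 1 (b.unop v w)) (g v) := rfl

theorem col_sum_apply {c : Ob} {ι : Type} (s : Finset ι) (f : ι → Col k c) (u : Ix) :
    (∑ i ∈ s, f i) u = ∑ i ∈ s, f i u :=
  map_sum (M := Col k c) (⟨⟨fun x => x u, rfl⟩, fun _ _ => rfl⟩ : Col k c →+ _) f s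

instance : Module (Alg k)ᵐᵒᵖ (Shift k) where
  one_smul g := ext fun w => by
    rw [op_smul_apply, Finset.sum_eq_single w]
    · refine Col.ext fun u => ?_
      rw [Col.rmul_apply, unop_one, Alg.one_apply, shHom_idm, comp_idm]
    · intro v _ hv
      refine Col.ext fun u => ?_
      rw [Col.rmul_apply, unop_one, Alg.one_apply, idm_of_ne (fun h => hv (ob_injective h)),
        map_zero, map_zero]
      rfl
    · simp
  mul_smul a b g := ext fun w => Col.ext fun u => by
    simp only [op_smul_apply, col_sum_apply, Col.rmul_apply, unop_mul, Alg.mul_apply, map_sum,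
      shHom_comp, LinearMap.sum_apply, ← comp_assoc]
    exact Finset.sum_comm
  smul_zero b := ext fun w => by simp [op_smul_apply]
  smul_add b x y := ext fun w => by simp [op_smul_apply, Finset.sum_add_distrib]
  add_smul a b g := ext fun w => Col.ext fun u => by
    simp [op_smul_apply, col_sum_apply, map_add, Finset.sum_add_distrib]
  zero_smul g := ext fun w => Col.ext fun u => by simp [op_smul_apply, col_sum_apply]

instance : IsScalarTower k (Alg k)ᵐᵒᵖ (Shift k) :=
  ⟨fun r b g => ext fun w => Col.ext fun u => by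
    simp [op_smul_apply, col_sum_apply, map_smul, Finset.smul_sum]⟩

instance : SMulCommClass (Alg k) (Alg k)ᵐᵒᵖ (Shift k) :=
  ⟨fun b a g => ext fun w => by simp [op_smul_apply, Finset.smul_sum, map_smul]⟩

end Shift

end

end Vale.Agent.P195D
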