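import Vale.Agent.P195D.Rep
import Vale.Agent.P195D.ResDef

/-!
Evaluation maps on columns, the augmentation, and the distinguished cocycle.
-/

namespace Vale.Agent.P195D

set_option linter.unusedSimpArgs false

open MulOpposite

noncomputable section

variable {k : Type} [Field k]

/-- The map out of a column given by a value at its object. -/
def evalL {i : Fin 2} {S : Dom} {n : ℤ} {c : Ob} (y : ↥(sps k i S n c)) :
    Col k c →ₗ[Alg k] LMod k i S n where
  toFun x u := actHom i S n (ob u) c (x u) y
  map_add' x x' := LMod.ext fun u => by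
    show actHom i S n (ob u) c ((x + x') u) y
      = actHom i S n (ob u) c (x u) y + actHom i S n (ob u) c (x' u) y
    simp
  map_smul' b x := LMod.ext fun u => by
    show actHom i S n (ob u) c ((b • x) u) y
      = ∑ v, actHom i S n (ob u) (ob v) (b u v) (actHom i S n (ob v) c (x v) y)
    simp [Col.act_apply, map_sum, LinearMap.sum_apply, actHom_comp]

@[simp] theorem evalL_apply {i : Fin 2} {S : Dom} {n : ℤ} {c : Ob} (y : ↥(sps k i S n c))
    (x : Col k c) (u : Ix) : evalL y x u = actHom i S n (ob u) c (x u) y := rfl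

/-- The term in degree `n` of the complex resolving `U m`. -/
abbrev QT (k : Type) [Field k] (m n : ℕ) : Type := Res.Cpx k m n

/-- The differential. -/
abbrev qd (k : Type) [Field k] (m n : ℕ) : QT k m (n + 1) →ₗ[Alg k] QT k m n := Res.d m n

/-- The monomial `1` at the object of the generator of `U m`. -/
def topVal (k : Type) [Field k] (m : ℕ) : ↥(sps k 0 .reg (m : ℤ) (Res.qob m Res.t0.1)) :=
  ⟨Finsupp.single 0 1, by
    rw [sps, if_pos (show (Res.qob m Res.t0.1).lay = 0 from rfl)]
    exact Finsupp.single_mem_supported k _ ⟨by simp [Dom.Mem], by simp [Res.qob, Res.t0, Res.qa]⟩⟩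

/-- The augmentation of the complex of `U m`. -/
def qaug (k : Type) [Field k] (m : ℕ) : QT k m 0 →ₗ[Alg k] Um k m :=
  (evalL (topVal k m)).comp (LinearMap.proj Res.t0)

/-- The vertex of the generator of `U 0`. -/
def gIx : Ix := (0, 0, 2)

/-- The vertex `h`. -/
def hIx : Ix := (1, 1, 0)

/-- The generator of `U 0`. -/
def u0 (k : Type) [Field k] : Um k 0 :=
  Pi.single gIx ⟨Finsupp.single 0 1, by
    rw [sps, if_pos (show (ob gIx).lay = 0 from rfl)]
    exact Finsupp.single_mem_supported k _ ⟨by simp [Dom.Mem], by simp [gIx]⟩⟩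

/-- The pair of a component of the cocycle. -/
def vP (k : Type) [Field k] : Res.Slot → Pr k
  | (0, 3) => (xW k 0, -xW k 0)
  | (0, 4) => (xW k 1, -xW k 1)
  | _ => 0

theorem vP_mem (t : Res.Slot) : vP k t ∈ Hm k (Res.qob 0 t) ((ob hIx).sh 1) := by
  obtain ⟨r, q⟩ := t
  fin_cases r <;> fin_cases q <;> simp only [vP] <;>
    first
    | exact Submodule.zero_mem _
    | (refine (mem_Hm_L ⟨rfl, rfl⟩).2 ?_
       simp [Res.qob, Res.qa, Res.qb, hIx]
       exact ⟨Sp0_le_Sp1 _ _ (xW_mem _ le_rfl), Sp0_le_Sp2 _ _ (xW_mem _ le_rfl)⟩)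

/-- The cocycle in degree two with values in the column `h` of the shift bimodule. -/
def vQ (k : Type) [Field k] : QT k 0 2 →ₗ[Alg k] Shift k :=
  ((LinearMap.single (Alg k) (fun v : Ix => Col k ((ob v).sh 1)) hIx).comp
    (∑ t : Res.T 2, (Col.rmul (⟨vP k t.1, vP_mem t.1⟩ :
      Hom' k (Res.qob 0 t.1) ((ob hIx).sh 1))).comp (LinearMap.proj t)))

/-- The class of `v ρ`: evaluation of the undeformed component at `(-1, -1)`. -/
def wc (k : Type) [Field k] (b : Fin 3) : Alg k →ₗ[k] k where
  toFun ρ := ev (-1, -1) (cf (ρ hIx (1, 1, b)).1.1 0)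
  map_add' x y := by simp
  map_smul' c x := by simp

end

end Vale.Agent.P195D
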