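import Mathlib

/-!
Bimodules: tensor products over the ground field and cokernels.
-/

namespace Vale.Agent.P195D

open MulOpposite LinearMap TensorProduct

variable {k : Type} [Field k] {B : Type} [Ring B] [Algebra k B]

section ten
variable {X V : Type} [AddCommGroup X] [Module k X] [AddCommGroup V] [Module k V]

instance (priority := 100) tenRightModule [Module Bᵐᵒᵖ V] [IsScalarTower k Bᵐᵒᵖ V] :
    Module Bᵐᵒᵖ (X ⊗[k] V) :=
  Module.compHom _ (((Module.End.lTensorAlgHom k V X).toRingHom).comp
    (Algebra.lsmul k k V : Bᵐᵒᵖ →ₐ[k] Module.End k V).toRingHom)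

theorem ten_op_smul [Module Bᵐᵒᵖ V] [IsScalarTower k Bᵐᵒᵖ V] (b : Bᵐᵒᵖ) (x : X) (v : V) :
    b • (x ⊗ₜ[k] v) = x ⊗ₜ[k] (b • v) := rfl

theorem ten_op_smul_eq [Module Bᵐᵒᵖ V] [IsScalarTower k Bᵐᵒᵖ V] (b : Bᵐᵒᵖ) (t : X ⊗[k] V) :
    b • t = lTensor X (Algebra.lsmul k k V b) t := rfl

instance tenTower [Module Bᵐᵒᵖ V] [IsScalarTower k Bᵐᵒᵖ V] :
    IsScalarTower k Bᵐᵒᵖ (X ⊗[k] V) :=
  ⟨fun c b t => by simp [ten_op_smul_eq, map_smul, lTensor_smul]⟩

variable [Module B X] [IsScalarTower k B X]

instance tenComm [Module Bᵐᵒᵖ V] [IsScalarTower k Bᵐᵒᵖ V] :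
    SMulCommClass B Bᵐᵒᵖ (X ⊗[k] V) :=
  ⟨fun a b t => by
    induction t using TensorProduct.induction_on with
    | zero => simp
    | tmul x v => simp [ten_op_smul, TensorProduct.smul_tmul']
    | add s t hs ht => simp [smul_add, hs, ht]⟩

variable {Y : Type} [AddCommGroup Y] [Module k Y] [Module B Y] [IsScalarTower k B Y]

/-- A left linear map out of a tensor product, from the family of left linear maps. -/
noncomputable def tenLift (F : V →ₗ[k] X →ₗ[B] Y) : X ⊗[k] V →ₗ[B] Y :=
  let G : X ⊗[k] V →ₗ[k] Y := TensorProduct.lift (LinearMap.mk₂ k (fun x v => F v x)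
    (fun x x' v => map_add (F v) x x') (fun c x v => LinearMap.map_smul_of_tower (F v) c x)
    (fun x v v' => by simp [map_add]) (fun c x v => by simp [map_smul]))
  { toFun := G
    map_add' := map_add G
    map_smul' := fun b t => by
      induction t using TensorProduct.induction_on with
      | zero => simp
      | tmul x v => simp [G, TensorProduct.smul_tmul']
      | add s t hs ht => simp [smul_add, map_add, hs, ht] }

@[simp] theorem tenLift_tmul (F : V →ₗ[k] X →ₗ[B] Y) (x : X) (v : V) :
    tenLift F (x ⊗ₜ[k] v) = F v x := rfl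

theorem tenLift_op [Module Bᵐᵒᵖ V] [IsScalarTower k Bᵐᵒᵖ V] [Module Bᵐᵒᵖ Y]
    (F : V →ₗ[k] X →ₗ[B] Y) (hF : ∀ (b : B) v x, F (op b • v) x = op b • F v x) (b : B)
    (t : X ⊗[k] V) : tenLift F (op b • t) = op b • tenLift F t := by
  induction t using TensorProduct.induction_on with
  | zero => simp
  | tmul x v => simp [ten_op_smul, hF]
  | add s t hs ht => simp [smul_add, map_add, hs, ht]

end ten

section tmap
variable {X X' V : Type} [AddCommGroup X] [Module k X] [AddCommGroup X'] [Module k X']
  [AddCommGroup V] [Module k V] [Module B X] [IsScalarTower k B X] [Module B X']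
  [IsScalarTower k B X']

/-- `f ⊗ V`. -/
noncomputable def tenMap (V : Type) [AddCommGroup V] [Module k V] (f : X →ₗ[B] X') :
    X ⊗[k] V →ₗ[B] X' ⊗[k] V :=
  tenLift
    { toFun := fun v =>
        { toFun := fun x => f x ⊗ₜ[k] v
          map_add' := fun x y => by simp [TensorProduct.add_tmul]
          map_smul' := fun b x => by simp [TensorProduct.smul_tmul'] }
      map_add' := fun v w => LinearMap.ext fun x => TensorProduct.tmul_add (f x) v w
      map_smul' := fun c v => LinearMap.ext fun x => TensorProduct.tmul_smul c (f x) v }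

@[simp] theorem tenMap_tmul (f : X →ₗ[B] X') (x : X) (v : V) :
    tenMap V f (x ⊗ₜ[k] v) = f x ⊗ₜ[k] v := rfl

theorem tenMap_eq_rTensor (f : X →ₗ[B] X') (t : X ⊗[k] V) :
    tenMap V f t = rTensor V (f.restrictScalars k) t := by
  induction t using TensorProduct.induction_on with
  | zero => simp
  | tmul x v => simp
  | add s t hs ht => simp [map_add, hs, ht]

theorem tenMap_op [Module Bᵐᵒᵖ V] [IsScalarTower k Bᵐᵒᵖ V] (f : X →ₗ[B] X') (b : B)
    (t : X ⊗[k] V) : tenMap V f (op b • t) = op b • tenMap V f t :=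
  tenLift_op _ (fun _ _ _ => rfl) b t

theorem tenMap_injective (f : X →ₗ[B] X') (hf : Function.Injective f) :
    Function.Injective (tenMap (k := k) V f) := by
  intro s t h
  rw [tenMap_eq_rTensor, tenMap_eq_rTensor] at h
  exact Module.Flat.rTensor_preserves_injective_linearMap _ hf h

theorem tenMap_surjective (f : X →ₗ[B] X') (hf : Function.Surjective f) :
    Function.Surjective (tenMap (k := k) V f) := fun t => by
  obtain ⟨s, hs⟩ := rTensor_surjective V (g := f.restrictScalars k) hf t
  exact ⟨s, by rw [tenMap_eq_rTensor, hs]⟩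

theorem tenMap_exact {X'' : Type} [AddCommGroup X''] [Module k X''] [Module B X'']
    [IsScalarTower k B X''] (f : X →ₗ[B] X') (g : X' →ₗ[B] X'') (h : Function.Exact f g)
    (hg : Function.Surjective g) : Function.Exact (tenMap (k := k) V f) (tenMap V g) := fun y => by
  simp only [Set.mem_range, tenMap_eq_rTensor]
  exact rTensor_exact V (f := f.restrictScalars k) (g := g.restrictScalars k) h hg y

/-- Coordinates of `X ⊗ V` with respect to a basis of `X`. -/
theorem ten_coord_left [Module Bᵐᵒᵖ V] [IsScalarTower k Bᵐᵒᵖ V] [Module.Finite k X] :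
    ∃ (r : ℕ) (e : X ⊗[k] V →+ (Fin r → V)), Function.Bijective e ∧
      ∀ (b : B) t, e (op b • t) = op b • e t := by
  let bX := Module.finBasis k X
  let e := (TensorProduct.equivFinsuppOfBasisLeft (N := V) bX).trans
    (Finsupp.linearEquivFunOnFinite k V _)
  refine ⟨_, e.toLinearMap.toAddMonoidHom, e.bijective, fun b t => ?_⟩
  show e (op b • t) = op b • e t
  induction t using TensorProduct.induction_on with
  | zero => simp only [smul_zero, map_zero]
  | tmul x v =>
    funext i
    show e (x ⊗ₜ[k] (op b • v)) i = op b • e (x ⊗ₜ[k] v) i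
    simp [e]
    exact smul_comm _ _ _
  | add s t hs ht => rw [smul_add, map_add, map_add, hs, ht, smul_add]

/-- Coordinates of `X ⊗ V` with respect to a basis of `V`. -/
theorem ten_coord_right [Module.Finite k V] :
    ∃ (r : ℕ) (bV : Module.Basis (Fin r) k V) (e : X ⊗[k] V →ₗ[B] (Fin r → X)),
      Function.Bijective e ∧ ∀ (x : X) (v : V) i, e (x ⊗ₜ[k] v) i = bV.repr v i • x := by
  let bV := Module.finBasis k V
  let e := (TensorProduct.equivFinsuppOfBasisRight (M := X) bV).trans
    (Finsupp.linearEquivFunOnFinite k X _)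
  let e' : X ⊗[k] V →ₗ[B] (Fin (Module.finrank k V) → X) :=
    { toFun := e
      map_add' := map_add e
      map_smul' := fun b t => by
        induction t using TensorProduct.induction_on with
        | zero => simp
        | tmul x v =>
          funext i
          show e ((b • x) ⊗ₜ[k] v) i = b • e (x ⊗ₜ[k] v) i
          simp [e]
          exact smul_comm _ _ _
        | add s t hs ht => simp only [smul_add, map_add, RingHom.id_apply] at hs ht ⊢; rw [hs, ht] }
  refine ⟨_, bV, e', e.bijective, fun x v i => ?_⟩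
  show e (x ⊗ₜ[k] v) i = _
  simp [e]

end tmap

section cok
variable {A X : Type} [AddCommGroup A] [Module B A] [Module Bᵐᵒᵖ A]
  [AddCommGroup X] [Module B X] [Module Bᵐᵒᵖ X]

/-- A map of bimodules. -/
structure BiMap (B : Type) [Ring B] (A X : Type) [AddCommGroup A] [Module B A] [Module Bᵐᵒᵖ A]
    [AddCommGroup X] [Module B X] [Module Bᵐᵒᵖ X] where
  /-- The underlying left linear map. -/
  lin : A →ₗ[B] X
  rlin : ∀ (b : B) a, lin (op b • a) = op b • lin a

/-- The cokernel of a map of bimodules. -/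
def Cok (f : BiMap B A X) : Type := X ⧸ LinearMap.range f.lin

instance (f : BiMap B A X) : AddCommGroup (Cok f) :=
  inferInstanceAs (AddCommGroup (X ⧸ LinearMap.range f.lin))

instance (f : BiMap B A X) : Module B (Cok f) :=
  inferInstanceAs (Module B (X ⧸ LinearMap.range f.lin))

/-- The projection onto the cokernel. -/
def Cok.proj (f : BiMap B A X) : X →ₗ[B] Cok f := (LinearMap.range f.lin).mkQ

theorem Cok.proj_surjective (f : BiMap B A X) : Function.Surjective (Cok.proj f) :=
  Submodule.mkQ_surjective _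

theorem Cok.proj_eq_zero (f : BiMap B A X) (x : X) : Cok.proj f x = 0 ↔ ∃ a, f.lin a = x :=
  Submodule.Quotient.mk_eq_zero _

theorem Cok.proj_eq_iff (f : BiMap B A X) (x y : X) :
    Cok.proj f x = Cok.proj f y ↔ ∃ a, f.lin a = x - y := by
  rw [← Cok.proj_eq_zero, map_sub, sub_eq_zero]

variable [SMulCommClass B Bᵐᵒᵖ X]

/-- The right action on the cokernel by a fixed element. -/
def Cok.act (f : BiMap B A X) (b : Bᵐᵒᵖ) : Cok f →ₗ[B] Cok f :=
  (LinearMap.range f.lin).mapQ (LinearMap.range f.lin)
    { toFun := fun x => b • x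
      map_add' := smul_add b
      map_smul' := fun a x => (smul_comm a b x).symm } (by
    rintro x ⟨a, rfl⟩
    exact ⟨b • a, by rw [← op_unop b, f.rlin]; rfl⟩)

instance (f : BiMap B A X) : SMul Bᵐᵒᵖ (Cok f) := ⟨fun b z => Cok.act f b z⟩

theorem Cok.op_smul_proj (f : BiMap B A X) (b : Bᵐᵒᵖ) (x : X) :
    b • Cok.proj f x = Cok.proj f (b • x) := rfl

instance (f : BiMap B A X) : Module Bᵐᵒᵖ (Cok f) :=
  Function.Surjective.module Bᵐᵒᵖ (Cok.proj f).toAddMonoidHom (Cok.proj_surjective f)
    (fun _ _ => rfl)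

instance (f : BiMap B A X) : SMulCommClass B Bᵐᵒᵖ (Cok f) :=
  ⟨fun a b z => by
    obtain ⟨x, rfl⟩ := Cok.proj_surjective f z
    rw [Cok.op_smul_proj, ← map_smul, ← map_smul, Cok.op_smul_proj, smul_comm]⟩

variable [Module k X] [IsScalarTower k B X]

instance (f : BiMap B A X) : Module k (Cok f) :=
  inferInstanceAs (Module k (X ⧸ LinearMap.range f.lin))

instance (f : BiMap B A X) : IsScalarTower k B (Cok f) :=
  inferInstanceAs (IsScalarTower k B (X ⧸ LinearMap.range f.lin))

omit [SMulCommClass B Bᵐᵒᵖ X] in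
theorem Cok.smul_proj (f : BiMap B A X) (c : k) (x : X) :
    c • Cok.proj f x = Cok.proj f (c • x) := rfl

instance [IsScalarTower k Bᵐᵒᵖ X] (f : BiMap B A X) : IsScalarTower k Bᵐᵒᵖ (Cok f) :=
  ⟨fun c b z => by
    obtain ⟨x, rfl⟩ := Cok.proj_surjective f z
    simp only [Cok.op_smul_proj, Cok.smul_proj, smul_assoc]⟩

instance [Module.Finite k X] (f : BiMap B A X) : Module.Finite k (Cok f) :=
  Module.Finite.of_surjective
    ({ toFun := Cok.proj f, map_add' := map_add _, map_smul' := fun _ _ => rfl } : X →ₗ[k] Cok f)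
    (Cok.proj_surjective f)

end cok

end Vale.Agent.P195D
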