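import Vale.Agent.P195D.Interface

/-!
Elementary facts about the complexes `Hom_B(P, X)` and `Y ⊗_B P`.
-/

namespace Vale.Agent.P195D

open MulOpposite Matrix

variable {B : Type} [Ring B] {U : Type} [AddCommGroup U] [Module B U] (P : FreeRes B U)

theorem FreeRes.D_mul_D (i : ℕ) : P.D (i + 1) * P.D i = 0 := by
  ext a b
  have h : (Pi.single a (1 : B) ᵥ* P.D (i + 1)) ᵥ* P.D i = 0 := (P.exact_succ i _).2 ⟨_, rfl⟩
  rw [vecMul_vecMul, single_one_vecMul] at h
  exact congrFun h b

theorem FreeRes.vecMul_D_D (i : ℕ) (w : Fin (P.n (i + 1 + 1)) → B) :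
    (w ᵥ* P.D (i + 1)) ᵥ* P.D i = 0 := by
  rw [vecMul_vecMul, P.D_mul_D, vecMul_zero]

section
variable {X X' : Type} [AddCommGroup X] [Module B X] [AddCommGroup X'] [Module B X']

theorem lMat_add {p q : ℕ} (D : Matrix (Fin p) (Fin q) B) (f g : Fin q → X) :
    lMat D (f + g) = lMat D f + lMat D g := by
  funext i; simp [lMat, smul_add, Finset.sum_add_distrib]

theorem lMat_sub {p q : ℕ} (D : Matrix (Fin p) (Fin q) B) (f g : Fin q → X) :
    lMat D (f - g) = lMat D f - lMat D g := by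
  funext i; simp [lMat, smul_sub, Finset.sum_sub_distrib]

theorem lMat_zero {p q : ℕ} (D : Matrix (Fin p) (Fin q) B) :
    lMat D (0 : Fin q → X) = 0 := by
  funext i; simp [lMat]

theorem lMat_lMat {p q r : ℕ} (D : Matrix (Fin p) (Fin q) B) (D' : Matrix (Fin q) (Fin r) B)
    (f : Fin r → X) : lMat D (lMat D' f) = lMat (D * D') f := by
  funext i
  simp only [lMat, Matrix.mul_apply, Finset.sum_smul, Finset.smul_sum, ← mul_smul]
  exact Finset.sum_comm

theorem lMat_D_D (i : ℕ) (g : Fin (P.n i) → X) :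
    lMat (P.D (i + 1)) (lMat (P.D i) g) = 0 := by
  rw [lMat_lMat, P.D_mul_D]; funext j; simp [lMat]

theorem lMat_map {p q : ℕ} (D : Matrix (Fin p) (Fin q) B) (j : X →ₗ[B] X') (f : Fin q → X) :
    lMat D (j ∘ f) = j ∘ lMat D f := by
  funext i; simp [lMat, map_sum]

end

section
variable {Y Y' : Type} [AddCommGroup Y] [Module Bᵐᵒᵖ Y] [AddCommGroup Y'] [Module Bᵐᵒᵖ Y']

theorem rMat_add {p q : ℕ} (D : Matrix (Fin p) (Fin q) B) (f g : Fin p → Y) :
    rMat D (f + g) = rMat D f + rMat D g := by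
  funext i; simp [rMat, smul_add, Finset.sum_add_distrib]

theorem rMat_sub {p q : ℕ} (D : Matrix (Fin p) (Fin q) B) (f g : Fin p → Y) :
    rMat D (f - g) = rMat D f - rMat D g := by
  funext i; simp [rMat, smul_sub, Finset.sum_sub_distrib]

theorem rMat_rMat_mul {p q r : ℕ} (D : Matrix (Fin p) (Fin q) B) (D' : Matrix (Fin q) (Fin r) B)
    (f : Fin p → Y) : rMat D' (rMat D f) = rMat (D * D') f := by
  funext i
  simp only [rMat, Matrix.mul_apply, Finset.sum_smul, Finset.smul_sum, ← mul_smul, Finset.op_sum, op_mul]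
  exact Finset.sum_comm

theorem rMat_D_D (i : ℕ) (w : Fin (P.n (i + 1 + 1)) → Y) :
    rMat (P.D i) (rMat (P.D (i + 1)) w) = 0 := by
  rw [rMat_rMat_mul, P.D_mul_D]; funext j; simp [rMat]

theorem rMat_map {p q : ℕ} (D : Matrix (Fin p) (Fin q) B) (j : Y →+ Y')
    (hj : ∀ (b : B) y, j (op b • y) = op b • j y) (f : Fin p → Y) :
    rMat D (j ∘ f) = j ∘ rMat D f := by
  funext i; simp [rMat, map_sum, hj]

end

/-- `Y ⊗_B P` is acyclic in every degree. -/
def TAc (Y : Type) [AddCommGroup Y] [Module Bᵐᵒᵖ Y] : Prop :=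
  (∀ i, TensorExactAt P Y i) ∧ ∀ v : Fin (P.n 0) → Y, ∃ w, rMat (P.D 0) w = v

section seq
variable {X₁ X₂ X₃ : Type} [AddCommGroup X₁] [Module B X₁] [AddCommGroup X₂] [Module B X₂]
  [AddCommGroup X₃] [Module B X₃] (j : X₁ →ₗ[B] X₂) (q : X₂ →ₗ[B] X₃)
  (hj : Function.Injective j) (hjq : Function.Exact j q)

include hjq in
theorem exists_comp_eq {ι : Type} (f : ι → X₂) (hf : q ∘ f = 0) : ∃ a, j ∘ a = f := by
  have h : ∀ t, ∃ a, j a = f t := fun t => (hjq (f t)).1 (congrFun hf t)
  choose a ha using h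
  exact ⟨a, funext ha⟩

include hjq in
theorem map_comp_eq_zero {ι : Type} (a : ι → X₁) : q ∘ j ∘ a = 0 :=
  funext fun t => hjq.apply_apply_eq_zero (a t)

include hj hjq in
theorem homExact_mid_zero (h₁ : HomExactAt P X₁ 0) (h₃ : HomExactAt P X₃ 0) :
    HomExactAt P X₂ 0 := by
  intro f hf
  have h : q ∘ f = 0 := h₃ _ (by rw [lMat_map, hf]; funext t; simp)
  obtain ⟨a, rfl⟩ := exists_comp_eq j q hjq f h
  have ha : a = 0 := h₁ a (by
    funext t; refine hj ?_
    have := congrFun hf t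
    rw [lMat_map] at this
    simpa using this)
  subst ha; funext t; simp

include hj hjq in
theorem homExact_mid_succ (hq : Function.Surjective q) (i : ℕ)
    (h₁ : HomExactAt P X₁ (i + 1)) (h₃ : HomExactAt P X₃ (i + 1)) :
    HomExactAt P X₂ (i + 1) := by
  intro f hf
  obtain ⟨g'', hg''⟩ := h₃ _ (show lMat (P.D (i + 1)) (q ∘ f) = 0 by
    rw [lMat_map, hf]; funext t; simp)
  obtain ⟨g, rfl⟩ : ∃ g, q ∘ g = g'' := ⟨fun t => (hq (g'' t)).choose,
    funext fun t => (hq (g'' t)).choose_spec⟩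
  obtain ⟨a, ha⟩ := exists_comp_eq j q hjq (f - lMat (P.D i) g) (by
    rw [lMat_map] at hg''
    funext t; simpa [sub_eq_zero] using (congrFun hg'' t).symm)
  obtain ⟨c, hc⟩ := h₁ a (by
    funext t; refine hj ?_
    have : lMat (P.D (i + 1)) (j ∘ a) t = 0 := by rw [ha, lMat_sub, lMat_D_D, hf]; simp
    rw [lMat_map] at this
    simpa using this)
  refine ⟨j ∘ c + g, ?_⟩
  rw [lMat_add, lMat_map, hc, ha, sub_add_cancel]

include hj hjq in
theorem homExact_mid (hq : Function.Surjective q) (n : ℕ) (h₁ : HomExactAt P X₁ n)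
    (h₃ : HomExactAt P X₃ n) : HomExactAt P X₂ n := by
  cases n with
  | zero => exact homExact_mid_zero P j q hj hjq h₁ h₃
  | succ i => exact homExact_mid_succ P j q hj hjq hq i h₁ h₃

include hj in
theorem homExact_left_zero (h₂ : HomExactAt P X₂ 0) : HomExactAt P X₁ 0 := by
  intro a ha
  have := h₂ (j ∘ a) (by rw [lMat_map, ha]; funext t; simp)
  funext t; exact hj (by simpa using congrFun this t)

include hj hjq in
theorem homExact_left_succ (hq : Function.Surjective q) (i : ℕ)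
    (h₂ : HomExactAt P X₂ (i + 1)) (h₃ : HomExactAt P X₃ i) : HomExactAt P X₁ (i + 1) := by
  intro a ha
  obtain ⟨g, hg⟩ := h₂ (j ∘ a) (by rw [lMat_map, ha]; funext t; simp)
  have hqg : lMat (P.D i) (q ∘ g) = 0 := by rw [lMat_map, hg]; exact map_comp_eq_zero j q hjq a
  have key : ∀ b, j ∘ b = g → ∃ c, lMat (P.D i) c = a := fun b hb => ⟨b, funext fun t =>
    hj (by have := congrFun hg t; rw [← hb, lMat_map] at this; exact this)⟩
  cases i with
  | zero =>
    obtain ⟨b, hb⟩ := exists_comp_eq j q hjq g (h₃ _ hqg)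
    exact key b hb
  | succ i =>
    obtain ⟨g'', hg''⟩ := h₃ _ hqg
    obtain ⟨g', rfl⟩ : ∃ g', q ∘ g' = g'' := ⟨fun t => (hq (g'' t)).choose,
      funext fun t => (hq (g'' t)).choose_spec⟩
    obtain ⟨b, hb⟩ := exists_comp_eq j q hjq (g - lMat (P.D i) g') (by
      rw [lMat_map] at hg''
      funext t; simpa [sub_eq_zero] using (congrFun hg'' t).symm)
    refine ⟨b, funext fun t => hj ?_⟩
    have : lMat (P.D (i + 1)) (j ∘ b) t = j (a t) := by
      rw [hb, lMat_sub, lMat_D_D, sub_zero, hg]; rfl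
    rw [lMat_map] at this
    exact this

end seq

theorem homExact_pi {X X' : Type} [AddCommGroup X] [Module B X] [AddCommGroup X'] [Module B X']
    {ι : Type} (e : X →ₗ[B] (ι → X')) (he : Function.Bijective e) (n : ℕ)
    (h : HomExactAt P X' n) : HomExactAt P X n := by
  have hc : ∀ {p q : ℕ} (D : Matrix (Fin p) (Fin q) B) (f : Fin q → X) k,
      (fun t => e (lMat D f t) k) = lMat D (fun t => e (f t) k) := fun D f k =>
    funext fun t => by simp [lMat, map_sum]
  cases n with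
  | zero =>
    intro f hf
    funext t; refine he.1 ?_; funext k
    have := h (fun t => e (f t) k) (by rw [← hc, hf]; funext s; simp)
    simpa using congrFun this t
  | succ i =>
    intro f hf
    have : ∀ k, ∃ g, lMat (P.D i) g = fun t => e (f t) k := fun k =>
      h _ (by rw [← hc, hf]; funext s; simp)
    choose g hg using this
    refine ⟨fun t => (he.2 fun k => g k t).choose, funext fun s => he.1 (funext fun k => ?_)⟩
    have h1 := congrFun (hc (P.D i) (fun t => (he.2 fun k => g k t).choose) k) s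
    simp only [(he.2 fun k => g k _).choose_spec] at h1
    rw [h1]; exact congrFun (hg k) s

section tseq
variable {X₁ X₂ X₃ : Type} [AddCommGroup X₁] [Module Bᵐᵒᵖ X₁] [AddCommGroup X₂] [Module Bᵐᵒᵖ X₂]
  [AddCommGroup X₃] [Module Bᵐᵒᵖ X₃] (j : X₁ →+ X₂) (q : X₂ →+ X₃)
  (hjr : ∀ (b : B) y, j (op b • y) = op b • j y) (hqr : ∀ (b : B) y, q (op b • y) = op b • q y)
  (hj : Function.Injective j) (hjq : Function.Exact j q) (hq : Function.Surjective q)

include hjr hqr hj hjq hq in
theorem TAc.left (h₂ : TAc P X₂) (h₃ : TAc P X₃) : TAc P X₁ := by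
  have hz : ∀ {p : ℕ} (a : Fin p → X₁), q ∘ j ∘ a = 0 := fun a =>
    funext fun t => hjq.apply_apply_eq_zero (a t)
  have key : ∀ (k : ℕ) (a : Fin (P.n k) → X₁), (∃ w, rMat (P.D k) w = j ∘ a) →
      ∃ w, rMat (P.D k) w = a := by
    rintro k a ⟨w, hw⟩
    obtain ⟨w'', hw''⟩ := h₃.1 k (q ∘ w) (by rw [rMat_map _ q hqr, hw, hz])
    obtain ⟨w', rfl⟩ : ∃ w', q ∘ w' = w'' := ⟨fun t => (hq (w'' t)).choose,
      funext fun t => (hq (w'' t)).choose_spec⟩
    have : ∀ t, ∃ b, j b = (w - rMat (P.D (k + 1)) w') t := fun t => (hjq _).1 (by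
      rw [rMat_map _ q hqr] at hw''
      simpa [sub_eq_zero] using (congrFun hw'' t).symm)
    choose b hb using this
    refine ⟨b, funext fun t => hj ?_⟩
    have h1 : rMat (P.D k) (j ∘ b) t = j (a t) := by
      rw [show j ∘ b = w - rMat (P.D (k + 1)) w' from funext hb, rMat_sub, rMat_D_D, sub_zero, hw]
      rfl
    rw [rMat_map _ j hjr] at h1
    exact h1
  refine ⟨fun i a ha => key (i + 1) a (h₂.1 i _ ?_), fun a => key 0 a (h₂.2 _)⟩
  rw [rMat_map _ j hjr, ha]; funext t; simp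

end tseq

theorem TAc.pi {X X' : Type} [AddCommGroup X] [Module Bᵐᵒᵖ X] [AddCommGroup X'] [Module Bᵐᵒᵖ X']
    {ι : Type} (e : X →+ (ι → X')) (hr : ∀ (b : B) x, e (op b • x) = op b • e x)
    (he : Function.Bijective e) (h : TAc P X') : TAc P X := by
  have hc : ∀ {p q : ℕ} (D : Matrix (Fin p) (Fin q) B) (f : Fin p → X) k,
      (fun t => e (rMat D f t) k) = rMat D (fun t => e (f t) k) := fun D f k =>
    funext fun t => by simp [rMat, map_sum, hr]
  have key : ∀ (k : ℕ) (v : Fin (P.n k) → X),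
      (∀ l, ∃ w, rMat (P.D k) w = fun t => e (v t) l) → ∃ w, rMat (P.D k) w = v := by
    intro k v hv
    choose g hg using hv
    refine ⟨fun t => (he.2 fun l => g l t).choose, funext fun s => he.1 (funext fun l => ?_)⟩
    have h1 := congrFun (hc (P.D k) (fun t => (he.2 fun l => g l t).choose) l) s
    simp only [(he.2 fun l => g l _).choose_spec] at h1
    rw [h1]; exact congrFun (hg l) s
  refine ⟨fun i v hv => key _ v fun l => h.1 i _ ?_, fun v => key 0 v fun l => h.2 _⟩
  rw [← hc, hv]; funext t; simp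

section transfer
variable {U' : Type} [AddCommGroup U'] [Module B U'] {P' : FreeRes B U'}
variable {A A' Z : Type} [AddCommGroup A] [Module B A] [Module Bᵐᵒᵖ A]
  [AddCommGroup A'] [Module B A'] [Module Bᵐᵒᵖ A'] [AddCommGroup Z] [Module B Z] [Module Bᵐᵒᵖ Z]

/-- Push a comparison along an injective bimodule map with acyclic cokernel. -/
theorem Comparison.push (c : Comparison P P' A) (j : A →ₗ[B] A') (q : A' →ₗ[B] Z)
    (hjr : ∀ (b : B) y, j (op b • y) = op b • j y)
    (hqr : ∀ (b : B) y, q (op b • y) = op b • q y)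
    (hj : Function.Injective j) (hjq : Function.Exact j q) (hq : Function.Surjective q)
    (hT : TAc P Z) (hH : ∀ i, HomExactAt P' Z i) : Nonempty (Comparison P P' A') := by
  have lift : ∀ {p : ℕ} (w'' : Fin p → Z), ∃ w, q ∘ w = w'' := fun w'' =>
    ⟨fun t => (hq (w'' t)).choose, funext fun t => (hq (w'' t)).choose_spec⟩
  let C' : ∀ i, Matrix (Fin (P'.n i)) (Fin (P.n i)) A' := fun i s t => j (c.C i s t)
  have hr : ∀ {p q' : ℕ} (D : Matrix (Fin p) (Fin q') B) (f : Fin p → A),
      rMat D (j ∘ f) = j ∘ rMat D f := fun D f => rMat_map D j.toAddMonoidHom hjr f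
  have hqm : ∀ {p q' : ℕ} (D : Matrix (Fin p) (Fin q') B) (f : Fin p → A'),
      rMat D (q ∘ f) = q ∘ rMat D f := fun D f => rMat_map D q.toAddMonoidHom hqr f
  have hcap : ∀ w : Fin (P'.n 0) → B, cap (C' 0) w = j ∘ cap (c.C 0) w := fun w => by
    funext t; simp [cap, C', map_sum]
  have halpha : ∀ i (f : Fin (P.n i) → B), alpha (C' i) f = j ∘ alpha (c.C i) f := fun i f => by
    funext t; simp [alpha, C', map_sum, hjr]
  refine ⟨⟨C', ?_, ?_, ?_, ?_, ?_, ?_⟩⟩
  · intro i s
    rw [show C' (i + 1) s = j ∘ c.C (i + 1) s from rfl, hr, c.comm]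
    funext t; simp [C', map_sum, map_smul]
  · intro i v hv
    obtain ⟨w'', hw''⟩ := hT.1 i (q ∘ v) (by rw [hqm, hv]; funext t; simp)
    obtain ⟨w, rfl⟩ := lift w''
    rw [hqm] at hw''
    obtain ⟨a, ha⟩ := exists_comp_eq j q hjq (v - rMat (P.D (i + 1)) w) (by
      funext t; simpa [sub_eq_zero] using (congrFun hw'' t).symm)
    obtain ⟨z, hz⟩ := c.exact i a (by
      funext t; refine hj ?_
      have : rMat (P.D i) (j ∘ a) t = 0 := by rw [ha, rMat_sub, rMat_D_D, hv]; simp
      rw [hr] at this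
      simpa using this)
    exact ⟨j ∘ z + w, by rw [rMat_add, hr, hz, ha, sub_add_cancel]⟩
  · intro v
    obtain ⟨z'', hz''⟩ := hT.2 (q ∘ v)
    obtain ⟨z, rfl⟩ := lift z''
    rw [hqm] at hz''
    obtain ⟨a, ha⟩ := exists_comp_eq j q hjq (v - rMat (P.D 0) z) (by
      funext t; simpa [sub_eq_zero] using (congrFun hz'' t).symm)
    obtain ⟨w, z', hw⟩ := c.surj a
    refine ⟨w, j ∘ z' + z, ?_⟩
    have : j ∘ a = j ∘ cap (c.C 0) w + j ∘ rMat (P.D 0) z' := by
      rw [← hw]; funext t; simp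
    rw [hcap, rMat_add, hr, ← add_assoc, ← this, ha, sub_add_cancel]
  · intro w z h
    rw [hcap] at h
    obtain ⟨w'', hw''⟩ := hT.1 0 (q ∘ z) (by rw [hqm, ← h]; exact map_comp_eq_zero j q hjq _)
    obtain ⟨z₁, rfl⟩ := lift w''
    rw [hqm] at hw''
    obtain ⟨a, ha⟩ := exists_comp_eq j q hjq (z - rMat (P.D 1) z₁) (by
      funext t; simpa [sub_eq_zero] using (congrFun hw'' t).symm)
    refine c.inj w a (funext fun t => hj ?_)
    have : j (rMat (P.D 0) a t) = rMat (P.D 0) z t := by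
      have := congrFun (hr (P.D 0) a) t
      rw [ha, rMat_sub, rMat_D_D, sub_zero] at this
      exact this.symm
    rw [this]; exact congrFun h t
  · intro i g hg
    obtain ⟨a, ha, e, he⟩ : ∃ a, lMat (P'.D i) a = 0 ∧ ∃ e, IsCobdry P' A' i e ∧
        g = j ∘ a + e := by
      have hqg : lMat (P'.D i) (q ∘ g) = 0 := by rw [lMat_map, hg]; funext t; simp
      have cyc : ∀ (a : Fin (P'.n i) → A) (e : Fin (P'.n i) → A'), lMat (P'.D i) e = 0 →
          g = j ∘ a + e → lMat (P'.D i) a = 0 := fun a e he hge => funext fun t => hj (by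
        have : lMat (P'.D i) (j ∘ a) t = 0 := by
          rw [show j ∘ a = g - e from eq_sub_of_add_eq hge.symm, lMat_sub, he,
            show lMat (P'.D i) g = 0 from hg]
          simp
        rw [lMat_map] at this
        simpa using this)
      cases i with
      | zero =>
        obtain ⟨a, ha⟩ := exists_comp_eq j q hjq g (hH 0 _ hqg)
        exact ⟨a, cyc a 0 (lMat_zero _) (by rw [ha, add_zero]), 0, rfl, by rw [ha, add_zero]⟩
      | succ i =>
        obtain ⟨g'', hg''⟩ := hH (i + 1) _ hqg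
        obtain ⟨g', rfl⟩ := lift g''
        rw [lMat_map] at hg''
        obtain ⟨a, ha⟩ := exists_comp_eq j q hjq (g - lMat (P'.D i) g') (by
          funext t; simpa [sub_eq_zero] using (congrFun hg'' t).symm)
        have hge : g = j ∘ a + lMat (P'.D i) g' := by rw [ha, sub_add_cancel]
        exact ⟨a, cyc a _ (lMat_D_D P' i g') hge, _, ⟨g', rfl⟩, hge⟩
    obtain ⟨f, hf, hb⟩ := c.hom_surj i a ha
    refine ⟨f, hf, ?_⟩
    rw [halpha]
    have : g - j ∘ alpha (c.C i) f = j ∘ (a - alpha (c.C i) f) + e := by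
      rw [he.2]; funext t; simp; abel
    rw [this]
    cases i with
    | zero =>
      have h0 : e = 0 := he.1
      have h1 : a - alpha (c.C 0) f = 0 := hb
      show _ = (0 : Fin (P'.n 0) → A')
      rw [h0, h1]; funext t; simp
    | succ i =>
      obtain ⟨g₁, hg₁⟩ := he.1
      obtain ⟨g₂, hg₂⟩ := hb
      exact ⟨j ∘ g₂ + g₁, by rw [lMat_add, lMat_map, hg₁, hg₂]⟩
  · intro i f hf hb
    rw [halpha] at hb
    refine c.hom_inj i f hf ?_
    cases i with
    | zero =>
      have h0 : (j ∘ alpha (c.C 0) f) = 0 := hb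
      funext t; exact hj (by simpa using congrFun h0 t)
    | succ i =>
      obtain ⟨g, hg⟩ := hb
      have hqg : lMat (P'.D i) (q ∘ g) = 0 := by
        rw [lMat_map, hg]; exact map_comp_eq_zero j q hjq _
      obtain ⟨b, g₁, hg₁, hb'⟩ : ∃ b g₁, lMat (P'.D i) g₁ = 0 ∧ g = j ∘ b + g₁ := by
        cases i with
        | zero =>
          obtain ⟨b, hb⟩ := exists_comp_eq j q hjq g (hH 0 _ hqg)
          exact ⟨b, 0, lMat_zero _, by rw [hb, add_zero]⟩
        | succ i =>
          obtain ⟨g'', hg''⟩ := hH (i + 1) _ hqg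
          obtain ⟨g', rfl⟩ := lift g''
          rw [lMat_map] at hg''
          obtain ⟨b, hb⟩ := exists_comp_eq j q hjq (g - lMat (P'.D i) g') (by
            funext t; simpa [sub_eq_zero] using (congrFun hg'' t).symm)
          exact ⟨b, _, lMat_D_D P' i g', by rw [hb, sub_add_cancel]⟩
      refine ⟨b, funext fun t => hj ?_⟩
      rw [hb', lMat_add, hg₁, add_zero, lMat_map] at hg
      exact congrFun hg t

end transfer

end Vale.Agent.P195D
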