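import Vale.Agent.P195D.MutPres
import Vale.Agent.P195D.MutBimod

/-!
The universal extension of a bimodule at a cyclic module.
-/

namespace Vale.Agent.P195D

open MulOpposite LinearMap TensorProduct

variable {k : Type} [Field k] {B : Type} [Ring B] [Algebra k B]

theorem exists_lift_of_injective {M X₁ X₂ X₃ : Type} [AddCommGroup M] [Module B M]
    [AddCommGroup X₁] [Module B X₁] [AddCommGroup X₂] [Module B X₂] [AddCommGroup X₃]
    [Module B X₃] (j : X₁ →ₗ[B] X₂) (q : X₂ →ₗ[B] X₃) (hj : Function.Injective j)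
    (hjq : Function.Exact j q) (f : M →ₗ[B] X₂) (hf : ∀ x, q (f x) = 0) :
    ∃ f' : M →ₗ[B] X₁, ∀ x, j (f' x) = f x := by
  refine ⟨(LinearEquiv.ofInjective j hj).symm.toLinearMap.comp
    (LinearMap.codRestrict (LinearMap.range j) f fun x => (hjq (f x)).1 (hf x)), fun x => ?_⟩
  show j ((LinearEquiv.ofInjective j hj).symm ⟨f x, (hjq (f x)).1 (hf x)⟩) = f x
  exact congrArg Subtype.val ((LinearEquiv.ofInjective j hj).apply_symm_apply _)

theorem homExact_ten {U : Type} [AddCommGroup U] [Module B U] (P : FreeRes B U)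
    {X V : Type} [AddCommGroup X] [Module k X] [Module B X] [IsScalarTower k B X]
    [AddCommGroup V] [Module k V] [Module.Finite k V] (n : ℕ) (h : HomExactAt P X n) :
    HomExactAt P (X ⊗[k] V) n := by
  obtain ⟨r, bV, e, he, -⟩ := ten_coord_right (B := B) (X := X) (V := V) (k := k)
  exact homExact_pi P e he n h

theorem tac_ten {U : Type} [AddCommGroup U] [Module B U] (P : FreeRes B U)
    {X V : Type} [AddCommGroup X] [Module k X] [Module B X] [IsScalarTower k B X]
    [Module.Finite k X] [AddCommGroup V] [Module k V] [Module Bᵐᵒᵖ V] [IsScalarTower k Bᵐᵒᵖ V]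
    (h : TAc P V) : TAc P (X ⊗[k] V) := by
  obtain ⟨r, e, he, hr⟩ := ten_coord_left (B := B) (X := X) (V := V) (k := k)
  exact TAc.pi P e hr he h

section uext
variable {U₀ : Type} [AddCommGroup U₀] [Module B U₀] [Module k U₀] [IsScalarTower k B U₀]
variable {F : Type} [AddCommGroup F] [Module B F] [Module k F] [IsScalarTower k B F]
variable (π : F →ₗ[B] U₀)
variable (Y₀ : Type) [AddCommGroup Y₀] [Module B Y₀] [Module Bᵐᵒᵖ Y₀] [SMulCommClass B Bᵐᵒᵖ Y₀]
  [Module k Y₀] [IsScalarTower k B Y₀] [IsScalarTower k Bᵐᵒᵖ Y₀]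

/-- Restriction to the kernel of `π`. -/
def resMap : (F →ₗ[B] Y₀) →ₗ[Bᵐᵒᵖ] (ker π →ₗ[B] Y₀) where
  toFun g := g.comp (ker π).subtype
  map_add' _ _ := rfl
  map_smul' _ _ := rfl

@[simp] theorem resMap_apply (g : F →ₗ[B] Y₀) (x : ker π) : resMap π Y₀ g x = g x.1 := rfl

/-- The classes of extensions of `U₀` by `Y₀`. -/
abbrev ExtCls : Type := (ker π →ₗ[B] Y₀) ⧸ LinearMap.range (resMap π Y₀)

/-- Restriction, over the ground field. -/
def resMapK : (F →ₗ[B] Y₀) →ₗ[k] (ker π →ₗ[B] Y₀) :=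
  (resMap π Y₀).restrictScalars k

/-- `x ↦ x ⊗ w`, for `w` running through a `k`-space. -/
noncomputable def tmulR (F H : Type) [AddCommGroup F] [Module B F] [Module k F]
    [IsScalarTower k B F] [AddCommGroup H] [Module k H] : H →ₗ[k] F →ₗ[B] F ⊗[k] H where
  toFun v :=
    { toFun := fun x => x ⊗ₜ[k] v
      map_add' := fun x y => TensorProduct.add_tmul x y v
      map_smul' := fun _ _ => rfl }
  map_add' v w := LinearMap.ext fun x => TensorProduct.tmul_add x v w
  map_smul' c v := LinearMap.ext fun x => TensorProduct.tmul_smul c x v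

@[simp] theorem tmulR_apply (F H : Type) [AddCommGroup F] [Module B F] [Module k F]
    [IsScalarTower k B F] [AddCommGroup H] [Module k H] (v : H) (x : F) :
    tmulR (k := k) (B := B) F H v x = x ⊗ₜ[k] v := rfl

/-- The relations of the universal extension. -/
noncomputable def uRel : BiMap B ((ker π ⊗[k] (ker π →ₗ[B] Y₀)) × (F ⊗[k] (F →ₗ[B] Y₀)))
    (Y₀ × (F ⊗[k] (ker π →ₗ[B] Y₀))) where
  lin := LinearMap.coprod
    ((tenLift (k := k) LinearMap.id).prod (-tenMap (k := k) _ (ker π).subtype))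
    ((tenLift (k := k) LinearMap.id).prod
      (-tenLift (k := k) ((tmulR (B := B) F (ker π →ₗ[B] Y₀)).comp (resMapK π Y₀))))
  rlin b a := by
    have h1 := tenLift_op (k := k) (LinearMap.id : (ker π →ₗ[B] Y₀) →ₗ[k] _) (fun _ _ _ => rfl) b a.1
    have h2 := tenMap_op (k := k) (V := ker π →ₗ[B] Y₀) (ker π).subtype b a.1
    have h3 := tenLift_op (k := k) (LinearMap.id : (F →ₗ[B] Y₀) →ₗ[k] _) (fun _ _ _ => rfl) b a.2
    have h4 := tenLift_op (k := k) ((tmulR (B := B) F (ker π →ₗ[B] Y₀)).comp (resMapK π Y₀))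
      (fun _ _ _ => rfl) b a.2
    simp only [LinearMap.coprod_apply, LinearMap.prod_apply, Function.prod, Prod.smul_fst,
      Prod.smul_snd, LinearMap.neg_apply, h1, h2, h3, h4, Prod.mk_add_mk, Prod.smul_mk, smul_add,
      smul_neg]

/-- The universal extension. -/
abbrev UExt : Type := Cok (uRel (k := k) π Y₀)

/-- The inclusion of the bimodule. -/
noncomputable def uInc : Y₀ →ₗ[B] UExt (k := k) π Y₀ := (Cok.proj _).comp (LinearMap.inl B _ _)

/-- The class of `x ⊗ w`. -/
noncomputable def uTen : (ker π →ₗ[B] Y₀) →ₗ[k] F →ₗ[B] UExt (k := k) π Y₀ where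
  toFun v := (Cok.proj _).comp ((LinearMap.inr B _ _).comp (tmulR (k := k) F _ v))
  map_add' v w := LinearMap.ext fun x => by
    simp only [LinearMap.comp_apply, LinearMap.inr_apply, tmulR_apply, LinearMap.add_apply,
      TensorProduct.tmul_add, ← map_add, Prod.mk_add_mk, add_zero]
  map_smul' c v := LinearMap.ext fun x => by
    simp only [LinearMap.comp_apply, LinearMap.inr_apply, tmulR_apply, LinearMap.smul_apply,
      RingHom.id_apply, TensorProduct.tmul_smul, Cok.smul_proj, Prod.smul_mk, smul_zero]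

/-- The projection to the classes, as a left linear map. -/
noncomputable def uQuot₀ : F ⊗[k] (ker π →ₗ[B] Y₀) →ₗ[B] U₀ ⊗[k] ExtCls π Y₀ :=
  tenLift (k := k)
    { toFun := fun v =>
        (tmulR (k := k) (B := B) U₀ (ExtCls π Y₀) (Submodule.Quotient.mk v)).comp π
      map_add' := fun v w => LinearMap.ext fun x =>
        TensorProduct.tmul_add (π x) (Submodule.Quotient.mk v) (Submodule.Quotient.mk w)
      map_smul' := fun c v => LinearMap.ext fun x =>
        TensorProduct.tmul_smul c (π x) (Submodule.Quotient.mk v : ExtCls π Y₀) }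

@[simp] theorem uQuot₀_tmul (x : F) (v : ker π →ₗ[B] Y₀) :
    uQuot₀ (k := k) π Y₀ (x ⊗ₜ[k] v) = π x ⊗ₜ[k] (Submodule.Quotient.mk v : ExtCls π Y₀) := rfl

theorem uQuot₀_op (b : B) (t : F ⊗[k] (ker π →ₗ[B] Y₀)) :
    uQuot₀ (k := k) π Y₀ (op b • t) = op b • uQuot₀ (k := k) π Y₀ t :=
  tenLift_op _ (fun _ _ _ => rfl) b t

theorem uQuot₀_eq_map (t : F ⊗[k] (ker π →ₗ[B] Y₀)) :
    uQuot₀ (k := k) π Y₀ t = TensorProduct.map (π.restrictScalars k)
      ((LinearMap.range (resMap π Y₀)).mkQ.restrictScalars k) t := by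
  induction t using TensorProduct.induction_on with
  | zero => simp
  | tmul x v => rfl
  | add s t hs ht => rw [map_add, map_add, hs, ht]

/-- The projection of the universal extension to the classes. -/
noncomputable def uQuot : UExt (k := k) π Y₀ →ₗ[B] U₀ ⊗[k] ExtCls π Y₀ :=
  (LinearMap.range (uRel (k := k) π Y₀).lin).liftQ ((uQuot₀ π Y₀).comp (LinearMap.snd B _ _)) (by
    rintro _ ⟨a, rfl⟩
    have h1 : ∀ t, uQuot₀ (k := k) π Y₀ (tenMap (k := k) _ (ker π).subtype t) = 0 := fun t => by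
      induction t using TensorProduct.induction_on with
      | zero => simp
      | tmul x v => simp [LinearMap.mem_ker.1 x.2]
      | add s t hs ht => simp [map_add, hs, ht]
    have h2 : ∀ t, uQuot₀ (k := k) π Y₀
        (tenLift (k := k) ((tmulR (B := B) F (ker π →ₗ[B] Y₀)).comp (resMapK π Y₀)) t) = 0 :=
      fun t => by
        induction t using TensorProduct.induction_on with
        | zero => simp
        | tmul x g =>
          show uQuot₀ (k := k) π Y₀ (x ⊗ₜ[k] resMap π Y₀ g) = 0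
          rw [uQuot₀_tmul, (Submodule.Quotient.mk_eq_zero (LinearMap.range (resMap π Y₀))).2
            (LinearMap.mem_range_self _ g), TensorProduct.tmul_zero]
        | add s t hs ht => simp only [map_add, hs, ht, add_zero]
    simp [uRel, h1, h2])

theorem uQuot_proj (z : Y₀ × (F ⊗[k] (ker π →ₗ[B] Y₀))) :
    uQuot (k := k) π Y₀ (Cok.proj _ z) = uQuot₀ π Y₀ z.2 := rfl

theorem uInc_op (b : B) (y : Y₀) :
    uInc (k := k) π Y₀ (op b • y) = op b • uInc (k := k) π Y₀ y := by
  show Cok.proj _ (op b • y, (0 : F ⊗[k] (ker π →ₗ[B] Y₀))) = op b • Cok.proj _ (y, 0)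
  rw [Cok.op_smul_proj, Prod.smul_mk, smul_zero]

theorem uQuot_op (b : B) (z : UExt (k := k) π Y₀) :
    uQuot (k := k) π Y₀ (op b • z) = op b • uQuot (k := k) π Y₀ z := by
  obtain ⟨w, rfl⟩ := Cok.proj_surjective _ z
  rw [Cok.op_smul_proj, uQuot_proj, uQuot_proj]
  exact uQuot₀_op π Y₀ b w.2

theorem uRel_fst (t : ker π ⊗[k] (ker π →ₗ[B] Y₀)) (s : F ⊗[k] (F →ₗ[B] Y₀)) :
    ((uRel (k := k) π Y₀).lin (t, s)).1 =
      tenLift (k := k) LinearMap.id t + tenLift (k := k) LinearMap.id s := rfl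

theorem uRel_snd (t : ker π ⊗[k] (ker π →ₗ[B] Y₀)) (s : F ⊗[k] (F →ₗ[B] Y₀)) :
    ((uRel (k := k) π Y₀).lin (t, s)).2 =
      -(tenMap (k := k) _ (ker π).subtype t) +
        -(tenLift (k := k) ((tmulR (B := B) F (ker π →ₗ[B] Y₀)).comp (resMapK π Y₀)) s) := rfl

theorem exists_uTheta (r : (ker π →ₗ[B] Y₀) →ₗ[k] (F →ₗ[B] Y₀)) (σ : F →ₗ[k] ker π) :
    ∃ Θ : F ⊗[k] (ker π →ₗ[B] Y₀) →ₗ[k] Y₀, ∀ x h,
      Θ (x ⊗ₜ[k] h) = r h x + (h - resMapK (k := k) π Y₀ (r h)) (σ x) :=
  ⟨TensorProduct.lift (LinearMap.mk₂ k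
      (fun x h => r h x + (h - resMapK (k := k) π Y₀ (r h)) (σ x))
      (fun x x' h => by rw [map_add, map_add σ, map_add]; abel)
      (fun c x h => by
        rw [LinearMap.map_smul_of_tower, map_smul σ, LinearMap.map_smul_of_tower, smul_add])
      (fun x h h' => by
        rw [map_add r, map_add (resMapK (k := k) π Y₀)]
        simp only [LinearMap.add_apply, LinearMap.sub_apply]; abel)
      (fun c x h => by
        rw [map_smul r, map_smul (resMapK (k := k) π Y₀)]
        simp only [LinearMap.smul_apply, LinearMap.sub_apply, smul_add, smul_sub])),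
    fun _ _ => rfl⟩

theorem resMapK_injective (hπ : Function.Surjective π) (h0 : ∀ f : U₀ →ₗ[B] Y₀, f = 0) :
    LinearMap.ker (resMapK (k := k) π Y₀) = ⊥ := by
  rw [eq_bot_iff]
  intro g hg
  obtain ⟨f, hf⟩ := exists_factor_surj π hπ g fun x hx =>
    show g x = 0 from DFunLike.congr_fun (LinearMap.mem_ker.1 hg) ⟨x, hx⟩
  refine LinearMap.ext fun x => ?_
  rw [← hf, h0 f]; rfl

theorem uInc_injective (hπ : Function.Surjective π) (h0 : ∀ f : U₀ →ₗ[B] Y₀, f = 0) :
    Function.Injective (uInc (k := k) π Y₀) := by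
  obtain ⟨r, hr⟩ :=
    (resMapK (k := k) π Y₀).exists_leftInverse_of_injective (resMapK_injective π Y₀ hπ h0)
  obtain ⟨σ, hσ⟩ := ((ker π).subtype.restrictScalars k).exists_leftInverse_of_injective
    (LinearMap.ker_eq_bot.2 Subtype.val_injective)
  obtain ⟨Θ, hΘ⟩ := exists_uTheta π Y₀ r σ
  have h1 : ∀ t, Θ (tenMap (k := k) _ (ker π).subtype t) = tenLift (k := k) LinearMap.id t := by
    intro t
    induction t using TensorProduct.induction_on with
    | zero => rw [map_zero, map_zero, map_zero]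
    | tmul x h =>
      have hσx : σ x.1 = x := DFunLike.congr_fun hσ x
      rw [tenMap_tmul, Submodule.subtype_apply, hΘ, hσx, tenLift_tmul, LinearMap.id_apply,
        LinearMap.sub_apply]
      show r h x.1 + (h x - r h x.1) = h x
      abel
    | add s t hs ht => rw [map_add, map_add, map_add, hs, ht]
  have h2 : ∀ s, Θ (tenLift (k := k) ((tmulR (B := B) F (ker π →ₗ[B] Y₀)).comp (resMapK π Y₀)) s)
      = tenLift (k := k) LinearMap.id s := by
    intro s
    induction s using TensorProduct.induction_on with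
    | zero => rw [map_zero, map_zero, map_zero]
    | tmul x g =>
      have hrg : r (resMapK (k := k) π Y₀ g) = g := DFunLike.congr_fun hr g
      rw [tenLift_tmul, LinearMap.comp_apply, tmulR_apply, hΘ, hrg, sub_self,
        LinearMap.zero_apply, add_zero]
      rfl
    | add s t hs ht => rw [map_add, map_add, map_add, hs, ht]
  refine (injective_iff_map_eq_zero _).2 fun y hy => ?_
  have hy' : Cok.proj (uRel (k := k) π Y₀) (y, 0) = 0 := hy
  obtain ⟨ts, hts⟩ := (Cok.proj_eq_zero (uRel (k := k) π Y₀) (y, 0)).1 hy'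
  have e1 : tenLift (k := k) LinearMap.id ts.1 + tenLift (k := k) LinearMap.id ts.2 = y :=
    (uRel_fst π Y₀ ts.1 ts.2).symm.trans (congrArg Prod.fst hts)
  have e2 := congrArg Θ ((uRel_snd π Y₀ ts.1 ts.2).symm.trans (congrArg Prod.snd hts))
  rw [map_add, map_neg, map_neg, h1, h2, ← neg_add, e1, map_zero] at e2
  exact neg_eq_zero.1 e2

theorem uTen_apply (v : ker π →ₗ[B] Y₀) (x : F) :
    uTen (k := k) π Y₀ v x = Cok.proj (uRel (k := k) π Y₀) (0, x ⊗ₜ[k] v) := rfl

theorem uQuot_uTen (v : ker π →ₗ[B] Y₀) (x : F) :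
    uQuot (k := k) π Y₀ (uTen (k := k) π Y₀ v x) =
      π x ⊗ₜ[k] (Submodule.Quotient.mk v : ExtCls π Y₀) := rfl

theorem uTen_ker (v : ker π →ₗ[B] Y₀) (x : ker π) :
    uTen (k := k) π Y₀ v x.1 = uInc (k := k) π Y₀ (v x) := by
  rw [uTen_apply]
  refine (Cok.proj_eq_iff _ _ _).2 ⟨(-(x ⊗ₜ[k] v), 0), ?_⟩
  refine Prod.ext ?_ ?_
  · rw [uRel_fst, map_zero, map_neg, tenLift_tmul, add_zero]
    simp
  · rw [uRel_snd, map_zero, map_neg, tenMap_tmul, neg_zero, add_zero, neg_neg]
    simp

theorem exact_ker_subtype :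
    Function.Exact ((ker π).subtype.restrictScalars k) (π.restrictScalars k) := fun x =>
  ⟨fun hx => ⟨⟨x, hx⟩, rfl⟩, fun ⟨w, hw⟩ => hw ▸ w.2⟩

theorem exact_resMapK :
    Function.Exact (resMapK (k := k) π Y₀)
      ((LinearMap.range (resMap π Y₀)).mkQ.restrictScalars k) := fun v => by
  constructor
  · intro hv
    obtain ⟨g, hg⟩ := (Submodule.Quotient.mk_eq_zero (LinearMap.range (resMap π Y₀))).1 hv
    exact ⟨g, hg⟩
  · rintro ⟨g, rfl⟩
    exact (Submodule.Quotient.mk_eq_zero (LinearMap.range (resMap π Y₀))).2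
      (LinearMap.mem_range_self _ g)

theorem mkQ_restrict_surjective :
    Function.Surjective ((LinearMap.range (resMap π Y₀)).mkQ.restrictScalars k) := fun x => by
  obtain ⟨y, hy⟩ := Submodule.mkQ_surjective (LinearMap.range (resMap π Y₀)) x
  exact ⟨y, hy⟩

theorem uQuot_surjective (hπ : Function.Surjective π) :
    Function.Surjective (uQuot (k := k) π Y₀) := fun z => by
  obtain ⟨t, ht⟩ := TensorProduct.map_surjective (g := π.restrictScalars k)
    (g' := (LinearMap.range (resMap π Y₀)).mkQ.restrictScalars k) hπ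
    (mkQ_restrict_surjective (k := k) π Y₀) z
  exact ⟨Cok.proj _ (0, t), (uQuot₀_eq_map π Y₀ t).trans ht⟩

theorem uQuot₀_ker (hπ : Function.Surjective π) (t : F ⊗[k] (ker π →ₗ[B] Y₀))
    (ht : uQuot₀ (k := k) π Y₀ t = 0) :
    ∃ a b, lTensor F (resMapK (k := k) π Y₀) a +
      rTensor (ker π →ₗ[B] Y₀) ((ker π).subtype.restrictScalars k) b = t := by
  have h := TensorProduct.map_ker (exact_ker_subtype (k := k) π) hπ (exact_resMapK (k := k) π Y₀)
    (mkQ_restrict_surjective (k := k) π Y₀)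
  have ht' : t ∈ ker (TensorProduct.map (π.restrictScalars k)
      ((LinearMap.range (resMap π Y₀)).mkQ.restrictScalars k)) :=
    LinearMap.mem_ker.2 ((uQuot₀_eq_map π Y₀ t).symm.trans ht)
  rw [h] at ht'
  obtain ⟨u, hu, w, hw, huw⟩ := Submodule.mem_sup.1 ht'
  obtain ⟨a, ha⟩ := hu
  obtain ⟨b, hb⟩ := hw
  exact ⟨a, b, by rw [ha, hb, huw]⟩

theorem lTensor_resMapK (a : F ⊗[k] (F →ₗ[B] Y₀)) :
    tenLift (k := k) ((tmulR (B := B) F (ker π →ₗ[B] Y₀)).comp (resMapK π Y₀)) a =
      lTensor F (resMapK (k := k) π Y₀) a := by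
  induction a using TensorProduct.induction_on with
  | zero => rw [map_zero, map_zero]
  | tmul x g => rfl
  | add s t hs ht => rw [map_add, map_add, hs, ht]

theorem uQuot_exact (hπ : Function.Surjective π) :
    Function.Exact (uInc (k := k) π Y₀) (uQuot (k := k) π Y₀) := by
  intro z
  constructor
  · intro hz
    obtain ⟨⟨y, t⟩, rfl⟩ := Cok.proj_surjective _ z
    obtain ⟨a, b, hab⟩ := uQuot₀_ker π Y₀ hπ t hz
    refine ⟨y + (tenLift (k := k) LinearMap.id b + tenLift (k := k) LinearMap.id a), ?_⟩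
    show Cok.proj _ (_, (0 : F ⊗[k] (ker π →ₗ[B] Y₀))) = _
    refine (Cok.proj_eq_iff _ _ _).2 ⟨(b, a), Prod.ext ?_ ?_⟩
    · rw [uRel_fst]; simp
    · rw [uRel_snd, lTensor_resMapK, tenMap_eq_rTensor, Prod.snd_sub]
      show _ = (0 : F ⊗[k] (ker π →ₗ[B] Y₀)) - t
      rw [← hab]
      abel
  · rintro ⟨y, rfl⟩
    exact map_zero (uQuot₀ (k := k) π Y₀)

theorem finite_extCls [Module.Finite k Y₀] [Module.Finite k F] :
    Module.Finite k (ExtCls π Y₀) := by
  have : Module.Finite k (ker π →ₗ[B] Y₀) := by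
    have : Module.Finite k (ker π) :=
      inferInstanceAs (Module.Finite k ((ker π).restrictScalars k))
    exact Module.Finite.of_injective (LinearMap.restrictScalarsₗ k B (ker π) Y₀ k)
      (LinearMap.restrictScalars_injective k)
  exact Module.Finite.of_surjective ((LinearMap.range (resMap π Y₀)).mkQ.restrictScalars k)
    (mkQ_restrict_surjective π Y₀)

theorem finite_uExt [Module.Finite k Y₀] [Module.Finite k F] :
    Module.Finite k (UExt (k := k) π Y₀) := by
  have : Module.Finite k (ker π →ₗ[B] Y₀) := by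
    have : Module.Finite k (ker π) :=
      inferInstanceAs (Module.Finite k ((ker π).restrictScalars k))
    exact Module.Finite.of_injective (LinearMap.restrictScalarsₗ k B (ker π) Y₀ k)
      (LinearMap.restrictScalars_injective k)
  infer_instance

variable {U : Type} [AddCommGroup U] [Module B U]

theorem uExt_homExact_zero [Module.Projective B F] [Module.Finite k Y₀] [Module.Finite k F]
    (P : FreeRes B U₀) (hπ : Function.Surjective π) (h0 : HomExactAt P Y₀ 0)
    (hEnd : ∀ f : U₀ →ₗ[B] U₀, ∃ c : k, ∀ u, f u = c • u) :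
    HomExactAt P (UExt (k := k) π Y₀) 0 := by
  have h0' := (homExact_zero_iff P).1 h0
  have hi := uInc_injective (k := k) π Y₀ hπ h0'
  have : Module.Finite k (ExtCls π Y₀) := finite_extCls π Y₀
  refine (homExact_zero_iff P).2 fun f => ?_
  obtain ⟨r, bV, e, he, hev⟩ := ten_coord_right (k := k) (B := B) (X := U₀) (V := ExtCls π Y₀)
  choose c hc using fun i => hEnd ((LinearMap.proj i).comp (e.comp ((uQuot (k := k) π Y₀).comp f)))
  have hw : ∀ u, uQuot (k := k) π Y₀ (f u) = u ⊗ₜ[k] (∑ i, c i • bV i) := fun u => by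
    refine he.1 (funext fun i => ?_)
    rw [hev, map_sum, Finset.sum_apply']
    refine (hc i u).trans ?_
    simp [Module.Basis.repr_self, Finsupp.single_apply]
  obtain ⟨h, hh⟩ := Submodule.mkQ_surjective _ (∑ i, c i • bV i)
  obtain ⟨g, hg⟩ := exists_lift_of_injective _ _ hi (uQuot_exact (k := k) π Y₀ hπ)
    (f.comp π - uTen (k := k) π Y₀ h) (fun x => by
      rw [LinearMap.sub_apply, map_sub, LinearMap.comp_apply, hw, uQuot_uTen, ← hh,
        Submodule.mkQ_apply, sub_self])
  have hh0 : h = resMap π Y₀ (-g) := by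
    refine LinearMap.ext fun x => hi ?_
    rw [← uTen_ker]
    have := hg x.1
    rw [LinearMap.sub_apply, LinearMap.comp_apply, LinearMap.mem_ker.1 x.2, map_zero,
      zero_sub] at this
    rw [resMap_apply, LinearMap.neg_apply, map_neg, this, neg_neg]
  have hq : ∀ u, uQuot (k := k) π Y₀ (f u) = 0 := fun u => by
    rw [hw, ← hh, Submodule.mkQ_apply,
      (Submodule.Quotient.mk_eq_zero (LinearMap.range (resMap π Y₀))).2
        (hh0 ▸ LinearMap.mem_range_self _ _), TensorProduct.tmul_zero]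
  obtain ⟨f', hf'⟩ := exists_lift_of_injective _ _ hi (uQuot_exact (k := k) π Y₀ hπ) f hq
  refine LinearMap.ext fun u => ?_
  rw [← hf', h0' f', LinearMap.zero_apply, map_zero, LinearMap.zero_apply]

theorem uExt_homExact [Module.Projective B F] [Module.Finite k Y₀] [Module.Finite k F]
    (P : FreeRes B U₀) (hπ : Function.Surjective π) (h0 : HomExactAt P Y₀ 0)
    (hY : ∀ n, HomExactAt P Y₀ (n + 2)) (hUU : ∀ n, 1 ≤ n → HomExactAt P U₀ n)
    (hEnd : ∀ f : U₀ →ₗ[B] U₀, ∃ c : k, ∀ u, f u = c • u) (n : ℕ) :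
    HomExactAt P (UExt (k := k) π Y₀) n := by
  have hi := uInc_injective (k := k) π Y₀ hπ ((homExact_zero_iff P).1 h0)
  have : Module.Finite k (ExtCls π Y₀) := finite_extCls π Y₀
  match n with
  | 0 => exact uExt_homExact_zero π Y₀ P hπ h0 hEnd
  | n + 2 =>
    exact homExact_mid P _ _ hi (uQuot_exact (k := k) π Y₀ hπ) (uQuot_surjective π Y₀ hπ) _ (hY n)
      (homExact_ten P _ (hUU _ (by omega)))
  | 1 =>
    refine (homExact_one_iff P π hπ).2 fun φ => ?_
    obtain ⟨g, hg⟩ := (homExact_one_iff P π hπ).1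
      (homExact_ten (k := k) (V := ExtCls π Y₀) P 1 (hUU 1 le_rfl))
      ((uQuot (k := k) π Y₀).comp φ)
    obtain ⟨g', hg'⟩ := Module.projective_lifting_property _ g (uQuot_surjective (k := k) π Y₀ hπ)
    obtain ⟨h, hh⟩ := exists_lift_of_injective _ _ hi (uQuot_exact (k := k) π Y₀ hπ)
      (φ - g'.comp (ker π).subtype) (fun x => by
        rw [LinearMap.sub_apply, map_sub, LinearMap.comp_apply, Submodule.subtype_apply,
          show uQuot (k := k) π Y₀ (g' x.1) = g x.1 from DFunLike.congr_fun hg' x.1, hg x,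
          LinearMap.comp_apply, sub_self])
    refine ⟨g' + uTen (k := k) π Y₀ h, fun x => ?_⟩
    rw [LinearMap.add_apply, uTen_ker, hh, LinearMap.sub_apply, LinearMap.comp_apply,
      Submodule.subtype_apply, add_sub_cancel]

end uext

end Vale.Agent.P195D
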