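import Vale.Agent.P195D.MutComplex

/-!
Extension properties of short presentations, and their comparison with free resolutions.
-/

namespace Vale.Agent.P195D

open MulOpposite Matrix LinearMap

variable {B : Type} [Ring B] {U : Type} [AddCommGroup U] [Module B U]

/-- Every map on the kernel of `d` extends. -/
def Extends {M N : Type} [AddCommGroup M] [Module B M] [AddCommGroup N] [Module B N]
    (d : M →ₗ[B] N) (X : Type) [AddCommGroup X] [Module B X] : Prop :=
  ∀ f : ker d →ₗ[B] X, ∃ g : M →ₗ[B] X, ∀ x : ker d, g x.1 = f x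

section
variable {F₀ F₁ G₀ G₁ : Type} [AddCommGroup F₀] [Module B F₀] [AddCommGroup F₁] [Module B F₁]
  [AddCommGroup G₀] [Module B G₀] [AddCommGroup G₁] [Module B G₁]
  {X : Type} [AddCommGroup X] [Module B X]

theorem Extends.transfer [Module.Projective B F₀] [Module.Projective B G₀]
    (π : F₀ →ₗ[B] U) (π' : G₀ →ₗ[B] U) (hπ : Function.Surjective π)
    (hπ' : Function.Surjective π') (h : Extends π X) : Extends π' X := by
  obtain ⟨a, ha⟩ := Module.projective_lifting_property π' π hπ'
  obtain ⟨c, hc⟩ := Module.projective_lifting_property π π' hπ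
  intro f
  have ha' : ∀ y, π' (a y) = π y := fun y => DFunLike.congr_fun ha y
  have hc' : ∀ y, π (c y) = π' y := fun y => DFunLike.congr_fun hc y
  let a' : ker π →ₗ[B] ker π' := (a.comp (ker π).subtype).codRestrict _ fun y => by
    simp [ha']
  let r : G₀ →ₗ[B] ker π' := (LinearMap.id - a.comp c).codRestrict _ fun y => by
    simp [ha', hc']
  obtain ⟨g, hg⟩ := h (f.comp a')
  refine ⟨g.comp c + f.comp r, fun x => ?_⟩
  have hx : c x.1 ∈ ker π := by simp [hc']
  rw [LinearMap.add_apply, LinearMap.comp_apply, LinearMap.comp_apply,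
    show g (c x.1) = f (a' ⟨c x.1, hx⟩) from hg ⟨c x.1, hx⟩, ← map_add]
  congr 1
  apply Subtype.ext
  simp [a', r]
  erw [codRestrict_apply]
  simp

theorem Extends.transfer₂ [Module.Projective B F₀] [Module.Projective B F₁]
    [Module.Projective B G₀] [Module.Projective B G₁]
    (π : F₀ →ₗ[B] U) (π' : G₀ →ₗ[B] U) (hπ : Function.Surjective π)
    (hπ' : Function.Surjective π') (d : F₁ →ₗ[B] F₀) (d' : G₁ →ₗ[B] G₀)
    (hd : Function.Exact d π) (hd' : Function.Exact d' π') (h : Extends d X) :
    Extends d' X := by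
  obtain ⟨a, ha⟩ := Module.projective_lifting_property π' π hπ'
  obtain ⟨c, hc⟩ := Module.projective_lifting_property π π' hπ
  have ha' : ∀ y, π' (a y) = π y := fun y => DFunLike.congr_fun ha y
  have hc' : ∀ y, π (c y) = π' y := fun y => DFunLike.congr_fun hc y
  obtain ⟨A, hA⟩ := Module.projective_lifting_property d'.rangeRestrict
    ((a.comp d).codRestrict _ fun y => (hd' _).1 (by simp [ha', hd.apply_apply_eq_zero]))
    d'.surjective_rangeRestrict
  obtain ⟨C, hC⟩ := Module.projective_lifting_property d.rangeRestrict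
    ((c.comp d').codRestrict _ fun y => (hd _).1 (by simp [hc', hd'.apply_apply_eq_zero]))
    d.surjective_rangeRestrict
  obtain ⟨S, hS⟩ := Module.projective_lifting_property d'.rangeRestrict
    ((LinearMap.id - a.comp c).codRestrict _ fun y => (hd' _).1 (by simp [ha', hc']))
    d'.surjective_rangeRestrict
  have hA' : ∀ y, d' (A y) = a (d y) := fun y => congrArg Subtype.val (DFunLike.congr_fun hA y)
  have hC' : ∀ y, d (C y) = c (d' y) := fun y => congrArg Subtype.val (DFunLike.congr_fun hC y)
  have hS' : ∀ y, d' (S y) = y - a (c y) := fun y =>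
    congrArg Subtype.val (DFunLike.congr_fun hS y)
  intro f
  let A' : ker d →ₗ[B] ker d' := (A.comp (ker d).subtype).codRestrict _ fun y => by
    simp [hA']
  let r : G₁ →ₗ[B] ker d' := (LinearMap.id - A.comp C - S.comp d').codRestrict _ fun y => by
    simp [hA', hC', hS']
  obtain ⟨g, hg⟩ := h (f.comp A')
  refine ⟨g.comp C + f.comp r, fun x => ?_⟩
  have hx : C x.1 ∈ ker d := by
    rw [LinearMap.mem_ker, hC', LinearMap.mem_ker.1 x.2, map_zero]
  rw [LinearMap.add_apply, LinearMap.comp_apply, LinearMap.comp_apply,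
    show g (C x.1) = f (A' ⟨C x.1, hx⟩) from hg ⟨C x.1, hx⟩, ← map_add]
  congr 1
  apply Subtype.ext
  simp [A', r, LinearMap.mem_ker.1 x.2]
  erw [codRestrict_apply]
  simp

end

variable (P : FreeRes B U)

/-- The augmentation of a free resolution. -/
noncomputable def FreeRes.aug : (Fin (P.n 0) → B) →ₗ[B] U := Fintype.linearCombination B P.gen

theorem FreeRes.aug_apply (v : Fin (P.n 0) → B) : P.aug v = ∑ j, v j • P.gen j := rfl

theorem FreeRes.aug_surjective : Function.Surjective P.aug := fun u => P.surj u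

theorem FreeRes.exact_aug : Function.Exact (P.D 0).vecMulLinear P.aug := fun v => P.exact_zero v

theorem FreeRes.exact_D (i : ℕ) :
    Function.Exact (P.D (i + 1)).vecMulLinear (P.D i).vecMulLinear := fun v => P.exact_succ i v

theorem exists_factor_surj {M N X : Type} [AddCommGroup M] [Module B M] [AddCommGroup N] [Module B N]
    [AddCommGroup X] [Module B X] (q : M →ₗ[B] N) (hq : Function.Surjective q) (f : M →ₗ[B] X)
    (h : ker q ≤ ker f) : ∃ f' : N →ₗ[B] X, ∀ x, f' (q x) = f x :=
  ⟨((ker q).liftQ f h).comp (q.quotKerEquivOfSurjective hq).symm.toLinearMap, fun x => by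
    have h1 : (q.quotKerEquivOfSurjective hq).symm (q x) = Submodule.Quotient.mk x :=
      (LinearEquiv.symm_apply_eq _).2 rfl
    simp [h1]⟩

variable {X : Type} [AddCommGroup X] [Module B X]

theorem linearCombination_lMat {p q : ℕ} (D : Matrix (Fin p) (Fin q) B) (f : Fin q → X)
    (w : Fin p → B) : ∑ s, w s • lMat D f s = ∑ t, (w ᵥ* D) t • f t := by
  simp only [lMat, Finset.smul_sum, ← mul_smul, vecMul, dotProduct, Finset.sum_smul]
  exact Finset.sum_comm

theorem FreeRes.lMat_eq_zero_iff {p q : ℕ} (D : Matrix (Fin p) (Fin q) B) (f : Fin q → X) :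
    lMat D f = 0 ↔ ∀ w, Fintype.linearCombination B f (w ᵥ* D) = 0 := by
  constructor
  · intro h w
    show ∑ t, (w ᵥ* D) t • f t = 0
    rw [← linearCombination_lMat, h]; simp
  · intro h
    funext i
    have := h (Pi.single i 1)
    change ∑ t, ((Pi.single i 1 : Fin p → B) ᵥ* D) t • f t = 0 at this
    rw [← linearCombination_lMat] at this
    simpa [Finset.sum_eq_single i, Pi.single_apply] using this

theorem lMat_of_linearMap {p q : ℕ} (D : Matrix (Fin p) (Fin q) B) (g : (Fin q → B) →ₗ[B] X)
    (s : Fin p) : lMat D (fun t => g (Pi.single t 1)) s = g ((Pi.single s 1 : Fin p → B) ᵥ* D) := by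
  rw [single_one_vecMul]
  conv_rhs => rw [pi_eq_sum_univ' (D.row s)]
  simp [lMat, map_sum, map_smul]

theorem homExact_zero_iff : HomExactAt P X 0 ↔ ∀ f : U →ₗ[B] X, f = 0 := by
  constructor
  · intro h f
    have hv := h (fun t => f (P.gen t)) ((FreeRes.lMat_eq_zero_iff _ _).2 fun w => by
      rw [Fintype.linearCombination_apply]
      simp_rw [← map_smul]
      rw [← map_sum, show ∑ t, (w ᵥ* P.D 0) t • P.gen t = 0 from P.exact_aug.apply_apply_eq_zero w,
        map_zero])
    refine LinearMap.ext fun u => ?_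
    obtain ⟨v, rfl⟩ := P.surj u
    simp [map_sum, fun t => congrFun hv t]
  · intro h f hf
    obtain ⟨f', hf'⟩ := exists_factor_surj P.aug P.aug_surjective (Fintype.linearCombination B f)
      fun v hv => by
        obtain ⟨w, rfl⟩ := (P.exact_zero v).1 hv
        exact (FreeRes.lMat_eq_zero_iff _ _).1 hf w
    funext t
    have := hf' (Pi.single t 1)
    rw [h f'] at this
    simpa [Fintype.linearCombination_apply_single] using this.symm

theorem homExact_succ_iff (i : ℕ) {N : Type} [AddCommGroup N] [Module B N]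
    (π : (Fin (P.n i) → B) →ₗ[B] N) (hπ : Function.Exact (P.D i).vecMulLinear π) :
    HomExactAt P X (i + 1) ↔ Extends π X := by
  have hmem : ∀ w, (P.D i).vecMulLinear w ∈ ker π := fun w => hπ.apply_apply_eq_zero w
  let e : (Fin (P.n (i + 1)) → B) →ₗ[B] ker π := (P.D i).vecMulLinear.codRestrict _ hmem
  have he : Function.Surjective e := fun x => by
    obtain ⟨w, hw⟩ := (hπ x.1).1 x.2
    exact ⟨w, Subtype.ext hw⟩
  constructor
  · intro h f
    obtain ⟨g, hg⟩ := h (fun t => f (e (Pi.single t 1))) ((FreeRes.lMat_eq_zero_iff _ _).2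
      fun w => by
        rw [Fintype.linearCombination_apply]
        simp_rw [← map_smul]
        rw [← map_sum, ← map_sum]
        have : e (∑ t, (w ᵥ* P.D (i + 1)) t • Pi.single t 1) = 0 := Subtype.ext (by
          rw [← pi_eq_sum_univ']
          exact P.vecMul_D_D i w)
        rw [this, map_zero])
    refine ⟨Fintype.linearCombination B g, fun x => ?_⟩
    obtain ⟨w, rfl⟩ := he x
    show ∑ t, (w ᵥ* P.D i) t • g t = f (e w)
    rw [← linearCombination_lMat, hg]
    conv_rhs => rw [pi_eq_sum_univ' w]
    simp [map_sum, map_smul]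
  · intro h f hf
    obtain ⟨f', hf'⟩ := exists_factor_surj e he (Fintype.linearCombination B f) fun v hv => by
      obtain ⟨w, rfl⟩ := (P.exact_succ i v).1 (congrArg Subtype.val (LinearMap.mem_ker.1 hv))
      exact (FreeRes.lMat_eq_zero_iff _ _).1 hf w
    obtain ⟨g, hg⟩ := h f'
    refine ⟨fun t => g (Pi.single t 1), funext fun s => ?_⟩
    rw [lMat_of_linearMap]
    show g ((e (Pi.single s 1)).1) = f s
    rw [hg, hf']
    simp [Fintype.linearCombination_apply_single]

/-- Degree one in terms of any projective cover. -/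
theorem homExact_one_iff {F : Type} [AddCommGroup F] [Module B F] [Module.Projective B F]
    (π : F →ₗ[B] U) (hπ : Function.Surjective π) : HomExactAt P X 1 ↔ Extends π X := by
  rw [homExact_succ_iff P 0 P.aug P.exact_aug]
  exact ⟨Extends.transfer _ _ P.aug_surjective hπ, Extends.transfer _ _ hπ P.aug_surjective⟩

/-- Degree two in terms of any projective presentation. -/
theorem homExact_two_iff {F F' : Type} [AddCommGroup F] [Module B F] [Module.Projective B F]
    [AddCommGroup F'] [Module B F'] [Module.Projective B F'] (π : F →ₗ[B] U)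
    (hπ : Function.Surjective π) (d : F' →ₗ[B] F) (hd : Function.Exact d π) :
    HomExactAt P X 2 ↔ Extends d X := by
  rw [homExact_succ_iff P 1 (P.D 0).vecMulLinear (P.exact_D 0)]
  exact ⟨Extends.transfer₂ _ _ P.aug_surjective hπ _ _ P.exact_aug hd,
    Extends.transfer₂ _ _ hπ P.aug_surjective _ _ hd P.exact_aug⟩

end Vale.Agent.P195D
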