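import Vale.Agent.P195D.Cat

/-!
Modules of Laurent monomials, the modules `U m`, and the basic morphisms.
-/

namespace Vale.Agent.P195D

set_option linter.unusedSimpArgs false
set_option linter.unusedVariables false

noncomputable section

variable {k : Type} [Field k]

/-- Laurent polynomials. -/
abbrev Lau (k : Type) [Field k] : Type := Gam →₀ k

/-- The action of an operator of weight `γ`, on a monomial. -/
def monAct (γ p : Gam) : Pl k →ₗ[k] Lau k :=
  (Finsupp.lsingle (R := k) (p + γ)).comp (ev (k := k) (p + γ)).toLinearMap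

/-- The action of operators of weight `γ`. -/
def wtAct (γ : Gam) : Pl k →ₗ[k] Lau k →ₗ[k] Lau k where
  toFun f := Finsupp.linearCombination k fun p : Gam => monAct γ p f
  map_add' f g := Finsupp.lhom_ext fun p c => by
    simp [Finsupp.linearCombination_single, smul_add]
  map_smul' r f := Finsupp.lhom_ext fun p c => by
    simp [Finsupp.linearCombination_single, smul_smul, mul_comm]

/-- The coefficients as a linear map. -/
def coeffLin : W k →ₗ[k] (Multiplicative Gam →₀ Pl k) where
  toFun w := w.coeff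
  map_add' u v := SkewMonoidAlgebra.coeff_add u v
  map_smul' c u := SkewMonoidAlgebra.coeff_smul c u

/-- The action of an operator on Laurent polynomials. -/
def act : W k →ₗ[k] Lau k →ₗ[k] Lau k :=
  (Finsupp.lsum k fun g : Multiplicative Gam => wtAct (k := k) g.toAdd).comp coeffLin

theorem act_mon_single (γ p : Gam) (f : Pl k) (c : k) :
    act (mon γ f) (Finsupp.single p c) = Finsupp.single (p + γ) (ev (p + γ) f * c) := by
  simp [act, coeffLin, wtAct, monAct, mon, SkewMonoidAlgebra.coeff_single,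
    Finsupp.linearCombination_single, mul_comm]

theorem act_one (x : Lau k) : act (1 : W k) x = x := by
  induction x using Finsupp.induction_linear with
  | zero => simp
  | add x y hx hy => rw [map_add, hx, hy]
  | single p c => rw [one_eq_mon, act_mon_single]; simp

theorem act_mul (u v : W k) (x : Lau k) : act (u * v) x = act u (act v x) := by
  induction x using Finsupp.induction_linear with
  | zero => simp
  | add x y hx hy => simp only [map_add, hx, hy]
  | single p c =>
    induction u using W_induction with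
    | hmon γ f =>
      induction v using W_induction with
      | hmon δ g =>
        rw [mon_mul_mon, act_mon_single, act_mon_single, act_mon_single, map_mul, ev_tau]
        congr 1
        · abel
        · rw [show p + (γ + δ) - γ = p + δ by abel, show p + δ + γ = p + (γ + δ) by abel, mul_assoc]
      | hadd v v' h h' => simp only [mul_add, map_add, LinearMap.add_apply, h, h']
    | hadd u u' h h' => simp only [add_mul, map_add, LinearMap.add_apply, h, h']

/-- The monomials of a domain of total degree `n`. -/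
def MS (k : Type) [Field k] (S : Dom) (n : ℤ) : Submodule k (Lau k) :=
  Finsupp.supported k k {p : Gam | S.Mem p ∧ p.1 + p.2 = n}

theorem act_mem_MS {S : Dom} {δ β n : ℤ} {w : W k} (hw : w ∈ Sp k δ β) (hS : w ∈ Pres k S)
    {x : Lau k} (hx : x ∈ MS k S n) : act w x ∈ MS k S (δ + n) := by
  classical
  rw [← Finsupp.sum_single x, Finsupp.sum, map_sum]
  refine Submodule.sum_mem _ fun p hp => ?_
  obtain ⟨hpS, hpn⟩ := (Finsupp.mem_supported k x).1 hx hp
  rw [W_eq_sum w, map_sum, LinearMap.sum_apply]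
  refine Submodule.sum_mem _ fun g _ => ?_
  generalize g.toAdd = γ
  rw [act_mon_single]
  by_cases h : ev (p + γ) (cf w γ) = 0
  · simp [h]
  refine Finsupp.single_mem_supported k _ ⟨?_, ?_⟩
  · by_contra hn
    exact h (hS γ _ hn (by simpa using hpS))
  · rcases hw γ with h0 | ⟨⟨h1, -⟩, -⟩
    · rw [h0, map_zero] at h; exact absurd rfl h
    · simp only [Prod.fst_add, Prod.snd_add]; omega

/-- The value at an object of the module of a layer, a domain and a degree. -/
def sps (k : Type) [Field k] (i : Fin 2) (S : Dom) (n : ℤ) (u : Ob) : Submodule k (Lau k) :=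
  if u.lay = i then MS k S (n - u.a) else ⊥

/-- The operator by which a morphism acts. -/
def opOf (i : Fin 2) {u v : Ob} (h : Hom' k u v) : W k :=
  if u.lay = i ∧ v.lay = i then h.1.1 else 0

theorem opOf_add (i : Fin 2) {u v : Ob} (h h' : Hom' k u v) :
    opOf i (h + h') = opOf i h + opOf i h' := by
  unfold opOf; split <;> simp

theorem opOf_smul (i : Fin 2) {u v : Ob} (c : k) (h : Hom' k u v) :
    opOf i (c • h) = c • opOf i h := by
  unfold opOf; split <;> simp

theorem opOf_idm (i : Fin 2) (u : Ob) (hu : u.lay = i) :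
    opOf i (idm (k := k) u u) = 1 := by
  simp [opOf, hu, idP]

theorem opOf_comp (i : Fin 2) {u v w : Ob} (x : Hom' k u v) (y : Hom' k v w) :
    opOf i (comp u v w x y) = opOf i x * opOf i y := by
  obtain ⟨il, ua, ub⟩ := u
  obtain ⟨jl, va, vb⟩ := v
  obtain ⟨ll, wa, wb⟩ := w
  fin_cases i <;> fin_cases il <;> fin_cases jl <;> fin_cases ll <;> simp [opOf, mulP]

theorem act_opOf_mem (i : Fin 2) (S : Dom) (n : ℤ) {u v : Ob} (h : Hom' k u v) {x : Lau k}
    (hx : x ∈ sps k i S n v) : act (opOf i h) x ∈ sps k i S n u := by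
  unfold opOf
  split
  · next hl =>
    have hmem := ((mem_Hm_E (by omega)).1 h.2).1
    rw [sps, if_pos hl.2] at hx
    rw [sps, if_pos hl.1]
    have := act_mem_MS (Sp0_le_Sp _ _ hmem) (Sp0_le_Pres S hmem) hx
    rwa [show v.a - u.a + (n - v.a) = n - u.a by ring] at this
  · simp

/-- The action of a morphism between the values. -/
def actHom (i : Fin 2) (S : Dom) (n : ℤ) (u v : Ob) :
    Hom' k u v →ₗ[k] ↥(sps k i S n v) →ₗ[k] ↥(sps k i S n u) :=
  LinearMap.mk₂ k (fun h x => ⟨act (opOf i h) x.1, act_opOf_mem i S n h x.2⟩)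
    (fun h h' x => Subtype.ext (by simp [opOf_add]))
    (fun c h x => Subtype.ext (by simp [opOf_smul]))
    (fun h x y => Subtype.ext (by simp))
    (fun c h x => Subtype.ext (by simp))

@[simp] theorem actHom_val (i : Fin 2) (S : Dom) (n : ℤ) (u v : Ob) (h : Hom' k u v)
    (x : ↥(sps k i S n v)) : (actHom i S n u v h x).1 = act (opOf i h) x.1 := rfl

theorem actHom_comp (i : Fin 2) (S : Dom) (n : ℤ) (u v w : Ob) (h : Hom' k u v) (h' : Hom' k v w)
    (x : ↥(sps k i S n w)) :
    actHom i S n u w (comp u v w h h') x = actHom i S n u v h (actHom i S n v w h' x) :=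
  Subtype.ext (by simp [opOf_comp, act_mul])

theorem actHom_idm (i : Fin 2) (S : Dom) (n : ℤ) (u : Ob) (x : ↥(sps k i S n u)) :
    actHom i S n u u (idm u u) x = x := by
  refine Subtype.ext ?_
  by_cases hu : u.lay = i
  · simp [opOf_idm i u hu, act_one]
  · have hx : x.1 = 0 := by
      have := x.2
      simpa [sps, if_neg hu] using this
    simp [hx]

/-- The module of a layer, a domain and a degree. -/
def LMod (k : Type) [Field k] (i : Fin 2) (S : Dom) (n : ℤ) : Type :=
  ∀ u : Ix, ↥(sps k i S n (ob u))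

namespace LMod

variable {i : Fin 2} {S : Dom} {n : ℤ}

instance : AddCommGroup (LMod k i S n) :=
  inferInstanceAs (AddCommGroup (∀ u : Ix, ↥(sps k i S n (ob u))))
instance : Module k (LMod k i S n) :=
  inferInstanceAs (Module k (∀ u : Ix, ↥(sps k i S n (ob u))))

@[ext] theorem ext {x y : LMod k i S n} (h : ∀ u, x u = y u) : x = y := funext h

@[simp] theorem add_apply (x y : LMod k i S n) (u : Ix) : (x + y) u = x u + y u := rfl
@[simp] theorem zero_apply (u : Ix) : (0 : LMod k i S n) u = 0 := rfl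
@[simp] theorem smul_apply (r : k) (x : LMod k i S n) (u : Ix) : (r • x) u = r • x u := rfl

instance : SMul (Alg k) (LMod k i S n) :=
  ⟨fun b x u => ∑ v, actHom i S n (ob u) (ob v) (b u v) (x v)⟩

theorem act_apply (b : Alg k) (x : LMod k i S n) (u : Ix) :
    (b • x) u = ∑ v, actHom i S n (ob u) (ob v) (b u v) (x v) := rfl

instance : Module (Alg k) (LMod k i S n) where
  one_smul x := ext fun u => by
    rw [act_apply, Finset.sum_eq_single u]
    · rw [Alg.one_apply, actHom_idm]
    · intro v _ hv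
      rw [Alg.one_apply, idm_of_ne (fun h => hv (ob_injective h).symm), map_zero,
        LinearMap.zero_apply]
    · simp
  mul_smul a b x := ext fun u => by
    simp only [act_apply, Alg.mul_apply, map_sum, LinearMap.sum_apply, actHom_comp]
    exact Finset.sum_comm
  smul_zero b := ext fun u => by simp [act_apply]
  smul_add b x y := ext fun u => by simp [act_apply, Finset.sum_add_distrib]
  add_smul a b x := ext fun u => by simp [act_apply, Finset.sum_add_distrib]
  zero_smul x := ext fun u => by simp [act_apply]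

instance : IsScalarTower k (Alg k) (LMod k i S n) :=
  ⟨fun r b x => ext fun u => by simp [act_apply, Finset.smul_sum]⟩

end LMod

instance finite_MS_reg (n : ℤ) : Module.Finite k (MS k .reg n) := by
  have hf : {p : Gam | Dom.reg.Mem p ∧ p.1 + p.2 = n}.Finite :=
    ((Set.finite_Icc (0 : ℤ) n).prod (Set.finite_Icc (0 : ℤ) n)).subset fun p hp => by
      simp only [Set.mem_ofPred_eq, Dom.Mem] at hp
      simp only [Set.mem_prod, Set.mem_Icc]; omega
  have := hf.to_subtype
  exact Module.Finite.equiv (Finsupp.supportedEquivFinsupp _).symm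

instance finite_sps_reg (i : Fin 2) (n : ℤ) (u : Ob) : Module.Finite k (sps k i .reg n u) := by
  by_cases h : u.lay = i
  · rw [sps, if_pos h]; infer_instance
  · rw [sps, if_neg h]; infer_instance

/-- The module `U m` (the first one is `U 0`). -/
abbrev Um (k : Type) [Field k] (m : ℕ) : Type := LMod k 0 .reg (m : ℤ)

instance (i : Fin 2) (n : ℤ) : Module.Finite k (LMod k i .reg n) :=
  inferInstanceAs (Module.Finite k (∀ u : Ix, ↥(sps k i .reg n (ob u))))

/-! ### Basic operators and morphisms -/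

/-- Exponent of a variable. -/
def unitG (i : Fin 2) : Gam := if i = 0 then (1, 0) else (0, 1)

/-- Multiplication by `x_i`. -/
def xW (k : Type) [Field k] (i : Fin 2) : W k := mon (unitG i) 1

/-- The partial derivative `∂_i = x_i⁻¹ θ_i = (θ_i + 1) x_i⁻¹`. -/
def dW (k : Type) [Field k] (i : Fin 2) : W k :=
  mon (-unitG i) (MvPolynomial.X i + 1)

theorem Bd_one {δ β : ℤ} {γ : Gam} (h : Inside δ β γ) : Bd δ β γ (1 : Pl k) :=
  Or.inr ⟨h, by simpa using h.2.2.2⟩

theorem xW_mem (i : Fin 2) {β : ℤ} (hβ : 0 ≤ β) : xW k i ∈ Sp0 k 1 β := by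
  have hs : xW k i ∈ Sp k 1 β := mon_mem_Sp (Bd_one (by
    fin_cases i <;> simp [Inside, unitG] <;> omega))
  refine ⟨⟨hs, mon_mem_Pres fun q h h' => ?_⟩, ⟨hs, mon_mem_Pres fun q h h' => ?_⟩⟩ <;>
    fin_cases i <;> simp [Dom.Mem, unitG] at h h' <;> omega

theorem dW_mem (i : Fin 2) {β : ℤ} (hβ : 1 ≤ β) : dW k i ∈ Sp0 k (-1) β := by
  have hs : dW k i ∈ Sp k (-1) β := mon_mem_Sp (Or.inr ⟨by
      fin_cases i <;> simp [Inside, unitG] <;> omega, by
      have : (MvPolynomial.X i + 1 : Pl k).totalDegree ≤ 1 := by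
        refine (MvPolynomial.totalDegree_add _ _).trans ?_
        simp
      omega⟩)
  refine ⟨⟨hs, mon_mem_Pres fun q h h' => ?_⟩, ⟨hs, mon_mem_Pres fun q h h' => ?_⟩⟩ <;>
    fin_cases i <;> simp [Dom.Mem, unitG] at h h'
  · omega
  · simp [ev, crd, show q.2 = -1 by omega]
  · simp [ev, crd, show q.1 = -1 by omega]
  · omega

@[simp] theorem pd_xW (i j : Fin 2) : pd j (xW k i) = 0 := by simp [xW]

theorem xW_comm : xW k 0 * xW k 1 = xW k 1 * xW k 0 := by
  simp [xW, mon_mul_mon, add_comm]

theorem one_mem_Sp0' {β : ℤ} (hβ : 0 ≤ β) : (1 : W k) ∈ Sp0 k 0 β := by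
  have hs : (1 : W k) ∈ Sp k 0 β :=
    one_eq_mon (k := k) ▸ mon_mem_Sp (Bd_one (by simp [Inside]; omega))
  exact ⟨⟨hs, one_mem_Pres _⟩, ⟨hs, one_mem_Pres _⟩⟩

/-- `x_i⁻¹` as an element of the deformation bimodule. -/
def xInv (k : Type) [Field k] (i : Fin 2) : W k := mon (-unitG i) 1

theorem xInv0_mem {β : ℤ} (hβ : 1 ≤ β) : xInv k 0 ∈ Sp1 k (-1) β :=
  ⟨mon_mem_Sp (Bd_one (by simp [Inside, unitG]; omega)), mon_mem_Pres fun q h h' => by
    simp [Dom.Mem, unitG] at h h'; omega⟩

theorem xInv1_mem {β : ℤ} (hβ : 1 ≤ β) : xInv k 1 ∈ Sp2 k (-1) β :=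
  ⟨mon_mem_Sp (Bd_one (by simp [Inside, unitG]; omega)), mon_mem_Pres fun q h h' => by
    simp [Dom.Mem, unitG] at h h'; omega⟩

/-- A morphism of layer-preserving type with vanishing deformation part. -/
def mkE {u v : Ob} (h : ¬ (u.lay = 0 ∧ v.lay = 1)) (w : W k)
    (hw : w ∈ Sp0 k (v.a - u.a) (v.b - u.b)) : Hom' k u v :=
  ⟨(w, 0), (mem_Hm_E h).2 ⟨hw, Submodule.zero_mem _⟩⟩

/-- A morphism from layer `0` to layer `1`. -/
def mkL {u v : Ob} (h : u.lay = 0 ∧ v.lay = 1) (p q : W k)
    (hp : p ∈ Sp1 k (v.a - u.a) (v.b - u.b)) (hq : q ∈ Sp2 k (v.a - u.a) (v.b - u.b)) :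
    Hom' k u v :=
  ⟨(p, q), (mem_Hm_L h).2 ⟨hp, hq⟩⟩

@[simp] theorem mkE_val {u v : Ob} (h : ¬ (u.lay = 0 ∧ v.lay = 1)) (w : W k)
    (hw : w ∈ Sp0 k (v.a - u.a) (v.b - u.b)) : (mkE h w hw).1 = (w, 0) := rfl

@[simp] theorem mkL_val {u v : Ob} (h : u.lay = 0 ∧ v.lay = 1) (p q : W k)
    (hp : p ∈ Sp1 k (v.a - u.a) (v.b - u.b)) (hq : q ∈ Sp2 k (v.a - u.a) (v.b - u.b)) :
    (mkL h p q hp hq).1 = (p, q) := rfl

/-- Multiplication by `x_i` from `(l, a, b)` to `(l, a + 1, b)`. -/
def xHom (k : Type) [Field k] (u : Ob) (i : Fin 2) : Hom' k u (u.sh 1) :=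
  mkE (by simp; omega) (xW k i) (by simpa using xW_mem i le_rfl)

/-- The arrow `a` from layer `1` to layer `0`. -/
def aHom (k : Type) [Field k] (a b : ℤ) : Hom' k ⟨1, a, b⟩ ⟨0, a, b⟩ :=
  mkE (by simp) 1 (by simpa using one_mem_Sp0)

/-- The arrow `ω = (1, -1)` from layer `0` to layer `1`. -/
def omHom (k : Type) [Field k] (a b : ℤ) : Hom' k ⟨0, a, b⟩ ⟨1, a, b⟩ :=
  mkL ⟨rfl, rfl⟩ 1 (-1) (by simpa using Sp0_le_Sp1 _ _ one_mem_Sp0)
    (Submodule.neg_mem _ (by simpa using Sp0_le_Sp2 _ _ one_mem_Sp0))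

end

end Vale.Agent.P195D
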