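import Vale.Agent.P195D.Weyl

/-!
The bounded spaces of operators and their stability under multiplication.
-/

namespace Vale.Agent.P195D

set_option linter.unusedSimpArgs false

open MvPolynomial

noncomputable section

variable {k : Type} [Field k]

/-- The condition on the weight `γ` in the space of relative degree `(δ, β)`. -/
def Inside (δ β : ℤ) (γ : Gam) : Prop := γ.1 + γ.2 = δ ∧ -β ≤ γ.1 ∧ -β ≤ γ.2 ∧ 0 ≤ β

/-- The coefficient condition. -/
def Bd (δ β : ℤ) (γ : Gam) (f : Pl k) : Prop := f = 0 ∨ (Inside δ β γ ∧ (f.totalDegree : ℤ) ≤ β)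

theorem Bd.zero {δ β : ℤ} {γ : Gam} : Bd δ β γ (0 : Pl k) := Or.inl rfl

theorem Bd.add {δ β : ℤ} {γ : Gam} {f g : Pl k} (hf : Bd δ β γ f) (hg : Bd δ β γ g) :
    Bd δ β γ (f + g) := by
  rcases hf with rfl | ⟨h, hf⟩
  · simpa using hg
  rcases hg with rfl | ⟨-, hg⟩
  · exact Or.inr ⟨h, by simpa using hf⟩
  · refine Or.inr ⟨h, ?_⟩
    have := totalDegree_add f g
    rcases max_cases f.totalDegree g.totalDegree with ⟨e, -⟩ | ⟨e, -⟩ <;> omega

theorem Bd.smul {δ β : ℤ} {γ : Gam} {f : Pl k} (c : k) (hf : Bd δ β γ f) : Bd δ β γ (c • f) := by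
  rcases hf with rfl | ⟨h, hf⟩
  · exact Or.inl (smul_zero c)
  · exact Or.inr ⟨h, le_trans (by exact_mod_cast totalDegree_smul_le c f) hf⟩

theorem Bd.mul {δ β δ' β' : ℤ} {γ γ' : Gam} {f g : Pl k} (hf : Bd δ β γ f) (hg : Bd δ' β' γ' g) :
    Bd (δ + δ') (β + β') (γ + γ') (f * tau γ g) := by
  rcases hf with rfl | ⟨⟨h1, h2, h3, h4⟩, hf⟩
  · exact Or.inl (zero_mul _)
  rcases hg with rfl | ⟨⟨h1', h2', h3', h4'⟩, hg⟩
  · exact Or.inl (by simp)
  refine Or.inr ⟨⟨?_, ?_, ?_, by omega⟩, ?_⟩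
  · simp only [Prod.fst_add, Prod.snd_add]; omega
  · simp only [Prod.fst_add]; omega
  · simp only [Prod.snd_add]; omega
  · have := totalDegree_mul f (tau γ g)
    have := totalDegree_tau_le γ g
    omega

theorem Bd.pderiv {δ β : ℤ} {γ : Gam} {f : Pl k} (i : Fin 2) (hf : Bd δ β γ f) :
    Bd δ β γ (MvPolynomial.pderiv i f) := by
  rcases hf with rfl | ⟨h, hf⟩
  · exact Or.inl (map_zero _)
  · exact Or.inr ⟨h, le_trans (by exact_mod_cast totalDegree_pderiv_le' i f) hf⟩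

/-- All bounded operators of relative degree `(δ, β)`. -/
def Sp (k : Type) [Field k] (δ β : ℤ) : Submodule k (W k) where
  carrier := {w | ∀ γ, Bd δ β γ (cf w γ)}
  add_mem' := fun {u v} hu hv γ => by simpa using (hu γ).add (hv γ)
  zero_mem' γ := by simpa using Bd.zero
  smul_mem' := fun c u hu γ => by simpa using (hu γ).smul c

theorem mem_Sp {δ β : ℤ} {w : W k} : w ∈ Sp k δ β ↔ ∀ γ, Bd δ β γ (cf w γ) := Iff.rfl

theorem mon_mem_Sp {δ β : ℤ} {γ : Gam} {f : Pl k} (h : Bd δ β γ f) : mon γ f ∈ Sp k δ β := by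
  intro γ'
  rw [cf_mon]
  split
  · next e => subst e; exact h
  · exact Bd.zero

theorem pd_mem_Sp {δ β : ℤ} {w : W k} (i : Fin 2) (h : w ∈ Sp k δ β) : pd i w ∈ Sp k δ β :=
  fun γ => by simpa using (h γ).pderiv i

/-- To prove a statement on a product it suffices to treat the components. -/
theorem mul_mem_of_components {S T V : Submodule k (W k)} {u v : W k}
    (hS : ∀ {w : W k}, w ∈ S → ∀ γ, mon γ (cf w γ) ∈ S)
    (hT : ∀ {w : W k}, w ∈ T → ∀ γ, mon γ (cf w γ) ∈ T)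
    (h : ∀ γ f γ' g, mon γ f ∈ S → mon γ' g ∈ T → mon γ f * mon γ' g ∈ V)
    (hu : u ∈ S) (hv : v ∈ T) : u * v ∈ V := by
  rw [W_eq_sum u, W_eq_sum v, Finset.sum_mul]
  refine Submodule.sum_mem _ fun g _ => ?_
  rw [Finset.mul_sum]
  exact Submodule.sum_mem _ fun g' _ => h _ _ _ _ (hS hu _) (hT hv _)

theorem Sp_component {δ β : ℤ} {w : W k} (h : w ∈ Sp k δ β) (γ : Gam) :
    mon γ (cf w γ) ∈ Sp k δ β := mon_mem_Sp (h γ)

theorem mul_mem_Sp {δ β δ' β' : ℤ} {u v : W k} (hu : u ∈ Sp k δ β) (hv : v ∈ Sp k δ' β') :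
    u * v ∈ Sp k (δ + δ') (β + β') :=
  mul_mem_of_components Sp_component Sp_component (fun γ f γ' g hf hg => by
    rw [mon_mul_mon]
    refine mon_mem_Sp (Bd.mul ?_ ?_)
    · simpa [cf_mon] using hf γ
    · simpa [cf_mon] using hg γ') hu hv

theorem one_mem_Sp : (1 : W k) ∈ Sp k 0 0 :=
  one_eq_mon (k := k) ▸ mon_mem_Sp (Or.inr ⟨by simp [Inside], by simp⟩)

/-- Domains of monomials: all, second exponent nonnegative, first exponent nonnegative, both. -/
inductive Dom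
  | all | fst | snd | reg
  deriving DecidableEq

/-- Membership of an exponent in a domain. -/
def Dom.Mem : Dom → Gam → Prop
  | .all, _ => True
  | .fst, q => 0 ≤ q.2
  | .snd, q => 0 ≤ q.1
  | .reg, q => 0 ≤ q.1 ∧ 0 ≤ q.2

/-- The coefficient condition for preserving a domain. -/
def Keeps (S : Dom) (γ : Gam) (f : Pl k) : Prop :=
  ∀ q : Gam, ¬ S.Mem q → S.Mem (q - γ) → ev q f = 0

/-- Operators preserving the span of the monomials in a domain. -/
def Pres (k : Type) [Field k] (S : Dom) : Submodule k (W k) where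
  carrier := {w | ∀ γ, Keeps S γ (cf w γ)}
  add_mem' := fun {u v} hu hv γ q h h' => by simp [hu γ q h h', hv γ q h h']
  zero_mem' γ q h h' := by simp
  smul_mem' := fun c u hu γ q h h' => by simp [hu γ q h h']

theorem mon_mem_Pres {S : Dom} {γ : Gam} {f : Pl k} (h : Keeps S γ f) : mon γ f ∈ Pres k S := by
  intro γ' q h1 h2
  rw [cf_mon]
  split
  · next e => subst e; exact h q h1 h2
  · simp

theorem Pres_component {S : Dom} {w : W k} (h : w ∈ Pres k S) (γ : Gam) :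
    mon γ (cf w γ) ∈ Pres k S := mon_mem_Pres (h γ)

theorem mul_mem_Pres {S : Dom} {u v : W k} (hu : u ∈ Pres k S) (hv : v ∈ Pres k S) :
    u * v ∈ Pres k S :=
  mul_mem_of_components Pres_component Pres_component (fun γ f γ' g hf hg => by
    rw [mon_mul_mon]
    refine mon_mem_Pres fun q h1 h2 => ?_
    rw [map_mul, ev_tau]
    have hfq := hf γ q
    have hgq := hg γ' (q - γ)
    simp only [cf_mon, if_pos] at hfq hgq
    by_cases h : S.Mem (q - γ)
    · rw [hfq h1 h, zero_mul]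
    · rw [hgq h (by rwa [sub_sub]), mul_zero]) hu hv

theorem one_mem_Pres (S : Dom) : (1 : W k) ∈ Pres k S :=
  one_eq_mon (k := k) ▸ mon_mem_Pres fun q h1 h2 => absurd (by simpa using h2) h1

/-- The first half of the deformation bimodule. -/
def Sp1 (k : Type) [Field k] (δ β : ℤ) : Submodule k (W k) := Sp k δ β ⊓ Pres k .fst

/-- The second half of the deformation bimodule. -/
def Sp2 (k : Type) [Field k] (δ β : ℤ) : Submodule k (W k) := Sp k δ β ⊓ Pres k .snd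

/-- The undeformed spaces. -/
def Sp0 (k : Type) [Field k] (δ β : ℤ) : Submodule k (W k) := Sp1 k δ β ⊓ Sp2 k δ β

theorem Sp0_le_Sp1 (δ β : ℤ) : Sp0 k δ β ≤ Sp1 k δ β := inf_le_left

theorem Sp0_le_Sp2 (δ β : ℤ) : Sp0 k δ β ≤ Sp2 k δ β := inf_le_right

theorem Sp1_le_Sp (δ β : ℤ) : Sp1 k δ β ≤ Sp k δ β := inf_le_left

theorem Sp2_le_Sp (δ β : ℤ) : Sp2 k δ β ≤ Sp k δ β := inf_le_left

theorem Sp0_le_Sp (δ β : ℤ) : Sp0 k δ β ≤ Sp k δ β := (Sp0_le_Sp1 δ β).trans (Sp1_le_Sp δ β)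

section
variable {δ β δ' β' : ℤ} {u v : W k}

theorem mul_mem_Sp1 (hu : u ∈ Sp1 k δ β) (hv : v ∈ Sp1 k δ' β') :
    u * v ∈ Sp1 k (δ + δ') (β + β') := ⟨mul_mem_Sp hu.1 hv.1, mul_mem_Pres hu.2 hv.2⟩

theorem mul_mem_Sp2 (hu : u ∈ Sp2 k δ β) (hv : v ∈ Sp2 k δ' β') :
    u * v ∈ Sp2 k (δ + δ') (β + β') := ⟨mul_mem_Sp hu.1 hv.1, mul_mem_Pres hu.2 hv.2⟩

theorem mul_mem_Sp0 (hu : u ∈ Sp0 k δ β) (hv : v ∈ Sp0 k δ' β') :
    u * v ∈ Sp0 k (δ + δ') (β + β') := ⟨mul_mem_Sp1 hu.1 hv.1, mul_mem_Sp2 hu.2 hv.2⟩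

theorem one_mem_Sp0 : (1 : W k) ∈ Sp0 k 0 0 :=
  ⟨⟨one_mem_Sp, one_mem_Pres _⟩, ⟨one_mem_Sp, one_mem_Pres _⟩⟩

theorem Sp0_le_Pres_reg (hu : u ∈ Sp0 k δ β) : u ∈ Pres k .reg := by
  intro γ q hq hqγ
  rcases not_and_or.1 hq with h | h
  · exact hu.2.2 γ q h hqγ.1
  · exact hu.1.2 γ q h hqγ.2

theorem Sp0_le_Pres (S : Dom) (hu : u ∈ Sp0 k δ β) : u ∈ Pres k S := by
  cases S with
  | all => intro γ q h; exact absurd trivial h
  | fst => exact hu.1.2
  | snd => exact hu.2.2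
  | reg => exact Sp0_le_Pres_reg hu

end

/-! ### Finiteness -/

instance finite_Sp (δ β : ℤ) : Module.Finite k (Sp k δ β) := by
  classical
  let I := Finset.Icc (-β) (δ + β) ×ˢ Finset.Icc (-β) (δ + β)
  let φ : Sp k δ β →ₗ[k] (↥I → MvPolynomial.restrictTotalDegree (Fin 2) k β.toNat) :=
    { toFun := fun w γ => ⟨cf w.1 γ.1, by
        rw [mem_restrictTotalDegree]
        rcases w.2 γ.1 with h | ⟨-, h⟩
        · simp [h]
        · omega⟩
      map_add' := fun u v => funext fun γ => Subtype.ext (cf_add _ _ _)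
      map_smul' := fun c u => funext fun γ => Subtype.ext (cf_smul _ _ _) }
  have hφ : Function.Injective φ := fun u v h => Subtype.ext <| W_ext fun γ => by
    by_cases hγ : γ ∈ I
    · exact congrArg Subtype.val (congrFun h ⟨γ, hγ⟩)
    · have hz : ∀ w : Sp k δ β, cf w.1 γ = 0 := fun w => by
        rcases w.2 γ with h' | ⟨⟨h1, h2, h3, h4⟩, -⟩
        · exact h'
        · exact absurd (by
            simp only [I, Finset.mem_product, Finset.mem_Icc]; omega) hγ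
      rw [hz u, hz v]
  have : Module.Finite k (MvPolynomial.restrictTotalDegree (Fin 2) k β.toNat) := inferInstance
  exact Module.Finite.of_injective φ hφ

instance finite_Sp1 (δ β : ℤ) : Module.Finite k (Sp1 k δ β) :=
  Submodule.finiteDimensional_of_le (Sp1_le_Sp δ β)

instance finite_Sp2 (δ β : ℤ) : Module.Finite k (Sp2 k δ β) :=
  Submodule.finiteDimensional_of_le (Sp2_le_Sp δ β)

instance finite_Sp0 (δ β : ℤ) : Module.Finite k (Sp0 k δ β) :=
  Submodule.finiteDimensional_of_le (Sp0_le_Sp δ β)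

/-- `P₁ + P₂` is everything in relative degree at least `-1`. -/
theorem Sp_le_sup {δ β : ℤ} (hδ : -1 ≤ δ) : Sp k δ β ≤ Sp1 k δ β ⊔ Sp2 k δ β := by
  intro w hw
  rw [W_eq_sum w]
  refine Submodule.sum_mem _ fun g _ => ?_
  generalize g.toAdd = γ
  rcases hw γ with h | h
  · rw [h, mon_zero]; exact Submodule.zero_mem _
  obtain ⟨⟨h1, -, -, -⟩, -⟩ := h
  by_cases hγ : 0 ≤ γ.2
  · refine Submodule.mem_sup_left ⟨Sp_component hw γ, mon_mem_Pres fun q hq hq' => ?_⟩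
    simp only [Dom.Mem, Prod.snd_sub] at hq hq'
    omega
  · refine Submodule.mem_sup_right ⟨Sp_component hw γ, mon_mem_Pres fun q hq hq' => ?_⟩
    simp only [Dom.Mem, Prod.fst_sub] at hq hq'
    omega

end

end Vale.Agent.P195D
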