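import Mathlib

/-!
Differential operators on Laurent polynomials in two variables: sums `∑ x^γ f(θ)`, written with
the polynomial on the left, acting by `x^p ↦ f(p+γ) x^(p+γ)`.
-/

namespace Vale.Agent.P195D

set_option linter.unusedSimpArgs false

open MvPolynomial

noncomputable section

variable {k : Type} [Field k]

/-- Exponents of Laurent monomials. -/
abbrev Gam : Type := ℤ × ℤ

/-- Polynomials in the two Euler operators. -/
abbrev Pl (k : Type) [Field k] : Type := MvPolynomial (Fin 2) k

/-- Coordinates of an exponent. -/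
def crd (γ : Gam) (i : Fin 2) : ℤ := if i = 0 then γ.1 else γ.2

@[simp] theorem crd_add (γ δ : Gam) (i : Fin 2) : crd (γ + δ) i = crd γ i + crd δ i := by
  unfold crd; split <;> simp

@[simp] theorem crd_sub (γ δ : Gam) (i : Fin 2) : crd (γ - δ) i = crd γ i - crd δ i := by
  unfold crd; split <;> simp

@[simp] theorem crd_zero (i : Fin 2) : crd 0 i = 0 := by
  unfold crd; split <;> simp

/-- Translation `f ↦ f(θ - γ)`. -/
def tau (γ : Gam) : Pl k →ₐ[k] Pl k := aeval fun i => X i - C ((crd γ i : ℤ) : k)

@[simp] theorem tau_X (γ : Gam) (i : Fin 2) :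
    tau γ (X i : Pl k) = X i - C ((crd γ i : ℤ) : k) := by simp [tau]

theorem tau_zero : tau (k := k) 0 = AlgHom.id k (Pl k) := algHom_ext fun i => by simp

theorem tau_add (γ δ : Gam) : tau (k := k) (γ + δ) = (tau γ).comp (tau δ) :=
  algHom_ext fun i => by simp [tau]; ring

instance : MulSemiringAction (Multiplicative Gam) (Pl k) where
  smul g f := tau g.toAdd f
  one_smul f := by
    show tau (Multiplicative.toAdd (1 : Multiplicative Gam)) f = f
    rw [toAdd_one, tau_zero]; rfl
  mul_smul g h f := by
    show tau (Multiplicative.toAdd (g * h)) f = tau g.toAdd (tau h.toAdd f)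
    rw [toAdd_mul, tau_add]; rfl
  smul_zero g := map_zero (tau g.toAdd)
  smul_add g := map_add (tau g.toAdd)
  smul_one g := map_one (tau g.toAdd)
  smul_mul g := map_mul (tau g.toAdd)

theorem gsmul_def (g : Multiplicative Gam) (f : Pl k) : g • f = tau g.toAdd f := rfl

instance : SMulCommClass (Multiplicative Gam) k (Pl k) :=
  ⟨fun g c f => (tau g.toAdd).toLinearMap.map_smul c f⟩

/-- The ring of operators. -/
abbrev W (k : Type) [Field k] : Type := SkewMonoidAlgebra (Pl k) (Multiplicative Gam)

/-- The operator with single weight `γ` and coefficient `f`. -/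
def mon (γ : Gam) (f : Pl k) : W k := SkewMonoidAlgebra.single (Multiplicative.ofAdd γ) f

/-- The coefficient of weight `γ`. -/
def cf (w : W k) (γ : Gam) : Pl k := w.coeff (Multiplicative.ofAdd γ)

@[ext] theorem W_ext {u v : W k} (h : ∀ γ, cf u γ = cf v γ) : u = v :=
  SkewMonoidAlgebra.ext fun g => h g.toAdd

@[simp] theorem cf_add (u v : W k) (γ : Gam) : cf (u + v) γ = cf u γ + cf v γ := by
  simp [cf, SkewMonoidAlgebra.coeff_add]

@[simp] theorem cf_zero (γ : Gam) : cf (0 : W k) γ = 0 := by simp [cf]

@[simp] theorem cf_smul (c : k) (u : W k) (γ : Gam) : cf (c • u) γ = c • cf u γ := by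
  simp [cf, SkewMonoidAlgebra.coeff_smul]

theorem cf_mon (γ δ : Gam) (f : Pl k) : cf (mon γ f) δ = if γ = δ then f else 0 := by
  simp [cf, mon, SkewMonoidAlgebra.coeff_single, Finsupp.single_apply]

theorem mon_mul_mon (γ δ : Gam) (f g : Pl k) :
    mon γ f * mon δ g = mon (γ + δ) (f * tau γ g) := by
  simp only [mon, SkewMonoidAlgebra.single_mul_single, gsmul_def, ← ofAdd_add, toAdd_ofAdd]

theorem mon_add (γ : Gam) (f g : Pl k) : mon γ (f + g) = mon γ f + mon γ g :=
  SkewMonoidAlgebra.single_add _ _ _

@[simp] theorem mon_zero (γ : Gam) : mon γ (0 : Pl k) = 0 := SkewMonoidAlgebra.single_zero _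

theorem one_eq_mon : (1 : W k) = mon 0 1 := rfl

theorem W_induction {p : W k → Prop} (w : W k) (hmon : ∀ γ f, p (mon γ f))
    (hadd : ∀ u v, p u → p v → p (u + v)) : p w :=
  SkewMonoidAlgebra.induction_on' w (fun g a => hmon g.toAdd a) hadd

theorem W_eq_sum (w : W k) : w = ∑ g ∈ w.support, mon g.toAdd (cf w g.toAdd) := by
  conv_lhs => rw [← SkewMonoidAlgebra.sum_single w, SkewMonoidAlgebra.sum_def']
  rfl

/-- The derivation `∂/∂θ_i`, which is the commutator with `log x_i`. -/
def pd (i : Fin 2) : W k →ₗ[k] W k where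
  toFun w := ⟨w.coeff.mapRange (pderiv i) (map_zero _)⟩
  map_add' u v := W_ext fun γ => by simp [cf, SkewMonoidAlgebra.coeff_add]
  map_smul' c u := W_ext fun γ => by simp [cf, SkewMonoidAlgebra.coeff_smul]

@[simp] theorem cf_pd (i : Fin 2) (w : W k) (γ : Gam) : cf (pd i w) γ = pderiv i (cf w γ) := by
  simp [cf, pd]

@[simp] theorem pd_mon (i : Fin 2) (γ : Gam) (f : Pl k) :
    pd i (mon γ f) = mon γ (pderiv i f) := W_ext fun δ => by
  rw [cf_pd, cf_mon, cf_mon]; split <;> simp

theorem pderiv_tau (i : Fin 2) (γ : Gam) (f : Pl k) : pderiv i (tau γ f) = tau γ (pderiv i f) := by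
  induction f using MvPolynomial.induction_on with
  | C a => simp [tau]
  | add p q hp hq => simp only [map_add, hp, hq]
  | mul_X p j hp =>
    by_cases h : i = j
    · subst h; simp [pderiv_mul, map_mul, map_add, hp]
    · simp [pderiv_mul, map_mul, map_add, hp, pderiv_X_of_ne (Ne.symm h)]

theorem pd_mul (i : Fin 2) (u v : W k) : pd i (u * v) = pd i u * v + u * pd i v := by
  induction u using W_induction with
  | hmon γ f =>
    induction v using W_induction with
    | hmon δ g => simp only [mon_mul_mon, pd_mon, ← mon_add, pderiv_mul, pderiv_tau]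
    | hadd v v' h h' => simp only [mul_add, map_add, h, h']; abel
  | hadd u u' h h' => simp only [add_mul, map_add, h, h']; abel

@[simp] theorem pd_one (i : Fin 2) : pd i (1 : W k) = 0 := by
  rw [one_eq_mon, pd_mon, pderiv_one, mon_zero]

/-- Evaluation at an exponent. -/
def ev (q : Gam) : Pl k →ₐ[k] k := aeval fun i => ((crd q i : ℤ) : k)

theorem ev_tau (q γ : Gam) (f : Pl k) : ev q (tau γ f) = ev (q - γ) f := by
  have : (ev (k := k) q).comp (tau γ) = ev (q - γ) := algHom_ext fun i => by simp [ev, tau]
  exact AlgHom.congr_fun this f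

/-! ### Degree bounds -/

theorem totalDegree_tau_le (γ : Gam) (f : Pl k) : (tau γ f).totalDegree ≤ f.totalDegree := by
  conv_lhs => rw [f.as_sum, map_sum]
  refine (totalDegree_finsetSum_le fun d hd => ?_)
  refine le_trans ?_ (le_totalDegree hd)
  rw [tau, aeval_monomial]
  refine (totalDegree_mul _ _).trans ?_
  rw [show (algebraMap k (Pl k)) (coeff d f) = C (coeff d f) from rfl, totalDegree_C, zero_add,
    Finsupp.prod]
  refine (totalDegree_finsetProd _ _).trans ?_
  refine Finset.sum_le_sum fun i _ => ?_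
  refine (totalDegree_pow _ _).trans ?_
  calc d i * (X i - C ((crd γ i : ℤ) : k) : Pl k).totalDegree ≤ d i * 1 := by
        gcongr
        refine (totalDegree_sub _ _).trans ?_
        rw [totalDegree_X, totalDegree_C]
        simp
    _ = d i := mul_one _

theorem totalDegree_pderiv_le' (i : Fin 2) (f : Pl k) :
    (pderiv i f).totalDegree ≤ f.totalDegree := by
  conv_lhs => rw [f.as_sum, map_sum]
  refine (totalDegree_finsetSum_le fun d hd => ?_)
  refine le_trans ?_ (le_totalDegree hd)
  rw [pderiv_monomial]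
  refine (totalDegree_monomial_le _ _).trans ?_
  exact Finsupp.sum_le_sum_index (by simp) (fun _ _ _ _ h => h) (by simp)

end

end Vale.Agent.P195D
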